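import Crest.Agent.N207.Defs

/-!
# Row 207, block G (helper25): transitions between local parametrisations
-/

set_option autoImplicit false
set_option linter.unusedSectionVars false

open scoped ContDiff Manifold Topology
open Set Filter
open Crest.GeometryTopology.CoordMetric
open Crest.Agent.R202.Tens

noncomputable section

namespace Crest.Agent.N207.Gs

variable {n : ℕ} {M : Type*} [TopologicalSpace M] [ChartedSpace (En n) M]
  [IsManifold 𝓘(ℝ, En n) ∞ M]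

theorem infty_ne : (∞ : WithTop ℕ∞) ≠ 0 := by simp

theorem sum_single (X : En n) : X = ∑ i, X i • (EuclideanSpace.single i (1 : ℝ) : En n) := by
  ext k; simp [Finset.sum_apply, Pi.single_apply]

theorem pm_bil (m : Met n M) (Ψ : En n → M) (y X Y : En n) :
    bil (m.pm Ψ y) X Y = m.inner (Ψ y) (mfderiv 𝓘(ℝ, En n) 𝓘(ℝ, En n) Ψ y X)
      (mfderiv 𝓘(ℝ, En n) 𝓘(ℝ, En n) Ψ y Y) := by
  rw [bil_apply]
  set L : En n →L[ℝ] En n := mfderiv 𝓘(ℝ, En n) 𝓘(ℝ, En n) Ψ y with hL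
  set B : En n →L[ℝ] En n →L[ℝ] ℝ := m.inner (Ψ y) with hB
  have e : ∀ i j, m.pm Ψ y i j =
      B (L (EuclideanSpace.single i 1)) (L (EuclideanSpace.single j 1)) := fun _ _ => rfl
  show _ = B (L X) (L Y)
  conv_rhs => rw [sum_single X, sum_single Y]
  simp only [e, map_sum, map_smul, sum_apply, smul_apply,
    smul_eq_mul, Finset.mul_sum]
  rw [Finset.sum_comm]
  refine Finset.sum_congr rfl fun i _ => Finset.sum_congr rfl fun j _ => by ring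

theorem bil_single (A : Matrix (Fin n) (Fin n) ℝ) (i j : Fin n) :
    bil A (EuclideanSpace.single i 1) (EuclideanSpace.single j 1) = A i j := by
  rw [bil_apply]
  simp

theorem pm_congr (m : Met n M) {Ψ Ψ' : En n → M} {y : En n} (h : Ψ =ᶠ[𝓝 y] Ψ') :
    m.pm Ψ y = m.pm Ψ' y := by
  ext i j
  have e := h.eq_of_nhds
  have e2 : (mfderiv 𝓘(ℝ, En n) 𝓘(ℝ, En n) Ψ y : En n →L[ℝ] En n) =
      mfderiv 𝓘(ℝ, En n) 𝓘(ℝ, En n) Ψ' y := h.mfderiv_eq
  have k : ∀ p q : M, p = q → ∀ a b : En n, m.inner p a b = m.inner q a b := by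
    rintro p q rfl a b; rfl
  refine (k _ _ e _ _).trans ?_
  exact congrArg₂ (fun a b : En n => m.inner (Ψ' y) a b) (congrArg (fun L : En n →L[ℝ] En n => L _) e2)
    (congrArg (fun L : En n →L[ℝ] En n => L _) e2)

theorem mfderiv_comp_T {Ψ : En n → M} {T : En n → En n} {y : En n}
    (hΨ : MDifferentiableAt 𝓘(ℝ, En n) 𝓘(ℝ, En n) Ψ (T y)) (hT : DifferentiableAt ℝ T y) (X : En n) :
    mfderiv 𝓘(ℝ, En n) 𝓘(ℝ, En n) (fun z => Ψ (T z)) y X =
      mfderiv 𝓘(ℝ, En n) 𝓘(ℝ, En n) Ψ (T y) (fderiv ℝ T y X) := by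
  have h := mfderiv_comp (I := 𝓘(ℝ, En n)) (I' := 𝓘(ℝ, En n)) (I'' := 𝓘(ℝ, En n)) y hΨ
    hT.mdifferentiableAt
  rw [mfderiv_eq_fderiv] at h
  exact congrArg (fun L : En n →L[ℝ] En n => L X) h

theorem pm_comp_bil (m : Met n M) {Ψ : En n → M} {T : En n → En n} {y : En n}
    (hΨ : MDifferentiableAt 𝓘(ℝ, En n) 𝓘(ℝ, En n) Ψ (T y)) (hT : DifferentiableAt ℝ T y)
    (X Y : En n) : bil (m.pm (fun z => Ψ (T z)) y) X Y =
      bil (m.pm Ψ (T y)) (fderiv ℝ T y X) (fderiv ℝ T y Y) := by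
  rw [pm_bil, pm_bil, mfderiv_comp_T hΨ hT, mfderiv_comp_T hΨ hT]

theorem pm_comp (m : Met n M) {Ψ : En n → M} {T : En n → En n} {y : En n}
    (hΨ : MDifferentiableAt 𝓘(ℝ, En n) 𝓘(ℝ, En n) Ψ (T y)) (hT : DifferentiableAt ℝ T y)
    (i j : Fin n) : m.pm (fun z => Ψ (T z)) y i j = ∑ a, ∑ b, m.pm Ψ (T y) a b *
      (fderiv ℝ T y (EuclideanSpace.single i 1)) a * (fderiv ℝ T y (EuclideanSpace.single j 1)) b := by
  rw [← bil_single (m.pm (fun z => Ψ (T z)) y), pm_comp_bil m hΨ hT, bil_apply]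

theorem par_at {Ψ : En n → M} {U : Set (En n)} (h : Par Ψ U) {y : En n} (hy : y ∈ U) :
    ContMDiffAt 𝓘(ℝ, En n) 𝓘(ℝ, En n) ∞ Ψ y := h.sm.contMDiffAt (h.isOpen.mem_nhds hy)

theorem par_md {Ψ : En n → M} {U : Set (En n)} (h : Par Ψ U) {y : En n} (hy : y ∈ U) :
    MDifferentiableAt 𝓘(ℝ, En n) 𝓘(ℝ, En n) Ψ y := (par_at h hy).mdifferentiableAt infty_ne

theorem par_cont {Ψ : En n → M} {U : Set (En n)} (h : Par Ψ U) : ContinuousOn Ψ U :=
  h.sm.continuousOn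

theorem par_mono {Ψ : En n → M} {U V : Set (En n)} (h : Par Ψ U) (hV : IsOpen V) (hVU : V ⊆ U) :
    Par Ψ V := ⟨hV, h.sm.mono hVU, fun y hy => h.inj y (hVU hy)⟩

theorem par_congr {Ψ Ψ' : En n → M} {U : Set (En n)} (h : Par Ψ U) (e : ∀ y ∈ U, Ψ' y = Ψ y) :
    Par Ψ' U := by
  refine ⟨h.isOpen, h.sm.congr e, fun y hy => ?_⟩
  have e1 : Ψ' =ᶠ[𝓝 y] Ψ := mem_of_superset (h.isOpen.mem_nhds hy) e
  have e2 : (mfderiv 𝓘(ℝ, En n) 𝓘(ℝ, En n) Ψ' y : En n →L[ℝ] En n) =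
      mfderiv 𝓘(ℝ, En n) 𝓘(ℝ, En n) Ψ y := e1.mfderiv_eq
  intro a b hab
  refine h.inj y hy ?_
  exact (congrArg (fun L : En n →L[ℝ] En n => L a) e2).symm.trans
    (hab.trans (congrArg (fun L : En n →L[ℝ] En n => L b) e2))

/-- composition with a local diffeomorphism -/
theorem par_comp {Ψ : En n → M} {U V : Set (En n)} (h : Par Ψ U) {T : En n → En n} (hV : IsOpen V)
    (hT : ContDiffOn ℝ ∞ T V) (hm : ∀ y ∈ V, T y ∈ U)
    (hi : ∀ y ∈ V, Function.Injective (fderiv ℝ T y)) : Par (fun z => Ψ (T z)) V := by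
  refine ⟨hV, h.sm.comp hT.contMDiffOn hm, fun y hy a b hab => ?_⟩
  have hd : DifferentiableAt ℝ T y := (hT.contDiffAt (hV.mem_nhds hy)).differentiableAt infty_ne
  have k := fun X => mfderiv_comp_T (par_md h (hm y hy)) hd X
  exact hi y hy (h.inj _ (hm y hy) ((k a).symm.trans (hab.trans (k b))))

/-- parametrisations are local objects -/
theorem par_of_local {Ψ : En n → M} {U : Set (En n)} (hU : IsOpen U)
    (h : ∀ y ∈ U, ∃ V, y ∈ V ∧ Par Ψ V) : Par Ψ U := by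
  refine ⟨hU, fun y hy => ?_, fun y hy => ?_⟩
  · obtain ⟨V, hyV, hV⟩ := h y hy
    exact (par_at hV hyV).contMDiffWithinAt
  · obtain ⟨V, hyV, hV⟩ := h y hy
    exact hV.inj y hyV

/-- a parametrisation read in a chart -/
theorem par_chart {Ψ : En n → M} {U : Set (En n)} (h : Par Ψ U) (x : M) {y : En n} (hy : y ∈ U)
    (hx : Ψ y ∈ (chartAt (En n) x).source) :
    ContDiffAt ℝ ∞ (fun z => chartAt (En n) x (Ψ z)) y ∧
      Function.Injective (fderiv ℝ (fun z => chartAt (En n) x (Ψ z)) y) := by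
  have hc : ContMDiffAt 𝓘(ℝ, En n) 𝓘(ℝ, En n) ∞ (chartAt (En n) x) (Ψ y) :=
    (contMDiffOn_chart (I := 𝓘(ℝ, En n)) (x := x)).contMDiffAt
      ((chartAt (En n) x).open_source.mem_nhds hx)
  have h1 : ContDiffAt ℝ ∞ (fun z => chartAt (En n) x (Ψ z)) y :=
    contMDiffAt_iff_contDiffAt.1 (hc.comp y (par_at h hy))
  refine ⟨h1, fun a b hab => h.inj y hy ?_⟩
  have hs : ContMDiffAt 𝓘(ℝ, En n) 𝓘(ℝ, En n) ∞ (chartAt (En n) x).symm (chartAt (En n) x (Ψ y)) :=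
    (contMDiffOn_chart_symm (I := 𝓘(ℝ, En n)) (x := x)).contMDiffAt
      ((chartAt (En n) x).open_target.mem_nhds ((chartAt (En n) x).map_source hx))
  have e : Ψ =ᶠ[𝓝 y] fun z => (chartAt (En n) x).symm (chartAt (En n) x (Ψ z)) := by
    filter_upwards [(par_at h hy).continuousAt.preimage_mem_nhds
      ((chartAt (En n) x).open_source.mem_nhds hx)] with z hz
    exact ((chartAt (En n) x).left_inv hz).symm
  have e2 : (mfderiv 𝓘(ℝ, En n) 𝓘(ℝ, En n) Ψ y : En n →L[ℝ] En n) =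
      mfderiv 𝓘(ℝ, En n) 𝓘(ℝ, En n)
        (fun z => (chartAt (En n) x).symm (chartAt (En n) x (Ψ z))) y := e.mfderiv_eq
  have k := fun X => mfderiv_comp_T (Ψ := (chartAt (En n) x).symm)
    (T := fun z => chartAt (En n) x (Ψ z)) (y := y) (hs.mdifferentiableAt infty_ne)
    (h1.differentiableAt infty_ne) X
  refine (congrArg (fun L : En n →L[ℝ] En n => L a) e2).trans
    (Eq.trans ?_ (congrArg (fun L : En n →L[ℝ] En n => L b) e2).symm)
  exact (k a).trans ((congrArg _ hab).trans (k b).symm)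

/-- an injective endomorphism as an equivalence -/
def eqv (L : En n →L[ℝ] En n) (h : Function.Injective L) : En n ≃L[ℝ] En n :=
  (LinearEquiv.ofInjectiveEndo (L : En n →ₗ[ℝ] En n) h).toContinuousLinearEquiv

theorem eqv_coe (L : En n →L[ℝ] En n) (h : Function.Injective L) :
    (eqv L h : En n →L[ℝ] En n) = L := by ext; rfl

/-- smooth local inverse on an open neighbourhood -/
theorem exists_loc_inv {Φ : En n → En n} {U : Set (En n)} (hU : IsOpen U)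
    (hs : ∀ z ∈ U, ContDiffAt ℝ ∞ Φ z) (hi : ∀ z ∈ U, Function.Injective (fderiv ℝ Φ z))
    {y : En n} (hy : y ∈ U) : ∃ (S : En n → En n) (W : Set (En n)), IsOpen W ∧ Φ y ∈ W ∧
      S (Φ y) = y ∧ ContDiffOn ℝ ∞ S W ∧ ∀ w ∈ W, S w ∈ U ∧ Φ (S w) = w := by
  have hd : ∀ z (hz : z ∈ U), HasFDerivAt Φ (eqv _ (hi z hz) : En n →L[ℝ] En n) z := fun z hz => by
    rw [eqv_coe]; exact ((hs z hz).differentiableAt infty_ne).hasFDerivAt
  set e := (hs y hy).toOpenPartialHomeomorph Φ (hd y hy) infty_ne with he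
  have hsrc : y ∈ e.source := ContDiffAt.mem_toOpenPartialHomeomorph_source _ _ _
  have ec : (e : En n → En n) = Φ := rfl
  refine ⟨e.symm, e.target ∩ e.symm ⁻¹' U, e.continuousOn_symm.isOpen_inter_preimage e.open_target hU,
    ⟨e.map_source hsrc, ?_⟩, e.left_inv hsrc, fun w hw => ?_, fun w hw => ⟨hw.2, e.right_inv hw.1⟩⟩
  · show e.symm (e y) ∈ U
    rw [e.left_inv hsrc]; exact hy
  · exact (e.contDiffAt_symm hw.1 (hd _ hw.2) (hs _ hw.2)).contDiffWithinAt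

/-- local transitions -/
theorem exists_trans0 {Ψ Ψ' : En n → M} {U U' : Set (En n)} (h : Par Ψ U) (h' : Par Ψ' U')
    {y y' : En n} (hy : y ∈ U) (hy' : y' ∈ U') (e : Ψ' y' = Ψ y) :
    ∃ (T : En n → En n) (V : Set (En n)), IsOpen V ∧ y ∈ V ∧ V ⊆ U ∧ T y = y' ∧
      ContDiffOn ℝ ∞ T V ∧ ∀ z ∈ V, T z ∈ U' ∧ Ψ' (T z) = Ψ z := by
  set c := chartAt (En n) (Ψ y) with hc
  have hx : Ψ y ∈ c.source := mem_chart_source _ _
  have hO' : IsOpen (U' ∩ Ψ' ⁻¹' c.source) :=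
    (par_cont h').isOpen_inter_preimage h'.isOpen c.open_source
  have hO : IsOpen (U ∩ Ψ ⁻¹' c.source) := (par_cont h).isOpen_inter_preimage h.isOpen c.open_source
  obtain ⟨S, W, hW, hyW, hSy, hS, hSW⟩ := exists_loc_inv (Φ := fun z => c (Ψ' z)) hO'
    (fun z hz => (par_chart h' (Ψ y) hz.1 hz.2).1) (fun z hz => (par_chart h' (Ψ y) hz.1 hz.2).2)
    (y := y') ⟨hy', by show Ψ' y' ∈ c.source; rw [e]; exact hx⟩
  have hΦ : ContDiffOn ℝ ∞ (fun z => c (Ψ z)) (U ∩ Ψ ⁻¹' c.source) := fun z hz =>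
    (par_chart h (Ψ y) hz.1 hz.2).1.contDiffWithinAt
  refine ⟨fun z => S (c (Ψ z)), (U ∩ Ψ ⁻¹' c.source) ∩ (fun z => c (Ψ z)) ⁻¹' W,
    hΦ.continuousOn.isOpen_inter_preimage hO hW, ⟨⟨hy, hx⟩, ?_⟩, fun z hz => hz.1.1, ?_,
    hS.comp (hΦ.mono inter_subset_left) fun z hz => hz.2, fun z hz => ⟨(hSW _ hz.2).1.1, ?_⟩⟩
  · show c (Ψ y) ∈ W
    rw [← e]; exact hyW
  · show S (c (Ψ y)) = y'
    rw [← e]; exact hSy
  · exact c.injOn (hSW _ hz.2).1.2 hz.1.2 (hSW _ hz.2).2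

/-- parametrisations are open maps -/
theorem par_nhds {Ψ : En n → M} {U : Set (En n)} (h : Par Ψ U) {y : En n} (hy : y ∈ U)
    {V : Set (En n)} (hV : V ∈ 𝓝 y) : Ψ '' V ∈ 𝓝 (Ψ y) := by
  set c := chartAt (En n) (Ψ y) with hc
  have hx : Ψ y ∈ c.source := mem_chart_source _ _
  obtain ⟨V', hV'V, hV', hyV'⟩ := mem_nhds_iff.1 hV
  have hO : IsOpen ((U ∩ V') ∩ Ψ ⁻¹' c.source) :=
    ((par_cont h).mono inter_subset_left).isOpen_inter_preimage (h.isOpen.inter hV') c.open_source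
  obtain ⟨S, W, hW, hyW, -, -, hSW⟩ := exists_loc_inv (Φ := fun z => c (Ψ z)) hO
    (fun z hz => (par_chart h (Ψ y) hz.1.1 hz.2).1) (fun z hz => (par_chart h (Ψ y) hz.1.1 hz.2).2)
    (y := y) ⟨⟨hy, hyV'⟩, hx⟩
  have h1 : c.source ∩ c ⁻¹' W ∈ 𝓝 (Ψ y) :=
    (c.continuousOn.isOpen_inter_preimage c.open_source hW).mem_nhds ⟨hx, hyW⟩
  refine mem_of_superset h1 fun x hx' => ⟨S (c x), hV'V (hSW _ hx'.2).1.1.2, ?_⟩
  exact c.injOn (hSW _ hx'.2).1.2 hx'.1 (hSW _ hx'.2).2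

theorem par_isOpen {Ψ : En n → M} {U V : Set (En n)} (h : Par Ψ U) (hV : IsOpen V) (hVU : V ⊆ U) :
    IsOpen (Ψ '' V) := by
  rw [isOpen_iff_mem_nhds]
  rintro _ ⟨y, hy, rfl⟩
  exact par_nhds h (hVU hy) (hV.mem_nhds hy)

/-- a smooth `T` with `Ψ' ∘ T = Ψ` is a local isometry -/
theorem pull_of (m : Met n M) {Ψ Ψ' : En n → M} {U U' V : Set (En n)} (h : Par Ψ U)
    (h' : Par Ψ' U') (hR : IsRiemannianOn (m.pm Ψ') U') {T : En n → En n} (hV : IsOpen V)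
    (hVU : V ⊆ U) (hT : ContDiffOn ℝ ∞ T V) (hm : ∀ z ∈ V, T z ∈ U' ∧ Ψ' (T z) = Ψ z) :
    Pull (m.pm Ψ) (m.pm Ψ') T V U' := by
  have e : ∀ z ∈ V, Ψ =ᶠ[𝓝 z] fun w => Ψ' (T w) := fun z hz =>
    mem_of_superset (hV.mem_nhds hz) fun w hw => (hm w hw).2.symm
  have hd : ∀ z ∈ V, DifferentiableAt ℝ T z := fun z hz =>
    (hT.contDiffAt (hV.mem_nhds hz)).differentiableAt infty_ne
  refine ⟨hV, hR, fun z hz => (hm z hz).1, hT, fun z hz i j => ?_, fun z hz a b hab => ?_⟩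
  · rw [pm_congr m (e z hz), pm_comp m (par_md h' (hm z hz).1) (hd z hz)]
  · have e2 : (mfderiv 𝓘(ℝ, En n) 𝓘(ℝ, En n) Ψ z : En n →L[ℝ] En n) =
        mfderiv 𝓘(ℝ, En n) 𝓘(ℝ, En n) (fun w => Ψ' (T w)) z := (e z hz).mfderiv_eq
    have k := fun X => mfderiv_comp_T (par_md h' (hm z hz).1) (hd z hz) X
    refine h.inj z (hVU hz) ((congrArg (fun L : En n →L[ℝ] En n => L a) e2).trans
      (Eq.trans ?_ (congrArg (fun L : En n →L[ℝ] En n => L b) e2).symm))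
    exact (k a).trans ((congrArg _ hab).trans (k b).symm)

theorem par_symm (x : M) : Par (chartAt (En n) x).symm (tg n x) := by
  refine ⟨(chartAt (En n) x).open_target, contMDiffOn_chart_symm (I := 𝓘(ℝ, En n)), fun y hy => ?_⟩
  exact ((mdifferentiable_chart (I := 𝓘(ℝ, En n)) x).symm.mfderiv_injective hy)

variable [T3Space M] [ConnectedSpace M]

theorem par_riem (m : Met n M) {Ψ : En n → M} {U : Set (En n)} (h : Par Ψ U) :
    IsRiemannianOn (m.pm Ψ) U := by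
  have key : ∀ y ∈ U, ∃ V, y ∈ V ∧ IsRiemannianOn (m.pm Ψ) V := fun y hy => by
    have hx : Ψ y ∈ (chartAt (En n) (Ψ y)).source := mem_chart_source _ _
    obtain ⟨T, V, hV, hyV, hVU, -, hT, hm⟩ := exists_trans0 h (par_symm (Ψ y)) hy
      ((chartAt (En n) (Ψ y)).map_source hx) ((chartAt (En n) (Ψ y)).left_inv hx)
    exact ⟨V, hyV, (pull_of m h (par_symm (Ψ y))
      (R247.Bo84.isRiemannianOn_chartMetric (n := n) (M := Sl m) (Ψ y)) hV hVU hT hm).riem'⟩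
  refine ⟨h.isOpen, fun i j y hy => ?_, fun y hy => ?_⟩
  · obtain ⟨V, hyV, hV⟩ := key y hy
    exact ((hV.contDiffOn i j).contDiffAt (hV.isOpen.mem_nhds hyV)).contDiffWithinAt
  · obtain ⟨V, hyV, hV⟩ := key y hy
    exact hV.posDef y hyV

theorem pull_of' (m : Met n M) {Ψ Ψ' : En n → M} {U U' V : Set (En n)} (h : Par Ψ U)
    (h' : Par Ψ' U') {T : En n → En n} (hV : IsOpen V)
    (hVU : V ⊆ U) (hT : ContDiffOn ℝ ∞ T V) (hm : ∀ z ∈ V, T z ∈ U' ∧ Ψ' (T z) = Ψ z) :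
    Pull (m.pm Ψ) (m.pm Ψ') T V U' := pull_of m h h' (par_riem m h') hV hVU hT hm

end Crest.Agent.N207.Gs

end
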