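import Crest.Agent.N207.G.Tr
import Crest.Agent.N207.I.Jet2

/-!
# Row 207, block G (helper25): asymptotically Euclidean coordinate metrics along a filter
-/

set_option autoImplicit false
set_option linter.unusedSectionVars false
set_option maxSynthPendingDepth 3

open scoped ContDiff Manifold Topology
open Set Filter
open Crest.GeometryTopology.CoordMetric
open Crest.Agent.R202.Tens Crest.Agent.N207.Jt

noncomputable section

namespace Crest.Agent.N207.Gs

variable {n : ℕ} {ι : Type} {l : Filter ι}

/-- the jets of `G j` at `x j` converge to the jets of the Euclidean metric -/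
def GC (l : Filter ι) (G : ι → MetricField n) (x : ι → En n) : Prop :=
  ∀ a b, GE l (fun j y => G j y a b) x (fun _ _ => (1 : Matrix (Fin n) (Fin n) ℝ) a b) x

/-- uniform version -/
def MC (l : Filter ι) (G : ι → MetricField n) (S : ι → Set (En n)) : Prop :=
  GC (un l S) (fun p => G p.1) Prod.snd

theorem MC.at {G : ι → MetricField n} {S : ι → Set (En n)} (h : MC l G S) {κ : Type}
    {m : Filter κ} {e : κ → ι} {y : κ → En n} (he : Tendsto e m l)
    (hy : ∀ᶠ j in m, y j ∈ S (e j)) : GC m (fun j => G (e j)) y := fun a b =>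
  GE.comap (h a b) (tendsto_un he hy)

theorem MC.comap {G : ι → MetricField n} {S : ι → Set (En n)} (h : MC l G S) {κ : Type}
    {m : Filter κ} {e : κ → ι} {S' : κ → Set (En n)} (he : Tendsto e m l)
    (hS : ∀ᶠ j in m, S' j ⊆ S (e j)) : MC m (fun j => G (e j)) S' :=
  h.at (he.comp (un_fst _ _)) (ev_un.2 (hS.mono fun _ hj _ hz => hj hz))

theorem MC.mono {G : ι → MetricField n} {S S' : ι → Set (En n)} (h : MC l G S)
    (hS : ∀ᶠ j in l, S' j ⊆ S j) : MC l G S' := h.comap (e := id) tendsto_id hS

theorem ge_det {X : Type} [NormedAddCommGroup X] [NormedSpace ℝ X]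
    {A A' : ι → X → Matrix (Fin n) (Fin n) ℝ} {x x' : ι → X}
    (h : ∀ a b, GE l (fun j y => A j y a b) x (fun j y => A' j y a b) x') :
    GE l (fun j y => (A j y).det) x (fun j y => (A' j y).det) x' := by
  simp only [Matrix.det_apply']
  exact GE.sum _ fun σ _ => (GE.const' _).mul (GE.prod _ fun i _ => h _ _)

theorem ge_inv {G : ι → MetricField n} {x : ι → En n} (h : GC l G x) (a b : Fin n) :
    GE l (fun j y => (G j y)⁻¹ a b) x (fun _ _ => (1 : Matrix (Fin n) (Fin n) ℝ) a b) x := by
  have hd := ge_det (A' := fun _ _ => (1 : Matrix (Fin n) (Fin n) ℝ)) h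
  have hv : ∀ᶠ j in l, (G j (x j)).det ∈ Icc (1 / 2 : ℝ) (3 / 2) := by
    have := Metric.tendsto_nhds.1 hd.val (1 / 2) (by norm_num)
    filter_upwards [this] with j hj
    rw [Matrix.det_one, dist_zero_right, Real.norm_eq_abs, abs_lt] at hj
    constructor <;> linarith [hj.1, hj.2]
  have hi := hd.smoothOn (Φ := fun t : ℝ => t⁻¹) (K := Icc (1 / 2) (3 / 2)) isCompact_Icc
    (fun t ht => contDiffAt_inv ℝ (by linarith [ht.1])) hv
    (Eventually.of_forall fun _ => by rw [Matrix.det_one]; constructor <;> norm_num)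
  have ha : GE l (fun j y => (G j y).adjugate a b) x
      (fun _ _ => (1 : Matrix (Fin n) (Fin n) ℝ).adjugate a b) x := by
    simp only [Matrix.adjugate_apply]
    refine ge_det fun c d => ?_
    by_cases hc : c = b
    · subst hc; simp only [Matrix.updateRow_self]; exact GE.const' _
    · simp only [Matrix.updateRow_ne hc]; exact h c d
  have := hi.mul ha
  simp only [Matrix.det_one, inv_one, Matrix.adjugate_one, one_mul] at this
  simpa only [Matrix.inv_def, Ring.inverse_eq_inv', Matrix.smul_apply, smul_eq_mul] using this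

theorem ge_pderiv {u : ι → En n → ℝ} {x : ι → En n} {c : ℝ} (h : GE l u x (fun _ _ => c) x)
    (i : Fin n) : GE l (fun j y => pderiv i (u j) y) x (fun _ _ => 0) x := by
  have := h.fderiv.app (GE.const' (x := x) (x' := x) (EuclideanSpace.single i (1 : ℝ) : En n))
  simpa only [pderiv, fderiv_fun_const, Pi.zero_apply, zero_apply] using this

theorem ge_chris {G : ι → MetricField n} {x : ι → En n} (h : GC l G x) (k a b : Fin n) :
    GE l (fun j y => christoffel (G j) y k a b) x (fun _ _ => 0) x := by
  have := (GE.const' (l := l) (x := x) (x' := x) (1 / 2 : ℝ)).mul (GE.sum Finset.univ fun c _ =>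
    (ge_inv h k c).mul (((ge_pderiv (h b c) a).add (ge_pderiv (h a c) b)).sub (ge_pderiv (h a b) c)))
  simp only [add_zero, sub_zero, mul_zero, Finset.sum_const_zero] at this
  exact this

theorem ge_gam {G : ι → MetricField n} {x : ι → En n} (h : GC l G x) :
    GE l (fun j => Gam (G j)) x (fun _ _ => 0) x := by
  have := GE.sum Finset.univ fun a _ => GE.sum Finset.univ fun b _ => GE.sum Finset.univ fun k _ =>
    (ge_chris h k a b).smul (GE.const' (l := l) (x := x) (x' := x)
      ((EuclideanSpace.proj a : En n →L[ℝ] ℝ).smulRight ((EuclideanSpace.proj b : En n →L[ℝ] ℝ).smulRight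
        (EuclideanSpace.single k (1:ℝ) : En n))))
  simp only [zero_smul, Finset.sum_const_zero] at this
  exact this

theorem ge_gf {G : ι → MetricField n} {x : ι → En n} (h : GC l G x) :
    GE l (fun j y => bil (G j y)) x (fun _ _ => bil (1 : Matrix (Fin n) (Fin n) ℝ)) x :=
  GE.sum Finset.univ fun a _ => GE.sum Finset.univ fun b _ =>
    (h a b).smul (GE.const' (l := l) (x := x) (x' := x) _)

theorem bil_one (X Y : En n) : bil (1 : Matrix (Fin n) (Fin n) ℝ) X Y = inner ℝ X Y := by
  rw [bil_apply, PiLp.inner_apply]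
  refine Finset.sum_congr rfl fun i _ => ?_
  simp [Matrix.one_apply, mul_comm]

/-- from bilinear forms back to entries -/
theorem gc_of_bil {G : ι → MetricField n} {x : ι → En n}
    (h : GE l (fun j y => bil (G j y)) x (fun _ _ => bil (1 : Matrix (Fin n) (Fin n) ℝ)) x) :
    GC l G x := fun a b => by
  have := (h.app (GE.const' (EuclideanSpace.single a (1 : ℝ) : En n))).app
    (GE.const' (EuclideanSpace.single b (1 : ℝ) : En n))
  simpa only [bil_single] using this

/-- pull-back of an asymptotically Euclidean metric by an asymptotically orthogonal map -/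
theorem gc_pull {G G' : ι → MetricField n} {x : ι → En n} {T : ι → En n → En n}
    {A : ι → En n ≃ₗᵢ[ℝ] En n} (h : GC l G' fun j => T j (x j))
    (hT : GE l (fun j => fderiv ℝ (T j)) x (fun j _ => (A j : En n →L[ℝ] En n)) x) (hB : GB l T x)
    (e : ∀ᶠ j in l, ∀ᶠ y in 𝓝 (x j), ∀ X Y, bil (G j y) X Y =
      bil (G' j (T j y)) (fderiv ℝ (T j) y X) (fderiv ℝ (T j) y Y)) : GC l G x := fun a b => by
  have h1 : GE l (fun j y => bil (G' j (T j y))) x
      (fun _ _ => bil (1 : Matrix (Fin n) (Fin n) ℝ)) x := (ge_gf h).comp hB.ge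
  have h2 := (h1.app (hT.app (GE.const' (EuclideanSpace.single a (1 : ℝ) : En n)))).app
    (hT.app (GE.const' (EuclideanSpace.single b (1 : ℝ) : En n)))
  have h3 : GE l (fun j y => G j y a b) x _ x := h2.congr_left (e.mono fun j hj =>
    ⟨rfl, hj.mono fun y hy => (bil_single (G j y) a b).symm.trans (hy _ _)⟩)
  refine h3.congr_right (Eventually.of_forall fun j => ⟨rfl, Eventually.of_forall fun y => ?_⟩)
  show (1 : Matrix (Fin n) (Fin n) ℝ) a b = bil 1 (A j _) (A j _)
  rw [bil_one, LinearIsometryEquiv.inner_map_map, ← bil_one, bil_single]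

/-- quadratic form bounds -/
theorem ev_quad {G : ι → MetricField n} {x : ι → En n} (h : GC l G x) {ε : ℝ} (hε : 0 < ε) :
    ∀ᶠ j in l, ∀ X Y, |bil (G j (x j)) X Y - inner ℝ X Y| ≤ ε * ‖X‖ * ‖Y‖ := by
  have := (tendsto_zero_iff_norm_tendsto_zero.1 (ge_gf h).val).eventually (gt_mem_nhds hε)
  filter_upwards [this] with j hj X Y
  rw [← bil_one]
  have h1 := (bil (G j (x j)) - bil (1 : Matrix (Fin n) (Fin n) ℝ)).le_opNorm₂ X Y
  rw [Real.norm_eq_abs] at h1
  refine h1.trans ?_
  gcongr

theorem ev_gam {G : ι → MetricField n} {x : ι → En n} (h : GC l G x) {ε : ℝ} (hε : 0 < ε) :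
    ∀ᶠ j in l, ‖Gam (G j) (x j)‖ ≤ ε := by
  have := (tendsto_zero_iff_norm_tendsto_zero.1 (ge_gam h).val).eventually (gt_mem_nhds hε)
  filter_upwards [this] with j hj
  rw [sub_zero] at hj
  exact hj.le

end Crest.Agent.N207.Gs

end
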