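import Crest.Agent.N207.G.Hes
import Crest.Agent.N207.C.Lip
import Crest.Agent.N207.C.Dist

/-!
# Row 207, block G, entropy half (helper23): basic scalar lemmas
-/

set_option autoImplicit false
set_option linter.dupNamespace false
set_option linter.unusedSectionVars false
open Set MeasureTheory Filter Topology
open scoped ContDiff

noncomputable section

namespace Crest.Agent.N207.Ge

open HC

variable {M : Type*} [TopologicalSpace M] [CompactSpace M] [MeasurableSpace M] {H : HC M}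

theorem Pc_nonneg (E : H.Evo) {t : ℝ} (ht : t ∈ Ioo 0 H.T) {u : M → ℝ} (hu : H.S0 u) (c : ℝ)
    (x : M) : 0 ≤ H.Pc c t u x := by
  have := E.lap_sq t ht hu x
  unfold Pc
  nlinarith [sq_nonneg (H.lap t u x - 4 * c)]

theorem lap_sub_sq (E : H.Evo) {t : ℝ} (ht : t ∈ Ioo 0 H.T) {u : M → ℝ} (hu : H.S0 u) (c : ℝ)
    (x : M) : (H.lap t u x - 4 * c) ^ 2 ≤ 4 * H.Pc c t u x := by
  have := E.lap_sq t ht hu x
  unfold Pc
  nlinarith

theorem Pc_le_hh (E : H.Evo) {t : ℝ} (ht : t ∈ Ioo 0 H.T) {u : M → ℝ} (hu : H.S0 u) (c : ℝ)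
    (x : M) : H.Pc c t u x ≤ 2 * H.hh t u x + 8 * c ^ 2 := by
  have := E.lap_sq t ht hu x
  unfold Pc
  nlinarith [sq_nonneg (H.lap t u x + 4 * c)]

theorem s0_Pc (A : H.Alg) {t : ℝ} (ht : t ∈ Ioo 0 H.T) {u : M → ℝ} (hu : H.S0 u) (c : ℝ) :
    H.S0 (H.Pc c t u) :=
  A.s0_add (A.s0_sub (A.s0_hh ht hu) (A.s0_cmul (2 * c) (A.s0_lap ht hu))) (A.s0_const _)

theorem sm_Pc (A : H.Alg) {a b : ℝ} (hs : H.St a b) {u : ℝ → M → ℝ} (hu : H.Sm a b u) (c : ℝ) :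
    H.Sm a b fun t => H.Pc c t (u t) :=
  A.sm_add (A.sm_sub (A.sm_hh hs hu) (A.sm_cmul (2 * c) (A.sm_lap hs hu))) (A.sm_const _)

theorem dt_unique {φ ψ : ℝ → ℝ} {a b t p q : ℝ} (hab : a < b) (ht : t ∈ Icc a b)
    (h1 : HasDerivWithinAt φ p (Icc a b) t) (h2 : HasDerivWithinAt ψ q (Icc a b) t)
    (h : ∀ s ∈ Icc a b, φ s = ψ s) : p = q :=
  (uniqueDiffOn_Icc hab t ht).eq_deriv _ h1 (h2.congr h (h t ht))

theorem gam_local (A : H.Alg) {t : ℝ} (ht : t ∈ Ioo 0 H.T) {u v w w' : M → ℝ} (hu : H.S0 u)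
    (hv : H.S0 v) (hw : H.S0 w) (hw' : H.S0 w') {x : M} (h : u =ᶠ[𝓝 x] v) (h' : w =ᶠ[𝓝 x] w') :
    H.gam t u w x = H.gam t v w' x := by
  rw [(A.local_eq ht hu hv h).2 w hw, A.gam_symm t ht hv hw, (A.local_eq ht hw hw' h').2 v hv,
    A.gam_symm t ht hw' hv]

theorem hh_local (A : H.Alg) (E : H.Evo) {t : ℝ} (ht : t ∈ Ioo 0 H.T) {u v : M → ℝ}
    (hu : H.S0 u) (hv : H.S0 v) {x : M} (h : u =ᶠ[𝓝 x] v) : H.hh t u x = H.hh t v x := by
  obtain ⟨a, b, hs, htm⟩ := exists_st ht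
  have h1 := E.dt_gam hs (A.sm_static hu) (HasDt.static u) t htm x
  have h2 := E.dt_gam hs (A.sm_static hv) (HasDt.static v) t htm x
  have h3 := dt_unique hs.2.1 htm h1 h2 fun s hs' =>
    gam_local A (hs.mem hs') hu hv hu hv h h
  have hev := h.eventuallyEq_nhds
  have e1 : H.gam t u u =ᶠ[𝓝 x] H.gam t v v :=
    hev.mono fun y hy => gam_local A ht hu hv hu hv hy hy
  have e2 : (fun y => (0 : ℝ) - H.lap t u y) =ᶠ[𝓝 x] fun y => (0 : ℝ) - H.lap t v y :=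
    hev.mono fun y hy => by simp only [(A.local_eq ht hu hv hy).1]
  have e3 := (A.local_eq ht (A.s0_gam ht hu hu) (A.s0_gam ht hv hv) e1).1
  have e4 := gam_local A ht hu hv (A.s0_sub (A.s0_const 0) (A.s0_lap ht hu))
    (A.s0_sub (A.s0_const 0) (A.s0_lap ht hv)) h e2
  simp only at h3
  rw [e3, e4] at h3
  linarith

theorem Pc_local (A : H.Alg) (E : H.Evo) {t : ℝ} (ht : t ∈ Ioo 0 H.T) {u v : M → ℝ}
    (hu : H.S0 u) (hv : H.S0 v) (c : ℝ) {x : M} (h : u =ᶠ[𝓝 x] v) :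
    H.Pc c t u x = H.Pc c t v x := by
  unfold Pc
  rw [hh_local A E ht hu hv h, (A.local_eq ht hu hv h).1]

theorem s0_aff (A : H.Alg) {u : M → ℝ} (hu : H.S0 u) (p q : ℝ) : H.S0 fun y => p * u y + q :=
  A.s0_add (A.s0_cmul p hu) (A.s0_const q)

theorem lap_aff (A : H.Alg) {t : ℝ} (ht : t ∈ Ioo 0 H.T) {u : M → ℝ} (hu : H.S0 u) (p q : ℝ)
    (x : M) : H.lap t (fun y => p * u y + q) x = p * H.lap t u x := by
  rw [A.lap_add t ht (A.s0_cmul p hu) (A.s0_const q), A.lap_cmul ht p hu, A.lap_const ht]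
  ring

theorem gam_aff (A : H.Alg) {t : ℝ} (ht : t ∈ Ioo 0 H.T) {u w : M → ℝ} (hu : H.S0 u)
    (hw : H.S0 w) (p q : ℝ) (x : M) : H.gam t (fun y => p * u y + q) w x = p * H.gam t u w x := by
  rw [A.gam_add t ht (A.s0_cmul p hu) (A.s0_const q) hw, A.gam_cmul ht p hu hw,
    A.gam_const ht q hw]
  ring

theorem gam_aff2 (A : H.Alg) {t : ℝ} (ht : t ∈ Ioo 0 H.T) {u : M → ℝ} (hu : H.S0 u)
    (p q : ℝ) (x : M) :
    H.gam t (fun y => p * u y + q) (fun y => p * u y + q) x = p ^ 2 * H.gam t u u x := by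
  rw [gam_aff A ht hu (s0_aff A hu p q), A.gam_symm t ht hu (s0_aff A hu p q), gam_aff A ht hu hu]
  ring

theorem hh_aff (A : H.Alg) (E : H.Evo) {t : ℝ} (ht : t ∈ Ioo 0 H.T) {u : M → ℝ}
    (hu : H.S0 u) (p q : ℝ) (x : M) : H.hh t (fun y => p * u y + q) x = p ^ 2 * H.hh t u x := by
  obtain ⟨a, b, hs, htm⟩ := exists_st ht
  have hw := s0_aff A hu p q
  have h1 := E.dt_gam hs (A.sm_static hw) (HasDt.static _) t htm x
  have h2 := (E.dt_gam hs (A.sm_static hu) (HasDt.static u) t htm x).const_mul (p ^ 2)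
  have h3 := dt_unique hs.2.1 htm h1 h2 fun s hs' => gam_aff2 A (hs.mem hs') hu p q x
  have e1 : H.gam t (fun y => p * u y + q) (fun y => p * u y + q) =
      fun y => p ^ 2 * H.gam t u u y := funext fun y => gam_aff2 A ht hu p q y
  have hl := A.s0_sub (A.s0_const 0) (A.s0_lap ht hu)
  have e2 : (fun y => (0 : ℝ) - H.lap t (fun y => p * u y + q) y) =
      fun y => p * ((0 : ℝ) - H.lap t u y) := funext fun y => by rw [lap_aff A ht hu]; ring
  simp only at h3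
  rw [e1, e2, A.lap_cmul ht _ (A.s0_gam ht hu hu), gam_aff A ht hu (A.s0_cmul p hl),
    A.gam_cmul' ht p hl hu] at h3
  linarith

theorem rh_aff (A : H.Alg) (E : H.Evo) {t : ℝ} (ht : t ∈ Ioo 0 H.T) {u : M → ℝ}
    (hu : H.S0 u) (p q : ℝ) (x : M) : H.rh t (fun y => p * u y + q) x = p * H.rh t u x := by
  obtain ⟨a, b, hs, htm⟩ := exists_st ht
  have hw := s0_aff A hu p q
  have h1 := E.dt_lap hs (A.sm_static hw) (HasDt.static _) t htm x
  have h2 := (E.dt_lap hs (A.sm_static hu) (HasDt.static u) t htm x).const_mul p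
  have h3 := dt_unique hs.2.1 htm h1 h2 fun s hs' => lap_aff A (hs.mem hs') hu p q x
  simp only at h3
  rw [A.lap_const ht] at h3
  linarith

theorem Pc_add_const (A : H.Alg) (E : H.Evo) {t : ℝ} (ht : t ∈ Ioo 0 H.T) {u : M → ℝ}
    (hu : H.S0 u) (c q : ℝ) (x : M) : H.Pc c t (fun y => 1 * u y + q) x = H.Pc c t u x := by
  unfold Pc
  rw [hh_aff A E ht hu, lap_aff A ht hu]
  ring

/-- `|Hess (4τ f) - 2 g|² ≤ 32 τ² (sol + |Ric|²)` -/
theorem Pc_le_sol (A : H.Alg) (E : H.Evo) {t τ : ℝ} (ht : t ∈ Ioo 0 H.T) (hτ : 0 < τ)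
    {f : M → ℝ} (hf : H.S0 f) (x : M) :
    H.Pc 2 t (fun y => 4 * τ * f y + 0) x ≤ 32 * τ ^ 2 * (H.sol t τ f x + H.Q 0 t x) := by
  have h1 := E.sol_nonneg t ht (2 * τ) (by positivity) (s0_aff A hf (1 / 2) 0) x
  unfold sol at h1 ⊢
  unfold Pc
  rw [hh_aff A E ht hf, lap_aff A ht hf] at h1 ⊢
  rw [rh_aff A E ht hf] at h1
  have h2 := mul_nonneg (by positivity : (0 : ℝ) ≤ 64 * τ ^ 2) h1
  have e : 32 * τ ^ 2 * (H.hh t f x + 2 * H.rh t f x + H.Q 0 t x - (H.R t x + H.lap t f x) / τ +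
      1 / τ ^ 2 + H.Q 0 t x) - ((4 * τ) ^ 2 * H.hh t f x - 2 * 2 * (4 * τ * H.lap t f x) +
      4 * 2 ^ 2) = 64 * τ ^ 2 * ((1 / 2) ^ 2 * H.hh t f x + 2 * (1 / 2 * H.rh t f x) + H.Q 0 t x -
      (H.R t x + 1 / 2 * H.lap t f x) / (2 * τ) + 1 / (2 * τ) ^ 2) := by
    field_simp
    ring
  linarith

/-- `|φ'| ≤ k φ` gives `φ s ≤ e^{k |s - t|} φ t` -/
theorem le_exp_mul {φ φ' : ℝ → ℝ} {a b k : ℝ}
    (hd : ∀ t ∈ Icc a b, HasDerivWithinAt φ (φ' t) (Icc a b) t)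
    (h : ∀ t ∈ Icc a b, |φ' t| ≤ k * φ t) {s t : ℝ} (hs : s ∈ Icc a b) (ht : t ∈ Icc a b) :
    φ s ≤ Real.exp (k * |s - t|) * φ t := by
  have hd1 : ∀ (c : ℝ), ∀ r ∈ Icc a b, HasDerivWithinAt (fun r => Real.exp (c * r) * φ r)
      (Real.exp (c * r) * (c * φ r + φ' r)) (Icc a b) r := by
    intro c r hr
    have h1 : HasDerivAt (fun r => Real.exp (c * r)) (Real.exp (c * r) * c) r := by
      simpa using ((hasDerivAt_id r).const_mul c).exp
    refine (h1.hasDerivWithinAt.mul (hd r hr)).congr_deriv ?_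
    ring
  rcases le_total s t with hst | hst
  · have hm := mono_of_deriv (hd1 k) fun r hr => mul_nonneg (Real.exp_pos _).le (by
      have := h r (Ioo_subset_Icc_self hr); have := neg_abs_le (φ' r); linarith)
    have h2 := hm hs ht hst
    simp only at h2
    rw [abs_of_nonpos (by linarith)]
    have e : Real.exp (k * -(s - t)) * φ t = Real.exp (-(k * s)) * (Real.exp (k * t) * φ t) := by
      rw [← mul_assoc, ← Real.exp_add]; ring_nf
    rw [e]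
    calc φ s = Real.exp (-(k * s)) * (Real.exp (k * s) * φ s) := by
          rw [← mul_assoc, ← Real.exp_add]; simp
      _ ≤ _ := mul_le_mul_of_nonneg_left h2 (Real.exp_pos _).le
  · have hm := anti_of_deriv (hd1 (-k)) fun r hr => mul_nonpos_of_nonneg_of_nonpos
      (Real.exp_pos _).le (by
        have := h r (Ioo_subset_Icc_self hr); have := le_abs_self (φ' r); linarith)
    have h2 := hm ht hs hst
    simp only at h2
    rw [abs_of_nonneg (by linarith)]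
    have e : Real.exp (k * (s - t)) * φ t = Real.exp (k * s) * (Real.exp (-k * t) * φ t) := by
      rw [← mul_assoc, ← Real.exp_add]; ring_nf
    rw [e]
    calc φ s = Real.exp (k * s) * (Real.exp (-k * s) * φ s) := by
          rw [← mul_assoc, ← Real.exp_add]; simp
      _ ≤ _ := mul_le_mul_of_nonneg_left h2 (Real.exp_pos _).le

/-- gradients of a static function at two times of a window where `Ric` is small -/
theorem gam_cmp (A : H.Alg) (E : H.Evo) {a b k : ℝ} (hs : H.St a b) {u : M → ℝ} (hu : H.S0 u)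
    {x : M} (hk : ∀ t ∈ Icc a b, √(H.Q 0 t x) ≤ k) (hkb : k * (b - a) ≤ 1 / 2) {s t : ℝ}
    (hs' : s ∈ Icc a b) (ht : t ∈ Icc a b) : H.gam s u u x ≤ 4 * H.gam t u u x := by
  have hd := E.dt_gam hs (A.sm_static hu) (HasDt.static u)
  have hk0 : 0 ≤ k := (Real.sqrt_nonneg _).trans (hk s hs')
  have h1 := le_exp_mul (k := 2 * k) (fun r hr => hd r hr x) (fun r hr => by
    have h2 := E.dt_gam_static hs hu hd r hr x
    have h3 := A.gam_nonneg r (hs.mem hr) hu x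
    refine h2.trans ?_
    have := hk r hr
    nlinarith) hs' ht
  have h4 : |s - t| ≤ b - a := abs_le.2 ⟨by linarith [hs'.1, ht.2], by linarith [hs'.2, ht.1]⟩
  have h5 : Real.exp (2 * k * |s - t|) ≤ 4 := by
    have : 2 * k * |s - t| ≤ 1 := by nlinarith [abs_nonneg (s - t)]
    exact (Real.exp_le_exp.2 this).trans (by linarith [Real.exp_one_lt_d9])
  exact h1.trans (mul_le_mul_of_nonneg_right h5 (A.gam_nonneg t (hs.mem ht) hu x))

theorem gam_psi (A : H.Alg) {t : ℝ} (ht : t ∈ Ioo 0 H.T) {U : M → ℝ} (hU : H.S0 U) {ψ : ℝ → ℝ}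
    (hψ : ContDiff ℝ ∞ ψ) (p q : ℝ) {w : M → ℝ} (hw : H.S0 w) (x : M) :
    H.gam t (fun y => ψ (p * U y + q)) w x = deriv ψ (p * U x + q) * p * H.gam t U w x := by
  rw [A.gam_compU ht hψ (s0_aff A hU p q) hw, gam_aff A ht hU hw]
  ring

theorem gam_psi2 (A : H.Alg) {t : ℝ} (ht : t ∈ Ioo 0 H.T) {U : M → ℝ} (hU : H.S0 U) {ψ : ℝ → ℝ}
    (hψ : ContDiff ℝ ∞ ψ) (p q : ℝ) (x : M) :
    H.gam t (fun y => ψ (p * U y + q)) (fun y => ψ (p * U y + q)) x =
      deriv ψ (p * U x + q) ^ 2 * p ^ 2 * H.gam t U U x := by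
  rw [A.gam_compU2 ht hψ (s0_aff A hU p q), gam_aff2 A ht hU]
  ring

/-- small balls at an other time of a window where `Ric` is small -/
theorem ball_cmp (A : H.Alg) (E : H.Evo) (D : H.Dist) {a b k ρ : ℝ} (hs : H.St a b) {x : M}
    {s t : ℝ} (hs' : s ∈ Icc a b) (ht : t ∈ Icc a b) (hρ : 0 < ρ)
    (hk : ∀ y, H.d t x y < 4 * ρ → ∀ r ∈ Icc a b, √(H.Q 0 r y) ≤ k) (hkb : k * (b - a) ≤ 1 / 2)
    {y : M} (hy : H.d s x y < ρ) : H.d t x y ≤ 3 * ρ := by
  obtain ⟨U, hU, hU1, hU2⟩ := D.approx t (hs.mem ht) x (ρ / 4) (by positivity)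
  obtain ⟨ψ, hψ, hψ1, hψ2, hψ3, hψ4⟩ := Dist.exists_psi (ε := ρ / 4) (by positivity)
  have hw := A.s0_compU hψ (s0_aff A hU (-1) (3 * ρ))
  have hl := A.lip_glob D (hs.mem hs') (s0_aff A hw (1 / 2) 0) (fun z => by
    rw [gam_aff2 A (hs.mem hs') hw, gam_psi2 A (hs.mem hs') hU hψ]
    by_cases hz : -1 * U z + 3 * ρ ≤ 0
    · rw [hψ2 _ hz]; norm_num
    · have h1 : H.d t x z < 4 * ρ := by have := abs_le.1 (hU2 z); linarith [this.1]
      have h2 := gam_cmp A E hs hU (hk z h1) hkb hs' ht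
      have h3 := hψ1 (-1 * U z + 3 * ρ)
      have h4 := hU1 z
      have h5 := A.gam_nonneg s (hs.mem hs') hU z
      have h6 : deriv ψ (-1 * U z + 3 * ρ) ^ 2 ≤ 1 := by nlinarith [h3.1, h3.2]
      nlinarith) x y
  have h1 := abs_le.1 (hU2 x)
  have h2 := abs_le.1 (hU2 y)
  rw [D.self t (hs.mem ht)] at h1
  have h3 := (hψ4 (-1 * U x + 3 * ρ)).1
  have h4 := (hψ4 (-1 * U y + 3 * ρ)).2
  have h5 := (abs_le.1 hl).1
  have h6 := le_max_left (-1 * U x + 3 * ρ) 0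
  rcases max_cases (-1 * U y + 3 * ρ) 0 with h7 | h7 <;> rw [h7.1] at h4 <;> linarith

/-- almost midpoints -/
theorem mid (A : H.Alg) (D : H.Dist) {t : ℝ} (ht : t ∈ Ioo 0 H.T) {x y : M} {a b : ℝ}
    (ha : 0 < a) (hb : 0 < b) (h : H.d t x y < a + b) :
    ∃ z, H.d t x z < a ∧ H.d t y z < b := by
  by_contra hn
  push Not at hn
  obtain ⟨ε, hε, hε1⟩ : ∃ ε, 0 < ε ∧ H.d t x y + 8 * ε < a + b :=
    ⟨(a + b - H.d t x y) / 9, by linarith, by linarith⟩
  obtain ⟨U, hU, hU1, hU2⟩ := D.approx t ht x ε hε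
  obtain ⟨V, hV, hV1, hV2⟩ := D.approx t ht y ε hε
  obtain ⟨ψ, hψ, hψ1, hψ2, hψ3, hψ4⟩ := Dist.exists_psi hε
  have hp := A.s0_compU hψ (s0_aff A hU (-1) (a - 2 * ε))
  have hq := A.s0_compU hψ (s0_aff A hV (-1) (b - 2 * ε))
  have hl := A.lip_glob D ht (A.s0_sub hp hq) (fun z => by
    rw [A.gam_sub ht hp hq (A.s0_sub hp hq), A.gam_sub' ht hp hq hp, A.gam_sub' ht hp hq hq,
      gam_psi2 A ht hU hψ, gam_psi2 A ht hV hψ, gam_psi A ht hU hψ _ _ hq,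
      gam_psi A ht hV hψ _ _ hp]
    have g1 := hψ1 (-1 * U z + (a - 2 * ε))
    have g2 := hψ1 (-1 * V z + (b - 2 * ε))
    by_cases hz : H.d t x z < a
    · have h1 : -1 * V z + (b - 2 * ε) ≤ 0 := by
        have := hn z hz; have := abs_le.1 (hV2 z); linarith [this.1]
      rw [A.gam_symm t ht hU hq, gam_psi A ht hV hψ _ _ hU, hψ2 _ h1]
      have := hU1 z; have := A.gam_nonneg t ht hU z
      have h6 : deriv ψ (-1 * U z + (a - 2 * ε)) ^ 2 ≤ 1 := by nlinarith [g1.1, g1.2]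
      nlinarith
    · have h1 : -1 * U z + (a - 2 * ε) ≤ 0 := by
        have := abs_le.1 (hU2 z); linarith [this.1, not_lt.1 hz]
      rw [A.gam_symm t ht hV hp, gam_psi A ht hU hψ _ _ hV, hψ2 _ h1]
      have := hV1 z; have := A.gam_nonneg t ht hV z
      have h6 : deriv ψ (-1 * V z + (b - 2 * ε)) ^ 2 ≤ 1 := by nlinarith [g2.1, g2.2]
      nlinarith) x y
  have hx : b ≤ H.d t y x := hn x (by rw [D.self t ht]; exact ha)
  have hy : a ≤ H.d t x y := by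
    by_contra hc
    have := hn y (not_le.1 hc)
    rw [D.self t ht] at this
    linarith
  have h1 := abs_le.1 (hU2 x)
  have h2 := abs_le.1 (hV2 y)
  have h3 := abs_le.1 (hU2 y)
  have h4 := abs_le.1 (hV2 x)
  rw [D.self t ht] at h1 h2
  rw [hψ3 (-1 * U y + (a - 2 * ε)) (by linarith), hψ3 (-1 * V x + (b - 2 * ε)) (by linarith)] at hl
  have h5 := (hψ4 (-1 * U x + (a - 2 * ε))).1
  have h6 := (hψ4 (-1 * V y + (b - 2 * ε))).1
  have h7 := le_max_left (-1 * U x + (a - 2 * ε)) 0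
  have h8 := le_max_left (-1 * V y + (b - 2 * ε)) 0
  have h9 := (abs_le.1 hl).1
  linarith

/-- a function with gradient at least one on a ball goes down by the radius -/
theorem descent (A : H.Alg) (D : H.Dist) {t : ℝ} (ht : t ∈ Ioo 0 H.T) {w : M → ℝ} (hw : H.S0 w)
    {x : M} {r ε : ℝ} (hr : 0 < r) (hε : 0 < ε)
    (h : ∀ y, H.d t x y < r → 1 ≤ H.gam t w w y) : ∃ y, H.d t x y ≤ r ∧ w y ≤ w x - r + ε := by
  obtain ⟨κ, hκ0, hκ1, hκ2⟩ : ∃ κ : ℝ, 0 < κ ∧ κ < 1 ∧ (1 - κ) * r ≤ ε / 2 := by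
    refine ⟨1 - min (1 / 2) (ε / (2 * r)), by linarith [min_le_left (1 / 2 : ℝ) (ε / (2 * r))],
      by linarith [lt_min (by norm_num : (0 : ℝ) < 1 / 2) (by positivity : 0 < ε / (2 * r))], ?_⟩
    have h1 := min_le_right (1 / 2 : ℝ) (ε / (2 * r))
    have h2 : ε / (2 * r) * r = ε / 2 := by field_simp
    nlinarith
  obtain ⟨U, hU, hU1, hU2⟩ := D.approx t ht x (ε / 4) (by positivity)
  have hK : IsCompact {y | H.d t x y ≤ r} :=
    (isClosed_le (D.cont t ht x) continuous_const).isCompact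
  have hF := A.s0_add hw (A.s0_cmul κ hU)
  obtain ⟨y, hy, hmin⟩ := hK.exists_isMinOn ⟨x, by simp [D.self t ht, hr.le]⟩
    (A.s0_cont hF).continuousOn
  refine ⟨y, hy, ?_⟩
  have hyr : ¬ H.d t x y < r := by
    intro hlt
    have hloc : IsLocalMin (fun y => w y + κ * U y) y :=
      hmin.isLocalMin (mem_of_superset
        ((isOpen_lt (D.cont t ht x) continuous_const).mem_nhds hlt) fun z hz => show H.d t x z ≤ r from le_of_lt hz)
    have h1 := A.gam_eq_zero ht hF hw (A.at_min ht hF hloc).2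
    rw [A.gam_add t ht hw (A.s0_cmul κ hU) hw, A.gam_cmul ht κ hU hw] at h1
    have h2 := A.gam_sq ht hU hw y
    have h3 := h y hlt
    have h4 := hU1 y
    have h5 : H.gam t U w y ^ 2 ≤ H.gam t w w y := by nlinarith
    have h6 : H.gam t w w y ^ 2 = κ ^ 2 * H.gam t U w y ^ 2 := by
      rw [show H.gam t w w y = -(κ * H.gam t U w y) by linarith]; ring
    have h7 : κ ^ 2 < 1 := by nlinarith
    nlinarith [sq_nonneg (H.gam t U w y)]
  have h1 : w y + κ * U y ≤ w x + κ * U x := hmin (by simp [D.self t ht, hr.le])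
  have h2 := abs_le.1 (hU2 x)
  have h3 := abs_le.1 (hU2 y)
  rw [D.self t ht] at h2
  have h4 : r ≤ H.d t x y := not_lt.1 hyr
  nlinarith

/-- Lipschitz bound on a ball, with a constant -/
theorem lip_ball (A : H.Alg) (D : H.Dist) {t : ℝ} (ht : t ∈ Ioo 0 H.T) {u : M → ℝ} (hu : H.S0 u)
    {x y : M} {r L : ℝ} (hL : 0 < L) (h : ∀ z, H.d t x z < r → H.gam t u u z ≤ L ^ 2)
    (hy : H.d t x y < r) : |u y - u x| ≤ L * H.d t x y := by
  have h1 := D.lip t ht (s0_aff A hu L⁻¹ 0) (fun z hz => by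
    rw [gam_aff2 A ht hu, inv_pow]
    exact (inv_mul_le_one₀ (by positivity)).2 (h z hz)) hy
  have e : L⁻¹ * u y + 0 - (L⁻¹ * u x + 0) = L⁻¹ * (u y - u x) := by ring
  rw [e, abs_mul, abs_of_pos (inv_pos.2 hL)] at h1
  exact (inv_mul_le_iff₀ hL).1 h1

end Crest.Agent.N207.Ge

end
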