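import Crest.Agent.N207.Sk.Defs

/-!
# Row 207, block G (helper25): interface between the static half, the entropy half and `CONE`
-/

set_option autoImplicit false
set_option linter.unusedSectionVars false

open scoped ContDiff Manifold Topology
open Set MeasureTheory Filter
open Crest.GeometryTopology.CoordMetric
open Crest.Agent.N207.Sk

noncomputable section

namespace Crest.Agent.N207.Gs

variable {M : Type*} [TopologicalSpace M] [ChartedSpace E4 M] [IsManifold 𝓘(ℝ, E4) ∞ M]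
  [T3Space M] [ConnectedSpace M] [MeasurableSpace M] [BorelSpace M]

/-- almost conical at scale `S`, on the annulus `δ S ≤ d(z, ·) ≤ S / δ` -/
structure AC (g : Met 4 M) (z : M) (b : M → ℝ) (S δ κ : ℝ) : Prop where
  sm : Sm 4 b
  rm : ∀ k : ℕ, (k : ℝ) * δ ≤ 1 → ∀ x, δ * S ≤ g.d z x → δ * g.d z x ≤ S →
    g.rm k x ≤ (δ / S ^ (k + 2)) ^ 2
  hess : ∀ x, δ * S ≤ g.d z x → δ * g.d z x ≤ S → g.nsq (g.hess b) x - 4 * g.lap b x + 16 ≤ δ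
  gam : ∀ x, δ * S ≤ g.d z x → δ * g.d z x ≤ S → |g.gam b b x - 4 * b x| ≤ δ * S ^ 2
  val : ∀ x, δ * S ≤ g.d z x → δ * g.d z x ≤ S → |b x - g.d z x ^ 2| ≤ δ * S ^ 2
  vol : ∀ p, ∀ s ∈ Ioc 0 S, κ * s ^ 4 ≤ g.vol.real (g.ball p s)
  ne : ∃ p, g.d z p = S

/-- the annulus of ratio `L` lies in one component of the annulus of ratio `K` -/
def Cn (g : Met 4 M) (z : M) (S L K : ℝ) : Prop :=
  ∃ C : Set M, IsPreconnected C ∧ (∀ x, S / L ≤ g.d z x → g.d z x ≤ L * S → x ∈ C) ∧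
    ∀ x ∈ C, S / K ≤ g.d z x ∧ g.d z x ≤ K * S

/-- a pre-neck: a chart of a metric annulus around `z` -/
structure PN (g : Met 4 M) (z : M) (Γ : Subgroup (E4 ≃ₗᵢ[ℝ] E4)) (Ψ : E4 → M) (a b θ : ℝ) :
    Prop where
  fin : Finite Γ
  free : ∀ γ ∈ Γ, ∀ x : E4, x ≠ 0 → γ x = x → γ = 1
  par : Par Ψ (shell a b)
  fib : ∀ x ∈ shell a b, ∀ y ∈ shell a b, Ψ x = Ψ y ↔ ∃ γ ∈ Γ, γ x = y
  sw : ∀ x ∈ shell a b, |g.d z (Ψ x) - ‖x‖| ≤ θ * ‖x‖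
  onto : ∀ p, 6 / 5 * a ≤ g.d z p → g.d z p ≤ 4 / 5 * b → p ∈ Ψ '' shell a b

/-- a pre-neck with `Cᵐ` control -/
def PJ (g : Met 4 M) (z : M) (Γ : Subgroup (E4 ≃ₗᵢ[ℝ] E4)) (Ψ : E4 → M) (a b θ : ℝ) (m : ℕ)
    (η : ℝ) : Prop :=
  PN g z Γ Ψ a b θ ∧ ∀ x ∈ shell a b, JG m (g.pm Ψ) x ‖x‖ η

/-- the neck of a pre-neck (for `4 a ≤ b`, `θ ≤ 1 / 10`) -/
def nk (g : Met 4 M) (z : M) (Γ : Subgroup (E4 ≃ₗᵢ[ℝ] E4)) (Ψ : E4 → M) (a b : ℝ) : Nk M :=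
  ⟨Γ, Ψ, {p | g.d z p < 2 * a} \ Ψ '' shell a b, a, b⟩

variable (M) in
/-- the neck at scale one (helper25) -/
def ONE1 : Prop :=
  ∀ (κ L K η : ℝ) (m : ℕ), 0 < κ → 2 ≤ L → L ≤ K → 0 < η → ∃ δ, 0 < δ ∧
    ∀ (g : Met 4 M) (z : M) (b : M → ℝ), AC g z b 1 δ κ → Cn g z 1 L K →
      ∃ Γ Ψ, PJ g z Γ Ψ (1 / L) L η m η

variable (M) in
/-- the neck at one scale -/
def ONE : Prop :=
  ∀ (κ L K η : ℝ) (m : ℕ), 0 < κ → 2 ≤ L → L ≤ K → 0 < η → ∃ δ, 0 < δ ∧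
    ∀ (g : Met 4 M) (z : M) (b : M → ℝ) (S : ℝ), 0 < S → AC g z b S δ κ → Cn g z S L K →
      ∃ Γ Ψ, PJ g z Γ Ψ (S / L) (L * S) η m η

variable (M) in
/-- gluing of the necks of the scales `16 ^ i * r` -/
def LNG : Prop :=
  ∀ η : ℝ, 0 < η → ∃ δ, 0 < δ ∧ ∀ (g : Met 4 M) (z : M) (r : ℝ) (n : ℕ), 0 < r →
    (∀ i ≤ n, ∃ Γ Ψ, Γ ≠ ⊥ ∧ PJ g z Γ Ψ (16 ^ i * r / 256) (256 * (16 ^ i * r)) δ 2 δ) →
    ∃ Γ Ψ, Γ ≠ ⊥ ∧ PJ g z Γ Ψ (r / 256) (256 * (16 ^ n * r)) (1 / 10) 2 η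

/-- entropy half, part 1: most dyadic scales are almost conical -/
def ENT1 (F : Flow M) : Prop :=
  ∃ κ, 0 < κ ∧ ∀ L : ℝ, 2 ≤ L → ∃ K, L ≤ K ∧ ∀ δ : ℝ, 0 < δ → ∃ (r1 : ℝ) (n0 : ℕ), 0 < r1 ∧
    ∀ t ∈ late F, ∀ z : M, ∃ Bad : Finset ℤ, Bad.card ≤ n0 ∧ ∀ j : ℤ, j ∉ Bad → (2 : ℝ) ^ j ≤ r1 →
      ∃ b, AC (F.m t) z b (2 ^ j) δ κ ∧ Cn (F.m t) z (2 ^ j) L K

/-- entropy half, part 2: no concentration inside a neck with trivial group -/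
def ENT2 (F : Flow M) : Prop :=
  ∀ ε : ℝ, 0 < ε → ∃ (L η K r1 : ℝ) (n0 : ℕ), 2 ≤ L ∧ 0 < η ∧ 1 ≤ K ∧ 0 < r1 ∧
    ∀ t ∈ late F, ∀ z : M, ∃ Bad : Finset ℤ, Bad.card ≤ n0 ∧ ∀ j : ℤ, j ∉ Bad → (2 : ℝ) ^ j ≤ r1 →
      ∀ Ψ, PJ (F.m t) z ⊥ Ψ (2 ^ j / L) (L * 2 ^ j) η 2 η → en (F.m t) z (2 ^ j / K) < ε

end Crest.Agent.N207.Gs

end
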