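import Crest.Agent.N207.G.Gl3
import Crest.Agent.N207.G.Df
import Crest.Agent.N207.C.Cutf

/-!
# Row 207, block G (helper93): `CONE` from the pieces
-/

set_option autoImplicit false
set_option linter.unusedSectionVars false

open scoped ContDiff Manifold Topology Nat
open Set Filter Metric MeasureTheory

noncomputable section

namespace Crest.Agent.N207.G

open Sk Gs

variable {M : Type*} [TopologicalSpace M] [ChartedSpace E4 M] [IsManifold 𝓘(ℝ, E4) ∞ M]
  [T3Space M] [ConnectedSpace M] [MeasurableSpace M] [BorelSpace M]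

section

variable {g : Met 4 M} {z : M} {θ : ℝ} {Γ : Subgroup (E4 ≃ₗᵢ[ℝ] E4)} {Ψ : E4 → M} {a b : ℝ}

theorem pn_mem (h : PN g z Γ Ψ a b θ) (h0 : 0 ≤ θ) (h1 : θ < 1) {a' b' : ℝ} {q : M}
    (q1 : 6 / 5 * a ≤ g.d z q) (q2 : g.d z q ≤ 4 / 5 * b) (q3 : (1 + θ) * a' < g.d z q)
    (q4 : g.d z q < (1 - θ) * b') : ∃ x ∈ shell a' b', Ψ x = q := by
  obtain ⟨x, hx, rfl⟩ := h.onto q q1 q2
  have := abs_le.1 (h.sw x hx)
  exact ⟨x, ⟨lt_of_mul_lt_mul_left (a := 1 + θ) (by linarith) (by linarith),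
    lt_of_mul_lt_mul_left (a := 1 - θ) (by linarith) (by linarith)⟩, rfl⟩

theorem pn_ch (h : PN g z Γ Ψ a b θ) (h0 : 0 ≤ θ) (h1 : θ < 1) {a' b' : ℝ} (ha : 0 ≤ a)
    (hb : 0 ≤ b') (haa : 2 * a ≤ a') (hbb : 2 * b' ≤ b) : Ch g z θ Γ Ψ a' b' := by
  have hs : shell a' b' ⊆ shell a b := shell_mono (by linarith) (by linarith)
  exact ⟨h.fin, h.free, par_mono h.par (isOpen_shell _ _) hs,
    fun x hx y hy => h.fib x (hs hx) y (hs hy), fun x hx => h.sw x (hs hx), fun q q1 q2 =>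
      pn_mem h h0 h1 (by nlinarith) (by nlinarith) q1 q2⟩

theorem pn_res (h : PN g z Γ Ψ a b θ) (h0 : 0 ≤ θ) (h1 : θ ≤ 1 / 10) {a' b' θ' : ℝ} (ha : 0 < a')
    (hb : 0 < b') (haa : a ≤ a') (hbb : b' ≤ b) (hθ : θ ≤ θ') : PN g z Γ Ψ a' b' θ' := by
  have hs : shell a' b' ⊆ shell a b := shell_mono haa hbb
  exact ⟨h.fin, h.free, par_mono h.par (isOpen_shell _ _) hs,
    fun x hx y hy => h.fib x (hs hx) y (hs hy), fun x hx => (h.sw x (hs hx)).trans (by gcongr),
    fun q q1 q2 => pn_mem h h0 (by linarith) (by linarith) (by linarith) (by nlinarith)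
      (by nlinarith)⟩

end

theorem en_eq (F : Flow M) (t : ℝ) (z : M) (r : ℝ) : en (F.m t) z r = F.hc.en t z r := by
  have : (F.m t).ball z r = F.hc.B t z r := by
    ext q; exact Iff.of_eq (congrArg (· < r) (d_comm _ q z))
  unfold en HC.en
  rw [this]; rfl

theorem late_Ioo {F : Flow M} {t : ℝ} (ht : t ∈ late F) : t ∈ Ioo 0 F.T :=
  ⟨lt_of_lt_of_le (half_pos F.hT) ht.1, ht.2⟩

theorem cone [CompactSpace M] (F : Flow M) (B : Base F) (T : TRANS M) (O : ONE M) (E1 : ENT1 F)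
    (E2 : ENT2 F) : CONE F := by
  intro η ε hη hε
  obtain ⟨κ, hκ, E1⟩ := E1
  obtain ⟨δ1, hδ1, hδ1', hl⟩ := lng T η hη
  obtain ⟨L2, η2, K2, r2, n2, hL2, hη2, hK2, hr2, E2⟩ := E2 ε hε
  set L := max 128 L2 with hL
  have hL1 : 128 ≤ L := le_max_left _ _
  have hL3 : L2 ≤ L := le_max_right _ _
  obtain ⟨K1, hK1, E1⟩ := E1 L (by linarith)
  set θ := min δ1 η2 with hθ
  have hθ0 : 0 < θ := lt_min hδ1 hη2
  have hθ1 : θ ≤ δ1 := min_le_left _ _
  have hθ2 : θ ≤ η2 := min_le_right _ _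
  obtain ⟨δ, hδ, O⟩ := O κ L K1 θ 2 hκ (by linarith) hK1 hθ0
  obtain ⟨r1, n1, hr1, E1⟩ := E1 δ hδ
  obtain ⟨C, hC, hV⟩ := B.c.up (F.T / 2) (half_pos F.hT)
  refine ⟨16 * C, max 16 K2, min r1 r2 / 16, n1 + n2, le_trans (by norm_num) (le_max_left _ _),
    by positivity, fun t ht z => ?_⟩
  obtain ⟨B1, c1, E1⟩ := E1 t ht z
  obtain ⟨B2, c2, E2⟩ := E2 t ht z
  refine ⟨B1 ∪ B2, (Finset.card_union_le _ _).trans (add_le_add c1 c2),
    fun a b ha hab hb hbad hen => ?_⟩
  set K := max 16 K2 with hK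
  have hK16 : 16 ≤ K := le_max_left _ _
  have hKK : K2 ≤ K := le_max_right _ _
  obtain ⟨j0, hj0⟩ := exists_mem_Ico_zpow (x := 16 * a) (y := 2) (by positivity) one_lt_two
  set s : ℝ := 2 ^ j0 with hs
  have hs0 : 0 < s := by positivity
  have hs1 : s ≤ 16 * a := hj0.1
  have hs2 : 8 * a < s := by
    have := hj0.2
    rw [zpow_add_one₀ two_ne_zero] at this
    linarith
  have hex : ∃ n : ℕ, b ≤ 64 * (4 ^ n * s) := by
    obtain ⟨n, hn⟩ := pow_unbounded_of_one_lt (b / s) (show (1 : ℝ) < 4 by norm_num)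
    rw [div_lt_iff₀ hs0] at hn
    have : 0 < (4 : ℝ) ^ n * s := by positivity
    exact ⟨n, by linarith⟩
  classical
  set n := Nat.find hex with hn
  have hn1 : b ≤ 64 * (4 ^ n * s) := Nat.find_spec hex
  have hn2 : 4 ^ n * s ≤ 16 * b := by
    rcases Nat.eq_zero_or_pos n with h | h
    · rw [h, pow_zero]; linarith
    · obtain ⟨k, hk⟩ := Nat.exists_eq_add_of_le' h
      have := Nat.find_min hex (m := k) (by omega)
      rw [hk, pow_succ]
      linarith
  obtain ⟨Γ, Ψ, hΓ, hc⟩ := hl (F.m t) z s n hs0 fun i hi => by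
    set S : ℝ := 4 ^ i * s with hS
    have e : (2 : ℝ) ^ (j0 + 2 * i) = S := by
      rw [zpow_add₀ two_ne_zero, zpow_mul, zpow_natCast, hS, mul_comm, ← hs]; norm_num
    have s1 : s ≤ S := le_mul_of_one_le_left hs0.le (one_le_pow₀ (by norm_num))
    have s2 : S ≤ 16 * b := le_trans (by rw [hS]; gcongr; norm_num) hn2
    have S0 : 0 < S := by linarith
    have nb : j0 + 2 * i ∉ B1 ∪ B2 := fun hm => by
      rcases hbad _ hm with h | h
      · have : a / K ≤ a := div_le_self ha.le (by linarith)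
        linarith
      · have : 16 * b ≤ K * b := by gcongr; linarith
        linarith
    have m1 := min_le_left r1 r2
    have m2 := min_le_right r1 r2
    obtain ⟨u, hu1, hu2⟩ := E1 _ (fun h => nb (Finset.mem_union_left _ h)) (by linarith)
    rw [e] at hu1 hu2
    obtain ⟨Γ, Ψ, p1, p2⟩ := O (F.m t) z u S S0 hu1 hu2
    have l1 : 2 * (S / L) ≤ S / 64 := by
      have : S / L ≤ S / 128 := by gcongr
      linarith
    have l2 : 2 * (64 * S) ≤ L * S := by nlinarith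
    have l0 : 0 ≤ S / L := by positivity
    refine ⟨Γ, Ψ, fun h => ?_, (pn_ch p1 hθ0.le (by linarith) l0 (by positivity) l1 l2).mono hθ1
      (by positivity) (by positivity), fun x hx =>
        jg_mono (p2 x (shell_mono (by linarith) (by linarith) hx)) hθ1⟩
    subst h
    have l3 : S / L ≤ S / L2 := by gcongr
    have l4 : L2 * S ≤ L * S := by gcongr
    have := E2 _ (fun h => nb (Finset.mem_union_right _ h)) (by linarith) Ψ (by
      rw [e]
      exact ⟨pn_res p1 hθ0.le (by linarith) (by positivity) (by positivity) l3 l4 hθ2,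
        fun x hx => jg_mono (p2 x (shell_mono l3 l4 hx)) hθ2⟩)
    rw [e, en_eq] at this
    rw [en_eq] at hen
    have l5 : a / K ≤ S / K2 := by gcongr; linarith
    have := HC.en_mono_set B.ok (late_Ioo ht) (x := z) (y := z) (r := a / K) (s := S / K2)
      fun q hq => lt_of_lt_of_le hq l5
    linarith
  have h1 : Ch (F.m t) z (1 / 10) Γ Ψ (s / 64) b := hc.1.res (by norm_num) (by norm_num) le_rfl hn1
  have haa : 3 * (s / 64) ≤ a := by linarith
  refine ⟨nk (F.m t) z Γ Ψ a b, h1.top (by norm_num) (by norm_num) ha haa hab hΓ, rfl, rfl,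
    h1.mem_in (by norm_num) (by norm_num) ha haa hab,
    fun x hx => hc.2 x (shell_mono (show s / 64 ≤ a by linarith) hn1 hx), ?_⟩
  have := B.ok.int.fin t (late_Ioo ht)
  have h2 : (nk (F.m t) z Γ Ψ a b).In ⊆ F.hc.B t z (2 * a) := fun q hq => by
    have := h1.in_le (by norm_num) (by norm_num) ha haa hab hq
    exact lt_of_le_of_lt this (by linarith)
  calc _ ≤ (F.hc.vol t).real (F.hc.B t z (2 * a)) := measureReal_mono h2
    _ ≤ C * (2 * a) ^ 4 := hV t ht z _ (by positivity)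
    _ = 16 * C * a ^ 4 := by ring

end Crest.Agent.N207.G

end
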