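import Crest.Agent.N207.G.Rf
import Crest.Agent.N207.G.Df
import Crest.Agent.N207.F.Stat

/-!
# Row 207, block G (helper25): the leaves of `ONE1`, along a filter
-/

set_option autoImplicit false
set_option linter.unusedSectionVars false
set_option maxSynthPendingDepth 3

open scoped ContDiff Manifold Topology
open Set Filter Metric
open Crest.GeometryTopology.CoordMetric
open Crest.Agent.R202.Tens Crest.Agent.N207.Jt

noncomputable section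

namespace Crest.Agent.N207.Gs

variable {M : Type*} [TopologicalSpace M] [ChartedSpace E4 M] [IsManifold 𝓘(ℝ, E4) ∞ M]
  [T3Space M] [ConnectedSpace M] [MeasurableSpace M] [BorelSpace M] {ι : Type}

/-- asymptotically conical along the filter -/
structure In (l : Filter ι) (g : ι → Met 4 M) (z : ι → M) (b : ι → M → ℝ) (κ : ℝ) : Prop where
  pos : 0 < κ
  ac : ∀ δ > 0, ∀ᶠ j in l, AC (g j) (z j) (b j) 1 δ κ

/-- good parametrisations on `U` -/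
structure Gd (l : Filter ι) (g : ι → Met 4 M) (z : ι → M) (b : ι → M → ℝ) (Ψ : ι → E4 → M)
    (U : Set E4) : Prop where
  par : ∀ᶠ j in l, Par (Ψ j) U
  mc : MC l (fun j => (g j).pm (Ψ j)) fun _ => U
  sw : ∀ ε > 0, ∀ᶠ j in l, ∀ y ∈ U, |(g j).d (z j) (Ψ j y) - ‖y‖| ≤ ε
  db : ∀ ε > 0, ∀ᶠ j in l, ∀ y ∈ U,
    ‖fderiv ℝ (fun x => b j (Ψ j x)) y - (2 : ℝ) • innerSL ℝ y‖ ≤ ε

/-- the points of the ball of radius `R` that are visible from `e` -/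
def Dm (e : E4) (s R : ℝ) : Set E4 :=
  {y | ‖y‖ < R ∧ ∃ v : E4, ‖v‖ ≤ 3 ∧ s < inner ℝ v e ∧ s < inner ℝ v y}

variable (M) in
/-- leaf: the direction of the gradient of `b` -/
def DIR : Prop :=
  ∀ {ι : Type} (𝒰 : Ultrafilter ι) (g : ι → Met 4 M) (z : ι → M) (b : ι → M → ℝ) (κ : ℝ)
    (p : ι → M) (Φ : ι → E4 → M), In 𝒰 g z b κ → (∀ j, F.IsExp (g j) (p j) (Φ j)) →
    Tendsto (fun j => (g j).d (z j) (p j)) 𝒰 (𝓝 1) → ∃ e : E4, ‖e‖ = 1 ∧
      Tendsto (fun j => fderiv ℝ (fun y => b j (Φ j y)) 0) 𝒰 (𝓝 ((2 : ℝ) • innerSL ℝ e))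

variable (M) in
/-- leaf: the exponential map is good on the visible region -/
def LONG : Prop :=
  ∀ {ι : Type} (l : Filter ι) (g : ι → Met 4 M) (z : ι → M) (b : ι → M → ℝ) (κ : ℝ)
    (p : ι → M) (Φ : ι → E4 → M) (e : E4), In l g z b κ → (∀ j, F.IsExp (g j) (p j) (Φ j)) →
    Tendsto (fun j => (g j).d (z j) (p j)) l (𝓝 1) → ‖e‖ = 1 →
    Tendsto (fun j => fderiv ℝ (fun y => b j (Φ j y)) 0) l (𝓝 ((2 : ℝ) • innerSL ℝ e)) →
    ∀ s R : ℝ, 0 < s → s < 1 → 1 < R → Gd l g z b (fun j y => Φ j (y - e)) (Dm e s R)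

variable (M) in
/-- leaf: local injectivity at a fixed scale -/
def LIS : Prop :=
  ∀ {ι : Type} (l : Filter ι) (g : ι → Met 4 M) (z : ι → M) (b : ι → M → ℝ) (κ : ℝ)
    (Ψ : ι → E4 → M) (U U' : Set E4) (a R r : ℝ), In l g z b κ → Gd l g z b Ψ U → 0 < a → 0 < r →
    (∀ y ∈ U, a ≤ ‖y‖ ∧ ‖y‖ ≤ R) → (∀ y ∈ U', ball y r ⊆ U) →
    ∃ ρ > 0, ∀ᶠ j in l, LI (Ψ j) U' ρ

variable (M) in
/-- leaf: a good parametrisation of every shell -/
def SHL : Prop :=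
  ∀ {ι : Type} (𝒰 : Ultrafilter ι) (g : ι → Met 4 M) (z : ι → M) (b : ι → M → ℝ) (κ : ℝ),
    In 𝒰 g z b κ → ∀ a R : ℝ, 0 < a → a < R → ∃ Ψ, Gd 𝒰 g z b Ψ (Sk.shell a R)

variable (M) in
/-- leaf: the deck group -/
def DECK : Prop :=
  ∀ {ι : Type} (𝒰 : Ultrafilter ι) (g : ι → Met 4 M) (z : ι → M) (b : ι → M → ℝ) (κ : ℝ),
    In 𝒰 g z b κ → ∀ R : ℝ, 2 ≤ R → ∃ (Γ : Subgroup (E4 ≃ₗᵢ[ℝ] E4)) (Ψ : ι → E4 → M),
      Finite Γ ∧ (∀ γ ∈ Γ, ∀ x : E4, x ≠ 0 → γ x = x → γ = 1) ∧ Gd 𝒰 g z b Ψ (Sk.shell (1 / R) R) ∧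
      ∀ᶠ j in (𝒰 : Filter ι), ∀ x ∈ Sk.shell (1 / R) R, ∀ y ∈ Sk.shell (1 / R) R,
        Ψ j x = Ψ j y ↔ ∃ γ ∈ Γ, γ x = y

variable {l : Filter ι} {g : ι → Met 4 M} {z : ι → M} {b : ι → M → ℝ} {Ψ : ι → E4 → M}
  {U : Set E4}

theorem In.comap {κ : ℝ} (h : In l g z b κ) {ι' : Type} {m : Filter ι'} {e : ι' → ι}
    (he : Tendsto e m l) : In m (fun j => g (e j)) (fun j => z (e j)) (fun j => b (e j)) κ :=
  ⟨h.pos, fun δ hδ => he.eventually (h.ac δ hδ)⟩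

theorem Gd.comap (h : Gd l g z b Ψ U) {ι' : Type} {m : Filter ι'} {e : ι' → ι}
    (he : Tendsto e m l) :
    Gd m (fun j => g (e j)) (fun j => z (e j)) (fun j => b (e j)) (fun j => Ψ (e j)) U :=
  ⟨he.eventually h.par, h.mc.comap he (Eventually.of_forall fun _ => subset_rfl),
    fun ε hε => he.eventually (h.sw ε hε), fun ε hε => he.eventually (h.db ε hε)⟩

theorem Gd.mono (h : Gd l g z b Ψ U) {V : Set E4} (hV : IsOpen V) (hVU : V ⊆ U) :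
    Gd l g z b Ψ V :=
  ⟨h.par.mono fun _ hj => par_mono hj hV hVU, h.mc.mono (Eventually.of_forall fun _ => hVU),
    fun ε hε => (h.sw ε hε).mono fun _ hj y hy => hj y (hVU hy),
    fun ε hε => (h.db ε hε).mono fun _ hj y hy => hj y (hVU hy)⟩

theorem isOpen_shell (a R : ℝ) : IsOpen (Sk.shell a R) :=
  (isOpen_lt continuous_const continuous_norm).inter (isOpen_lt continuous_norm continuous_const)

theorem isOpen_dm (e : E4) (s R : ℝ) : IsOpen (Dm e s R) := by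
  refine isOpen_iff_mem_nhds.2 fun y ⟨h1, v, h2, h3, h4⟩ => ?_
  have c : Continuous fun w : E4 => (inner ℝ v w : ℝ) := by fun_prop
  filter_upwards [continuous_norm.continuousAt.eventually (gt_mem_nhds h1),
    c.continuousAt.eventually (lt_mem_nhds h4)] with w a b using ⟨a, v, h2, h3, b⟩

end Crest.Agent.N207.Gs

end
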