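import Crest.Agent.N207.G.Rf
import Crest.Agent.N207.I.Fix

/-!
# Row 207, block G (helper93): inverses of maps that converge smoothly to the identity
-/

set_option autoImplicit false
set_option linter.unusedSectionVars false
set_option maxSynthPendingDepth 3

open scoped ContDiff Manifold Topology
open Set Filter Metric Function
open Crest.GeometryTopology.CoordMetric
open Crest.Agent.R202.Tens Crest.Agent.N207.Jt Crest.Agent.N207.Gs

noncomputable section

namespace Crest.Agent.N207.G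

variable {n : ℕ} {ι : Type} {l : Filter ι}

theorem ue_c0 {X Y : Type} [NormedAddCommGroup X] [NormedSpace ℝ X] [NormedAddCommGroup Y]
    [NormedSpace ℝ Y] {u v : ι → X → Y} {S : ι → Set X} (h : UE l u v S) {ε : ℝ} (hε : 0 < ε) :
    ∀ᶠ j in l, ∀ z ∈ S j, ‖u j z - v j z‖ < ε := by
  have := Metric.tendsto_nhds.1 (GE.val h) ε hε
  simpa only [dist_zero_right] using ev_un.1 this

theorem ue_c1 {h : ι → En n → En n} {S : ι → Set (En n)} (H : UE l h (fun _ z => z) S) {ε : ℝ}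
    (hε : 0 < ε) :
    ∀ᶠ j in l, ∀ z ∈ S j, ‖fderiv ℝ (h j) z - ContinuousLinearMap.id ℝ (En n)‖ < ε := by
  have := ue_c0 (u := fun j => fderiv ℝ (h j)) (v := fun _ => fderiv ℝ fun z : En n => z)
    (GE.fderiv H) hε
  simpa only [fderiv_fun_id] using this

theorem surj_near {f : En n → En n} {w : En n} {θ : ℝ} (hθ : 0 < θ)
    (hd : ∀ x ∈ closedBall w θ, DifferentiableAt ℝ f x)
    (h0 : ∀ x ∈ closedBall w θ, ‖f x - x‖ ≤ θ)
    (h1 : ∀ x ∈ closedBall w θ, ‖fderiv ℝ f x - ContinuousLinearMap.id ℝ (En n)‖ ≤ 1 / 2) :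
    ∃ x ∈ closedBall w θ, f x = w := by
  have hm : MapsTo (fun x => w - (f x - x)) (closedBall w θ) (closedBall w θ) := fun x hx => by
    rw [mem_closedBall_iff_norm, sub_sub_cancel_left, norm_neg]; exact h0 x hx
  have hc : ContractingWith (1 / 2) (hm.restrict _ _ _) := by
    refine ⟨by norm_num, LipschitzWith.of_dist_le_mul fun x x' => ?_⟩
    have := (convex_closedBall w θ).norm_image_sub_le_of_norm_hasFDerivWithin_le
      (f := fun x => f x - x) (fun z hz =>
        ((hd z hz).hasFDerivAt.sub (hasFDerivAt_id z)).hasFDerivWithinAt) h1 x.2 x'.2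
    change dist (w - (f x - x)) (w - (f x' - x')) ≤ _
    rw [dist_eq_norm, sub_sub_sub_cancel_left, Subtype.dist_eq, dist_eq_norm, norm_sub_rev x.1]
    push_cast
    exact this
  obtain ⟨x, hx, hf, -⟩ := hc.exists_fixedPoint' isClosed_closedBall.isComplete hm
    (mem_closedBall_self hθ.le) (edist_ne_top _ _)
  refine ⟨x, hx, ?_⟩
  have : w - (f x - x) = x := hf
  rw [sub_eq_iff_eq_add, add_sub_cancel] at this
  exact this.symm

/-- **inverses** -/
theorem invl {h : ι → En n → En n} {O O2 W : Set (En n)} {θ : ℝ} (hθ : 0 < θ) (hO2 : IsOpen O2)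
    (t1 : ∀ x ∈ O2, closedBall x θ ⊆ O) (t2 : ∀ w ∈ W, closedBall w θ ⊆ O2)
    (hb : ∃ C, ∀ x ∈ O2, ‖x‖ ≤ C) (H : UE l h (fun _ z => z) fun _ => O) :
    ∃ S : ι → En n → En n, (∀ᶠ j in l, InjOn (h j) O2 ∧ ∀ w ∈ W, S j w ∈ O2 ∧ h j (S j w) = w) ∧
      UE l S (fun _ z => z) fun _ => W := by
  have s1 : O2 ⊆ O := fun x hx => t1 x hx (mem_closedBall_self hθ.le)
  have s2 : W ⊆ O2 := fun x hx => t2 x hx (mem_closedBall_self hθ.le)
  set S : ι → En n → En n := fun j => invFunOn (h j) O2 with hS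
  have key : ∀ᶠ j in l, InjOn (h j) O2 ∧ ∀ w ∈ W, (S j w ∈ O2 ∧ h j (S j w) = w) ∧
      ContDiffAt ℝ ∞ (S j) w ∧ fderiv ℝ (S j) =ᶠ[𝓝 w]
        fun z => ContinuousLinearMap.inverse (fderiv ℝ (h j) (S j z)) := by
    filter_upwards [(ub_iff.1 H.left).1, ue_c0 H (half_pos hθ), ue_c1 H (ε := 1 / 2) (by norm_num)]
      with j a b c
    have hi : InjOn (h j) O2 := fun x hx y hy e => by
      refine injOn_of_near (convex_closedBall x θ)
        (fun z hz => (a z (t1 x hx hz)).differentiableAt infty_ne)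
        (fun z hz => (c z (t1 x hx hz)).le) (mem_closedBall_self hθ.le) ?_ e
      have b1 := b x (s1 hx)
      have b2 := b y (s1 hy)
      have := norm_sub_le_norm_sub_add_norm_sub y (h j y) x
      rw [norm_sub_rev y (h j y), ← e] at this
      rw [← e] at b2
      rw [mem_closedBall_iff_norm]; linarith
    refine ⟨hi, fun w hw => ?_⟩
    obtain ⟨x, hx, rfl⟩ := surj_near hθ
      (fun z hz => (a z (s1 (t2 w hw hz))).differentiableAt infty_ne)
      (fun z hz => (b z (s1 (t2 w hw hz))).le.trans (half_le_self hθ.le))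
      fun z hz => (c z (s1 (t2 w hw hz))).le
    obtain ⟨S', V, hV, hxV, -, hs, hm⟩ := exists_loc_inv hO2 (fun z hz => a z (s1 hz))
      (fun z hz => inj_of_near (c z (s1 hz)).le) (t2 _ hw hx)
    have e : ∀ z ∈ V, S j z = S' z := fun z hz =>
      hi (invFunOn_mem ⟨_, hm z hz⟩) (hm z hz).1 ((invFunOn_eq ⟨_, hm z hz⟩).trans (hm z hz).2.symm)
    have sm : ∀ z ∈ V, ContDiffAt ℝ ∞ (S j) z := fun z hz =>
      (hs.contDiffAt (hV.mem_nhds hz)).congr_of_eventuallyEq (mem_of_superset (hV.mem_nhds hz) e)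
    have hm' : ∀ z ∈ V, S j z ∈ O2 ∧ h j (S j z) = z := fun z hz => e z hz ▸ hm z hz
    refine ⟨hm' _ hxV, sm _ hxV, mem_of_superset (hV.mem_nhds hxV) fun z hz => ?_⟩
    have i1 := inj_of_near (c _ (s1 (hm' z hz).1)).le
    have d1 := ((a _ (s1 (hm' z hz).1)).differentiableAt infty_ne).hasFDerivAt.comp z
      ((sm z hz).differentiableAt infty_ne).hasFDerivAt
    have d2 : HasFDerivAt (h j ∘ S j) (ContinuousLinearMap.id ℝ (En n)) z :=
      (hasFDerivAt_id z).congr_of_eventuallyEq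
        (mem_of_superset (hV.mem_nhds hz) fun u hu => (hm' u hu).2)
    have d3 := d1.unique d2
    show fderiv ℝ (S j) z = ContinuousLinearMap.inverse (fderiv ℝ (h j) (S j z))
    rw [← eqv_coe _ i1, ContinuousLinearMap.inverse_equiv]
    refine ContinuousLinearMap.ext fun X => ?_
    exact ((eqv _ i1).eq_symm_apply).2 (congrArg (fun L : En n →L[ℝ] En n => L X) d3)
  refine ⟨S, key.mono fun j a => ⟨a.1, fun w hw => (a.2 w hw).1⟩, ?_⟩
  obtain ⟨C, hC⟩ := hb
  set F := un l fun _ => W with hF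
  have k1 : ∀ᶠ p in F, (S p.1 p.2 ∈ O2 ∧ h p.1 (S p.1 p.2) = p.2) ∧
      ContDiffAt ℝ ∞ (S p.1) p.2 ∧ fderiv ℝ (S p.1) =ᶠ[𝓝 p.2]
        fun z => ContinuousLinearMap.inverse (fderiv ℝ (h p.1) (S p.1 z)) :=
    ev_un.2 (key.mono fun j a => a.2)
  have b1 : ∀ᶠ p in F, ‖p.2‖ ≤ C := (un_mem l _).mono fun p a => hC _ (s2 a)
  have b2 : ∀ᶠ p in F, ‖S p.1 p.2‖ ≤ C := k1.mono fun p a => hC _ a.1.1
  have g0 : GE F (fun p => h p.1) (fun p => S p.1 p.2) (fun _ z => z) fun p => S p.1 p.2 :=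
    H.at (un_fst _ _) (k1.mono fun p a => s1 a.1.1)
  have g1 : GE F (fun p y => ContinuousLinearMap.inverse (fderiv ℝ (h p.1) y)) (fun p => S p.1 p.2)
      (fun _ _ => ContinuousLinearMap.id ℝ (En n)) fun p => S p.1 p.2 := by
    have := g0.fderiv.inverse (c := 1 / 2) (by norm_num) (by
      filter_upwards [k1, (un_fst _ _).eventually (ue_c1 H (ε := 1 / 2) (by norm_num))] with p a b
      exact lower_of_near (b _ (s1 a.1.1)).le) (Eventually.of_forall fun p y => by
        rw [fderiv_fun_id, ContinuousLinearMap.id_apply]; linarith [norm_nonneg y])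
    simpa only [fderiv_fun_id, ContinuousLinearMap.inverse_id] using this
  have hid : GB F (fun _ (q : En n × En n) => q) fun p => (p.2, S p.1 p.2) :=
    GB.id ⟨max C C, by filter_upwards [b1, b2] with p a b using max_le_max a b⟩
  have g2 : GB F (fun p => S p.1) Prod.snd :=
    GB.boot (Ψ := fun p q => ContinuousLinearMap.inverse (fderiv ℝ (h p.1) q.2)) ⟨C, b1⟩ ⟨C, b2⟩
      (k1.mono fun p a => a.2.1)
      (GB.comp (g := fun p y => ContinuousLinearMap.inverse (fderiv ℝ (h p.1) y)) g1.left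
        (hid.smooth (Φ := fun q => q.2) (by fun_prop))) (k1.mono fun p a => a.2.2)
  refine ge_of_fderiv g2 (GB.id ⟨C, b1⟩) ?_ ?_
  · refine (by simpa using g0.val.neg : Tendsto (fun p => S p.1 p.2 - h p.1 (S p.1 p.2)) F
      (𝓝 0)).congr' (k1.mono fun p a => ?_)
    simp only [a.1.2]
  · exact ((g1.comp g2.ge).congr_left (k1.mono fun p a => ⟨rfl, a.2.2⟩)).congr_right
      (Eventually.of_forall fun p => ⟨rfl, Eventually.of_forall fun y => fderiv_fun_id⟩)

end Crest.Agent.N207.G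

end
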