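import Crest.Agent.N207.G.Gp1
import Crest.Agent.N207.G.Gp2
import Crest.Agent.N207.G.Fd
import Crest.Agent.N207.TR.Lift

/-!
# Row 207, block G (helper93): the deck group, `DECK` from `SHL` and `LIS`
-/

set_option autoImplicit false
set_option linter.unusedSectionVars false
set_option maxSynthPendingDepth 3

open scoped ContDiff Manifold Topology
open Set Filter Metric Function
open Crest.GeometryTopology.CoordMetric
open Crest.Agent.R202.Tens Crest.Agent.N207.Jt Crest.Agent.N207.Gs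

noncomputable section

namespace Crest.Agent.N207.G

section gen

variable {n : ℕ} {M : Type*} [TopologicalSpace M] [ChartedSpace (En n) M]
  [IsManifold 𝓘(ℝ, En n) ∞ M] [T3Space M] [ConnectedSpace M] {ι : Type}
  {l : Filter ι} {m : ι → Met n M} {Φ : ι → En n → M} {U K O : Set (En n)} {ρ r : ℝ}
  {A : En n ≃ₗᵢ[ℝ] En n}

theorem GH.tr_near (h : GH l m Φ U ρ) (hA : InG l Φ U A) (hK : IsCompact K) (hKU : K ⊆ U)
    (hO : IsOpen O) (hOK : O ⊆ K) (hr : 0 < r) (hrρ : r ≤ ρ) (hth : ∀ y ∈ O, closedBall y r ⊆ U)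
    {ε : ℝ} (hε : 0 < ε) : ∀ᶠ j in l, ∀ w ∈ O, w ∈ trD (Φ j) (Φ j) A r O ∧
      ‖tr (Φ j) (Φ j) A r w - A w‖ ≤ ε ∧
      ‖fderiv ℝ (tr (Φ j) (Φ j) A r) w - (A : En n →L[ℝ] En n)‖ ≤ ε := by
  filter_upwards [h.rh A hO hr hrρ hth, hA K hK hKU (min ε (r / 8)) (by positivity)] with j H a w hw
  obtain ⟨y, hy, L, e1, e2, e3, e4⟩ := a w (hOK hw)
  have k : ‖y - A w‖ < r / 4 := by linarith [min_le_right ε (r / 8)]
  have h0 : w ∈ trD (Φ j) (Φ j) A r O := ⟨hw, y, k, e2⟩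
  have e5 := H.eq hw k e2
  have e6 : fderiv ℝ (tr (Φ j) (Φ j) A r) w = L := IsD.unique H.p' hy (e5 ▸ H.isD h0) e3
  rw [e6, e5]
  exact ⟨h0, e1.trans (min_le_left _ _), e4.trans (min_le_left _ _)⟩

theorem GH.tr_ue (h : GH l m Φ U ρ) (hA : InG l Φ U A) (hK : IsCompact K) (hKU : K ⊆ U)
    (hO : IsOpen O) (hOK : O ⊆ K) (hr : 0 < r) (hrρ : r ≤ ρ) (hth : ∀ y ∈ O, closedBall y r ⊆ U) :
    UE l (fun j => tr (Φ j) (Φ j) A r) (fun _ z => A z) fun _ => O := by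
  have k : ∀ {ε : ℝ}, 0 < ε → ∀ᶠ p in un l fun _ => O, p.2 ∈ trD (Φ p.1) (Φ p.1) A r O ∧
      ‖tr (Φ p.1) (Φ p.1) A r p.2 - A p.2‖ ≤ ε ∧
      ‖fderiv ℝ (tr (Φ p.1) (Φ p.1) A r) p.2 - (A : En n →L[ℝ] En n)‖ ≤ ε := fun hε =>
    ev_un.2 (h.tr_near hA hK hKU hO hOK hr hrρ hth hε)
  have H := (un_fst l fun _ => O).eventually (h.rh A hO hr hrρ hth)
  obtain ⟨R, hR⟩ := h.bd
  have hU := (un_mem l fun _ => O).mono fun p a => hKU (hOK a)
  refine ge_iso (A := fun _ => A) ?_ (h.mc.at (un_fst _ _) hU) (h.mc.at (un_fst _ _) ?_)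
    ⟨R, hU.mono fun p a => hR _ a⟩ (Metric.tendsto_nhds.2 fun ε hε => ?_)
    (Metric.tendsto_nhds.2 fun ε hε => ?_)
  · filter_upwards [H, k one_pos] with p a b using ⟨_, _, b.1, a.pull (m p.1)⟩
  · filter_upwards [H, k one_pos] with p a b using a.mem b.1.1 (RH.spec b.1).1
  · filter_upwards [k (half_pos hε)] with p a
    rw [dist_zero_right]; exact a.2.1.trans_lt (half_lt_self hε)
  · filter_upwards [k (half_pos hε)] with p a
    rw [dist_zero_right]; exact a.2.2.trans_lt (half_lt_self hε)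

/-- **the equivariant reparametrisation** -/
theorem GH.deck {𝒰 : Ultrafilter ι} (h : GH (𝒰 : Filter ι) m Φ U ρ) {O2 W : Set (En n)} {θ : ℝ}
    (hθ : 0 < θ) (hK : IsCompact K) (hKU : K ⊆ U) (hO : IsOpen O) (hOK : O ⊆ K)
    (hO2 : IsOpen O2) (t0 : ∀ y ∈ O, closedBall y θ ⊆ U) (t1 : ∀ y ∈ O2, closedBall y θ ⊆ O)
    (t2 : ∀ y ∈ W, closedBall y θ ⊆ O2) (i1 : ∀ A : En n ≃ₗᵢ[ℝ] En n, ∀ x ∈ O2, A x ∈ O2) :
    ∃ S : ι → En n → En n, UE (𝒰 : Filter ι) S (fun _ z => z) (fun _ => W) ∧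
      ∀ᶠ j in (𝒰 : Filter ι), (∀ w ∈ W, S j w ∈ U) ∧ ∀ x ∈ W, ∀ y ∈ W,
        Φ j (S j x) = Φ j (S j y) ↔ ∃ γ ∈ h.grp, γ x = y := by
  have : Finite h.grp := h.finite
  have := Fintype.ofFinite h.grp
  have s1 : O2 ⊆ O := fun x hx => t1 x hx (mem_closedBall_self hθ.le)
  set r := min ρ θ with hr
  have hr0 : 0 < r := lt_min h.pos hθ
  have hr1 : r ≤ θ := min_le_right _ _
  have hth : ∀ y ∈ O, closedBall y r ⊆ U := fun y hy =>
    (closedBall_subset_closedBall hr1).trans (t0 y hy)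
  set T : h.grp → ι → En n → En n := fun γ j => tr (Φ j) (Φ j) γ.1 r with hT
  set f : ι → En n → En n := fun j z =>
    (Fintype.card h.grp : ℝ)⁻¹ • ∑ γ : h.grp, (γ.1⁻¹ : En n ≃ₗᵢ[ℝ] En n) (T γ j z) with hf
  have hfe : UE (𝒰 : Filter ι) f (fun _ z => z) fun _ => O := by
    have := (GE.const' (Fintype.card h.grp : ℝ)⁻¹).smul (GE.sum Finset.univ fun γ : h.grp =>
      fun _ => GE.clm ((γ.1⁻¹ : En n ≃ₗᵢ[ℝ] En n) : En n →L[ℝ] En n)
        (h.tr_ue γ.2 hK hKU hO hOK hr0 (min_le_left _ _) hth))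
    refine this.congr_right (Eventually.of_forall fun p => ⟨rfl, Eventually.of_forall fun y => ?_⟩)
    have e : ∀ γ : h.grp, ((γ.1⁻¹ : En n ≃ₗᵢ[ℝ] En n) : En n →L[ℝ] En n) (γ.1 y) = y :=
      fun γ => γ.1.symm_apply_apply y
    simp only [e]
    simp [← Nat.cast_smul_eq_nsmul ℝ, smul_smul]
  obtain ⟨R, hR⟩ := h.bd
  obtain ⟨S, hS, hSe⟩ := invl hθ hO2 t1 t2 ⟨R, fun x hx => hR x (hKU (hOK (s1 hx)))⟩ hfe
  refine ⟨S, hSe, ?_⟩
  filter_upwards [hS, ue_c0 hSe (ε := r / 16) (by positivity),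
    eventually_all.2 fun γ : h.grp => h.rh γ.1 hO hr0 (min_le_left _ _) hth,
    eventually_all.2 fun γ : h.grp =>
      h.tr_near γ.2 hK hKU hO hOK hr0 (min_le_left _ _) hth (ε := r / 16) (by positivity),
    h.unif hK hKU (ε := r / 4) (by positivity)] with j ⟨a1, a2⟩ b c d e
  have eqv : ∀ δ : h.grp, ∀ w ∈ O2, f j (T δ j w) = δ.1 (f j w) := fun δ w hw => by
    have d1 := d δ w (s1 hw)
    have hm : T δ j w ∈ O := t1 _ (i1 δ.1 w hw) (mem_closedBall_iff_norm.2 (by linarith [d1.2.1]))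
    have hc : ∀ γ : h.grp, T γ j (T δ j w) = T (γ * δ) j w := fun γ => by
      have d2 := d γ _ hm
      refine ((c (γ * δ)).eq (s1 hw) ?_ ((RH.spec d2.1).2.trans (RH.spec d1.1).2)).symm
      have := norm_sub_le_norm_sub_add_norm_sub (T γ j (T δ j w)) (γ.1 (T δ j w)) (γ.1 (δ.1 w))
      rw [← map_sub, γ.1.norm_map] at this
      show ‖T γ j (T δ j w) - γ.1 (δ.1 w)‖ < r / 4
      linarith [d1.2.1, d2.2.1]
    simp only [hf, hc, map_smul, map_sum]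
    congr 1
    refine Fintype.sum_equiv (Equiv.mulRight δ) _ _ fun γ => ?_
    simp
  refine ⟨fun w hw => hKU (hOK (s1 (a2 w hw).1)), fun x hx y hy => ⟨fun k => ?_, ?_⟩⟩
  · obtain ⟨A, hA, k1⟩ := e _ (hOK (s1 (a2 x hx).1)) _ (hKU (hOK (s1 (a2 y hy).1))) k.symm
    have k2 := eqv ⟨A, hA⟩ _ (a2 x hx).1
    rw [show T ⟨A, hA⟩ j (S j x) = S j y from (c ⟨A, hA⟩).eq (s1 (a2 x hx).1) k1 k.symm,
      (a2 x hx).2, (a2 y hy).2] at k2
    exact ⟨A, hA, k2.symm⟩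
  · rintro ⟨A, hA, rfl⟩
    have d1 := d ⟨A, hA⟩ _ (s1 (a2 x hx).1)
    have hm : T ⟨A, hA⟩ j (S j x) ∈ O2 := t2 _ hy (mem_closedBall_iff_norm.2 (by
      have := norm_sub_le_norm_sub_add_norm_sub (T ⟨A, hA⟩ j (S j x)) (A (S j x)) (A x)
      rw [← map_sub, A.norm_map] at this
      linarith [d1.2.1, b x hx]))
    have k2 := eqv ⟨A, hA⟩ _ (a2 x hx).1
    rw [(a2 x hx).2] at k2
    rw [← a1 hm (a2 _ hy).1 (k2.trans (a2 _ hy).2.symm)]
    exact (RH.spec d1.1).2.symm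

theorem isD_fderiv {Ψ : En n → M} (h : Par Ψ U) {f : M → ℝ} (hf : Sm n f) {x y : En n}
    (hx : x ∈ U) (hy : y ∈ U) (e : Ψ y = Ψ x) {L : En n →L[ℝ] En n} (hL : IsD Ψ Ψ x y L)
    (X : En n) : fderiv ℝ (fun z => f (Ψ z)) x X = fderiv ℝ (fun z => f (Ψ z)) y (L X) := by
  obtain ⟨T, V, hV, hxV, -, rfl, hT, hm⟩ := exists_trans0 h h hx hy e
  have hd := (hT.contDiffAt (hV.mem_nhds hxV)).differentiableAt infty_ne
  have e1 : Ψ =ᶠ[𝓝 x] fun z => Ψ (T z) :=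
    mem_of_superset (hV.mem_nhds hxV) fun z hz => (hm z hz).2.symm
  rw [IsD.unique h hy hL (isD_of (par_md h hy) hd e1)]
  have h1 : DifferentiableAt ℝ (fun z => f (Ψ z)) (T x) :=
    (contMDiffAt_iff_contDiffAt.1 ((hf _).comp _ (par_at h hy))).differentiableAt infty_ne
  have e2 : (fun z => f (Ψ z)) =ᶠ[𝓝 x] (fun z => f (Ψ z)) ∘ T := e1.mono fun z hz => congrArg f hz
  rw [e2.fderiv_eq, fderiv_comp x h1 hd]
  rfl

end gen

variable {M : Type*} [TopologicalSpace M] [ChartedSpace E4 M] [IsManifold 𝓘(ℝ, E4) ∞ M]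
  [T3Space M] [ConnectedSpace M] [MeasurableSpace M] [BorelSpace M] {ι : Type}
  {l : Filter ι} {g : ι → Met 4 M} {z : ι → M} {b : ι → M → ℝ} {Ψ : ι → E4 → M} {U : Set E4}

open Sk

theorem shell_th {a c θ : ℝ} {x : E4} (hx : x ∈ shell a c) :
    closedBall x θ ⊆ shell (a - θ) (c + θ) := fun y hy => by
  have := abs_le.1 ((abs_norm_sub_norm_le y x).trans (mem_closedBall_iff_norm.1 hy))
  exact ⟨by linarith [hx.1, this.1], by linarith [hx.2, this.2]⟩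

theorem gd_rc {κ : ℝ} (hi : In l g z b κ) (h : Gd l g z b Ψ U) {e : ℝ} (he : 0 < e) :
    ∀ᶠ j in l, ∀ x ∈ U, ∀ y ∈ U, ∀ L : E4 →L[ℝ] E4, Ψ j y = Ψ j x →
      IsD (Ψ j) (Ψ j) x y L → ∀ X, |inner ℝ y (L X) - inner ℝ x X| ≤ e * ‖X‖ := by
  filter_upwards [hi.ac 1 one_pos, h.par, h.db (e / 2) (half_pos he), ev_ne h.mc one_pos]
    with j a p d N x hx y hy L k hL X
  have h1 := isD_fderiv p a.sm hx hy k hL X
  have h2 : ‖L X‖ ≤ 2 * ‖X‖ :=
    L.le_of_opNorm_le (norm_le_two (N x hx).1 (N y hy).1 (hL.bil (g j) k)) X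
  have h3 := (fderiv ℝ (fun x => b j (Ψ j x)) x - (2 : ℝ) • innerSL ℝ x).le_of_opNorm_le (d x hx) X
  have h4 := (fderiv ℝ (fun x => b j (Ψ j x)) y - (2 : ℝ) • innerSL ℝ y).le_of_opNorm_le
    (d y hy) (L X)
  simp only [sub_apply, smul_apply, innerSL_apply_apply,
    smul_eq_mul, Real.norm_eq_abs, abs_le] at h3 h4
  have h5 : e / 2 * ‖L X‖ ≤ e / 2 * (2 * ‖X‖) := by gcongr
  have h6 : 0 ≤ e * ‖X‖ := by positivity
  rw [abs_le]
  constructor <;> linarith [h3.1, h3.2, h4.1, h4.2]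

/-- reparametrisation by maps converging to the identity -/
theorem gd_comp {κ : ℝ} (hi : In l g z b κ) (h : Gd l g z b Ψ U) {S : ι → E4 → E4} {W : Set E4}
    (hW : IsOpen W) {R : ℝ} (hR : ∀ y ∈ W, ‖y‖ ≤ R) (hR0 : 0 ≤ R)
    (hS : UE l S (fun _ y => y) fun _ => W) (hm : ∀ᶠ j in l, ∀ w ∈ W, S j w ∈ U) :
    Gd l g z b (fun j y => Ψ j (S j y)) W := by
  have hs := (ub_iff.1 hS.left).1
  refine ⟨?_, ?_, fun ε hε => ?_, fun ε hε => ?_⟩
  · filter_upwards [h.par, hs, hm, ue_c1 hS (ε := 1 / 2) (by norm_num)] with j a c d e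
    exact par_comp a hW (fun y hy => (c y hy).contDiffWithinAt) d
      fun y hy => inj_of_near (e y hy).le
  · refine gc_pull (A := fun _ => 1) (T := fun p => S p.1) (h.mc.at (un_fst _ _) (ev_un.2 hm))
      ((GE.fderiv hS).congr_right (Eventually.of_forall fun p =>
        ⟨rfl, Eventually.of_forall fun y => fderiv_fun_id.symm⟩)) hS.left (ev_un.2 ?_)
    filter_upwards [h.par, hs, hm] with j a c d y hy
    filter_upwards [hW.mem_nhds hy] with w hw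
    exact pm_comp_bil (g j) (par_md a (d w hw)) ((c w hw).differentiableAt infty_ne)
  · filter_upwards [h.sw _ (half_pos hε), ue_c0 hS (half_pos hε), hm] with j a c d y hy
    have h1 := abs_le.1 (a _ (d y hy))
    have h2 := abs_le.1 ((abs_norm_sub_norm_le (S j y) y).trans (c y hy).le)
    rw [abs_le]
    constructor <;> linarith [h1.1, h1.2, h2.1, h2.2]
  · set η := min 1 (ε / (6 + 2 * R)) with hη
    have h0 : 0 < η := by positivity
    have h1 : η ≤ 1 := min_le_left _ _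
    have h2 : η * (6 + 2 * R) ≤ ε := (le_div_iff₀ (by positivity)).1 (min_le_right _ _)
    filter_upwards [hi.ac 1 one_pos, h.par, h.db η h0, hs, ue_c0 hS h0, ue_c1 hS h0, hm]
      with j a p d s c0 c1 e y hy
    have d1 : DifferentiableAt ℝ (fun x => b j (Ψ j x)) (S j y) :=
      (contMDiffAt_iff_contDiffAt.1 ((a.sm _).comp _ (par_at p (e y hy)))).differentiableAt infty_ne
    rw [show (fun x => b j (Ψ j (S j x))) = (fun x => b j (Ψ j x)) ∘ S j from rfl,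
      fderiv_comp y d1 ((s y hy).differentiableAt infty_ne)]
    refine ContinuousLinearMap.opNorm_le_bound _ hε.le fun X => ?_
    set Y := fderiv ℝ (S j) y X with hY
    have k1 : ‖Y - X‖ ≤ η * ‖X‖ :=
      (fderiv ℝ (S j) y - ContinuousLinearMap.id ℝ E4).le_of_opNorm_le (c1 y hy).le X
    have k2 : ‖Y‖ ≤ 2 * ‖X‖ := by nlinarith [norm_sub_norm_le Y X, norm_nonneg X]
    have k3 := (fderiv ℝ (fun x => b j (Ψ j x)) (S j y) - (2 : ℝ) • innerSL ℝ (S j y)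
      ).le_of_opNorm_le (d _ (e y hy)) Y
    have k4 := (abs_real_inner_le_norm (S j y - y) Y).trans
      (mul_le_mul (c0 y hy).le k2 (norm_nonneg _) h0.le)
    have k5 := (abs_real_inner_le_norm y (Y - X)).trans
      (mul_le_mul (hR y hy) k1 (norm_nonneg _) hR0)
    simp only [sub_apply, smul_apply, innerSL_apply_apply,
      smul_eq_mul, Real.norm_eq_abs, abs_le, inner_sub_left, inner_sub_right,
      ContinuousLinearMap.comp_apply, ← hY] at k3 k4 k5 ⊢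
    have k6 : η * ‖Y‖ ≤ η * (2 * ‖X‖) := by gcongr
    have k7 : η * (6 + 2 * R) * ‖X‖ ≤ ε * ‖X‖ := by gcongr
    constructor <;> nlinarith [k3.1, k3.2, k4.1, k4.2, k5.1, k5.2]

/-- **the deck group** -/
theorem deck (hS : SHL M) (hL : LIS M) : DECK M := by
  intro ι 𝒰 g z b κ hi R hR
  set θ : ℝ := 1 / R / 8 with hθ
  have hR0 : 0 < R := by linarith
  have h0 : 0 < θ := by positivity
  have h1 : 1 / R = 8 * θ := by rw [hθ]; ring
  have h2 : 1 / R < R := by rw [div_lt_iff₀ hR0]; nlinarith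
  obtain ⟨Ψ, G0⟩ := hS 𝒰 g z b κ hi (1 / R - θ - θ - θ - θ) (R + θ + θ + θ + θ) (by linarith)
    (by linarith)
  obtain ⟨ρ, hρ, li⟩ := hL 𝒰 g z b κ Ψ _ (shell (1 / R - θ - θ - θ) (R + θ + θ + θ))
    (1 / R - θ - θ - θ - θ) (R + θ + θ + θ + θ) θ hi G0 (by linarith) h0
    (fun y hy => ⟨hy.1.le, hy.2.le⟩) fun y hy => ball_subset_closedBall.trans (shell_th hy)
  have G := G0.mono (TR.isOpen_shell (1 / R - θ - θ - θ) (R + θ + θ + θ))
    (TR.shell_mono (by linarith) (by linarith))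
  have H : GH (𝒰 : Filter ι) g Ψ (shell (1 / R - θ - θ - θ) (R + θ + θ + θ)) ρ :=
    ⟨hρ, TR.isOpen_shell _ _, TR.shell_nonempty (by linarith) (by linarith),
      TR.shell_preconn (by linarith), fun A x hx => TR.shell_iso A hx, G.par, li, G.mc,
      ⟨_, fun y hy => hy.2.le⟩, fun e he => gd_rc hi G he⟩
  obtain ⟨S, s1, s2⟩ := H.deck (K := closedBall 0 (R + θ + θ) \ ball 0 (1 / R - θ - θ))
    (O := shell (1 / R - θ - θ) (R + θ + θ)) (O2 := shell (1 / R - θ) (R + θ))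
    (W := shell (1 / R) R) h0 ((isCompact_closedBall _ _).diff isOpen_ball)
    (fun x hx => by
      have a1 := mem_closedBall_zero_iff.1 hx.1
      have a2 := not_lt.1 (mt mem_ball_zero_iff.2 hx.2)
      exact ⟨by linarith, by linarith⟩)
    (TR.isOpen_shell _ _) (fun x hx => ⟨mem_closedBall_zero_iff.2 hx.2.le,
      fun a => absurd (mem_ball_zero_iff.1 a) (not_lt.2 hx.1.le)⟩) (TR.isOpen_shell _ _)
    (fun y hy => shell_th hy) (fun y hy => shell_th hy) (fun y hy => shell_th hy)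
    fun A x hx => TR.shell_iso A hx
  refine ⟨H.grp, fun j y => Ψ j (S j y), H.finite, fun γ hγ x hx e => ?_,
    gd_comp hi G (TR.isOpen_shell _ _) (fun y hy => hy.2.le) hR0.le s1 (s2.mono fun j a => a.1),
    s2.mono fun j a => a.2⟩
  have hn : ‖(R / ‖x‖) • x‖ = R := by
    rw [norm_smul, Real.norm_of_nonneg (by positivity), div_mul_cancel₀ _ (norm_ne_zero_iff.2 hx)]
  refine H.sep hγ inG_one (w := (R / ‖x‖) • x) ⟨by rw [hn]; linarith, by rw [hn]; linarith⟩ ?_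
  simpa [e] using hρ

end Crest.Agent.N207.G

end
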