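import Crest.Agent.N207.G.Iv

/-!
# Row 207, block G (helper25): the deck group
-/

set_option autoImplicit false
set_option linter.unusedSectionVars false
set_option maxSynthPendingDepth 3

open scoped ContDiff Manifold Topology
open Set Filter Metric
open Crest.GeometryTopology.CoordMetric
open Crest.Agent.R202.Tens Crest.Agent.N207.Jt

noncomputable section

namespace Crest.Agent.N207.Gs

variable {M : Type*} [TopologicalSpace M] [ChartedSpace E4 M] [IsManifold 𝓘(ℝ, E4) ∞ M]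
  [T3Space M] [ConnectedSpace M] [MeasurableSpace M] [BorelSpace M] {ι : Type}

/-- the standing hypotheses -/
structure DH (l : Filter ι) (g : ι → Met 4 M) (z : ι → M) (b : ι → M → ℝ) (κ : ℝ)
    (Ψ : ι → E4 → M) (r r' ρ : ℝ) : Prop where
  inn : In l g z b κ
  gd : Gd l g z b Ψ (Sh r')
  li : ∀ᶠ j in l, LI (Ψ j) (Sh r') ρ
  pos : 0 < ρ
  two : 2 ≤ r
  le : r ≤ r'
  th : ∀ y ∈ Sh r, closedBall y (ρ / 4) ⊆ Sh r'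

/-- `σ` is the limit of deck transformations -/
def Dk (l : Filter ι) (Ψ : ι → E4 → M) (r ρ : ℝ) (σ : E4 ≃ₗᵢ[ℝ] E4) : Prop :=
  ∀ ε > 0, ∀ᶠ j in l, ∀ y ∈ Sh r, Nr (Ψ j) (Ψ j) σ ρ (Sh r) ε y

theorem ev_of_ultra {ι' : Type} {𝒰 : Ultrafilter ι} {m : Filter ι'} [m.NeBot] {e : ι' → ι}
    (he : Tendsto e m 𝒰) {P : ι → Prop} (h : ∀ᶠ p in m, P (e p)) : ∀ᶠ j in (𝒰 : Filter ι), P j := by
  by_contra hc
  obtain ⟨p, h1, h2⟩ := (h.and (he.eventually (Ultrafilter.eventually_not.2 hc))).exists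
  exact h2 h1

namespace DH

variable {l : Filter ι} {g : ι → Met 4 M} {z : ι → M} {b : ι → M → ℝ} {κ : ℝ} {Ψ : ι → E4 → M}
  {r r' ρ : ℝ}

theorem comap (h : DH l g z b κ Ψ r r' ρ) {ι' : Type} {m : Filter ι'} {e : ι' → ι}
    (he : Tendsto e m l) : DH m (fun j => g (e j)) (fun j => z (e j)) (fun j => b (e j)) κ
      (fun j => Ψ (e j)) r r' ρ :=
  ⟨h.inn.comap he, h.gd.comap he, he.eventually h.li, h.pos, h.two, h.le, h.th⟩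

theorem sub (h : DH l g z b κ Ψ r r' ρ) : Sh r ⊆ Sh r' := sh_mono (by linarith [h.two]) h.le

theorem rh (h : DH l g z b κ Ψ r r' ρ) :
    ∀ᶠ j in l, ∀ σ, RH (Ψ j) (Ψ j) (Sh r') (Sh r') σ ρ (Sh r) := by
  filter_upwards [h.gd.par, h.li] with j a c σ
  exact ⟨a, a, c, isOpen_shell _ _, h.sub, fun y hy => h.th _ (sh_lie σ hy)⟩

theorem fh (h : DH l g z b κ Ψ r r' ρ) {σ : E4 ≃ₗᵢ[ℝ] E4} {y₀ : ι → E4}
    (hb : ∀ ε > 0, ∀ᶠ j in l, y₀ j ∈ Sh r ∧ ∃ y' L, Ψ j y' = Ψ j (y₀ j) ∧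
      IsD (Ψ j) (Ψ j) (y₀ j) y' L ∧ ‖y' - σ (y₀ j)‖ ≤ ε ∧ ‖L - (σ : E4 →L[ℝ] E4)‖ ≤ ε) :
    FH l g Ψ Ψ (fun _ => Sh r') (fun _ => Sh r') (fun _ => Sh r) (fun _ => σ) ρ y₀ :=
  ⟨h.rh.mono fun _ hj => hj σ, h.gd.mc, h.gd.mc, h.pos,
    ⟨r, Eventually.of_forall fun _ => sh_sub_ball r⟩, hb⟩

theorem dk (h : DH l g z b κ Ψ r r' ρ) {σ : E4 ≃ₗᵢ[ℝ] E4} {y₀ : ι → E4}
    (hb : ∀ ε > 0, ∀ᶠ j in l, y₀ j ∈ Sh r ∧ ∃ y' L, Ψ j y' = Ψ j (y₀ j) ∧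
      IsD (Ψ j) (Ψ j) (y₀ j) y' L ∧ ‖y' - σ (y₀ j)‖ ≤ ε ∧ ‖L - (σ : E4 →L[ℝ] E4)‖ ≤ ε) :
    Dk l Ψ r ρ σ := fun ε hε => by
  filter_upwards [(h.fh hb).c1 hε, hb 1 one_pos] with j a c y hy using a y (ch_sh h.two c.1 hy)

theorem ue (h : DH l g z b κ Ψ r r' ρ) {σ : E4 ≃ₗᵢ[ℝ] E4} (hσ : Dk l Ψ r ρ σ) :
    UE l (fun j => tr (Ψ j) (Ψ j) σ ρ) (fun _ y => σ y) fun _ => Sh r := by
  obtain ⟨e, he, -⟩ := exists_orth_unit 0 0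
  have h1 := unit_mem_sh h.two he
  refine (h.fh (y₀ := fun _ => e) fun ε hε => ?_).ue
    (Eventually.of_forall fun _ y hy => ch_sh h.two h1 hy)
  filter_upwards [hσ ε hε, h.rh] with j a c
  exact ⟨h1, _, _, (RH.spec (a e h1).1).2, (c σ).isD (a e h1).1, (a e h1).2⟩

theorem one (h : DH l g z b κ Ψ r r' ρ) : Dk l Ψ r ρ 1 := by
  obtain ⟨e, he, -⟩ := exists_orth_unit 0 0
  refine h.dk (y₀ := fun _ => e) fun ε hε => Eventually.of_forall fun j =>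
    ⟨unit_mem_sh h.two he, e, _, rfl, isD_refl _ _, by simpa using hε.le, ?_⟩
  refine ContinuousLinearMap.opNorm_le_bound _ hε.le fun X => ?_
  show ‖X - X‖ ≤ _
  rw [sub_self, norm_zero]; positivity

theorem mul (h : DH l g z b κ Ψ r r' ρ) {σ τ : E4 ≃ₗᵢ[ℝ] E4} (hσ : Dk l Ψ r ρ σ)
    (hτ : Dk l Ψ r ρ τ) : Dk l Ψ r ρ (σ * τ) := by
  obtain ⟨e, he, -⟩ := exists_orth_unit 0 0
  have h1 := unit_mem_sh h.two he
  refine h.dk (y₀ := fun _ => e) fun ε hε => ?_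
  have hη : 0 < min (1 / 4) (ε / 3) := lt_min (by norm_num) (by positivity)
  have hη1 := min_le_left (1 / 4 : ℝ) (ε / 3)
  have hη2 := min_le_right (1 / 4 : ℝ) (ε / 3)
  filter_upwards [hσ _ hη, hτ _ hη, h.rh] with j a c d
  obtain ⟨c1, c2, c3⟩ := c e h1
  set w := tr (Ψ j) (Ψ j) τ ρ e
  have hw : w ∈ Sh r := by
    have k := abs_le.1 ((abs_norm_sub_norm_le _ _).trans c2)
    have : 1 / r ≤ 1 / 2 := one_div_le_one_div_of_le (by norm_num) h.two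
    rw [τ.norm_map, he] at k
    exact ⟨by linarith [k.1], by linarith [k.2, h.two]⟩
  obtain ⟨a1, a2, a3⟩ := a w hw
  refine ⟨h1, _, _, (RH.spec a1).2.trans (RH.spec c1).2, ((d τ).isD c1).comp ((d σ).isD a1), ?_, ?_⟩
  · have k := norm_sub_le_norm_sub_add_norm_sub (tr (Ψ j) (Ψ j) σ ρ w) (σ w) ((σ * τ) e)
    have k2 : ‖σ w - (σ * τ) e‖ = ‖w - τ e‖ := by
      rw [← σ.norm_map (w - τ e), map_sub]; rfl
    linarith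
  · refine ContinuousLinearMap.opNorm_le_bound _ hε.le fun X => ?_
    set P := fderiv ℝ (tr (Ψ j) (Ψ j) σ ρ) w
    set Q := fderiv ℝ (tr (Ψ j) (Ψ j) τ ρ) e
    have k1 : ‖P (Q X) - σ (Q X)‖ ≤ min (1 / 4) (ε / 3) * ‖Q X‖ :=
      ((P - (σ : E4 →L[ℝ] E4)).le_opNorm _).trans (by gcongr)
    have k2 : ‖Q X - τ X‖ ≤ min (1 / 4) (ε / 3) * ‖X‖ :=
      ((Q - (τ : E4 →L[ℝ] E4)).le_opNorm _).trans (by gcongr)
    have k3 : ‖σ (Q X) - σ (τ X)‖ = ‖Q X - τ X‖ := by rw [← map_sub, σ.norm_map]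
    have k4 := norm_sub_le_norm_sub_add_norm_sub (P (Q X)) (σ (Q X)) (σ (τ X))
    have k5 := norm_le_norm_add_norm_sub' (Q X) (τ X)
    rw [τ.norm_map] at k5
    have k6 : ‖Q X‖ ≤ 2 * ‖X‖ := by nlinarith [norm_nonneg X]
    show ‖P (Q X) - σ (τ X)‖ ≤ ε * ‖X‖
    nlinarith [norm_nonneg X, mul_le_mul_of_nonneg_left k6 hη.le]

theorem sep [l.NeBot] (h : DH l g z b κ Ψ r r' ρ) {σ τ : E4 ≃ₗᵢ[ℝ] E4} (hσ : Dk l Ψ r ρ σ)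
    (hτ : Dk l Ψ r ρ τ) {y : E4} (hy : y ∈ Sh r) (hd : ‖σ y - τ y‖ < ρ / 4) : σ = τ := by
  refine I.cl_inj (eq_of_forall_dist_le fun ε hε => ?_)
  have hη : 0 < min (ε / 2) ((ρ / 4 - ‖σ y - τ y‖) / 2) := lt_min (by positivity) (by linarith)
  have hη1 := min_le_left (ε / 2) ((ρ / 4 - ‖σ y - τ y‖) / 2)
  have hη2 := min_le_right (ε / 2) ((ρ / 4 - ‖σ y - τ y‖) / 2)
  obtain ⟨j, ⟨a, c⟩, d⟩ := (((hσ _ hη).and (hτ _ hη)).and h.rh).exists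
  obtain ⟨a1, a2, a3⟩ := a y hy
  obtain ⟨c1, -, c3⟩ := c y hy
  have k : ‖tr (Ψ j) (Ψ j) σ ρ y - τ y‖ < ρ / 4 := by
    linarith [norm_sub_le_norm_sub_add_norm_sub (tr (Ψ j) (Ψ j) σ ρ y) (σ y) (τ y)]
  have k1 := (d τ).isD c1
  rw [(d τ).eq hy k (RH.spec a1).2] at k1
  rw [IsD.unique (d τ).p' ((d τ).mem hy k) k1 ((d σ).isD a1)] at c3
  have k2 := norm_sub_le_norm_sub_add_norm_sub (σ : E4 →L[ℝ] E4)
    (fderiv ℝ (tr (Ψ j) (Ψ j) σ ρ) y) (τ : E4 →L[ℝ] E4)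
  rw [norm_sub_rev] at a3
  rw [dist_eq_norm]
  exact k2.trans (by linarith)

theorem free [l.NeBot] (h : DH l g z b κ Ψ r r' ρ) {σ : E4 ≃ₗᵢ[ℝ] E4} (hσ : Dk l Ψ r ρ σ) {x : E4}
    (hx : x ≠ 0) (e : σ x = x) : σ = 1 := by
  refine h.sep hσ h.one (unit_mem_sh h.two (norm_smul_inv_norm (𝕜 := ℝ) hx)) ?_
  rw [map_smul, map_smul, e]
  simpa using h.pos

theorem finite [l.NeBot] (h : DH l g z b κ Ψ r r' ρ) : {σ | Dk l Ψ r ρ σ}.Finite := by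
  obtain ⟨e, he, -⟩ := exists_orth_unit 0 0
  obtain ⟨t, -, ht, hc⟩ := finite_cover_balls_of_compact (isCompact_closedBall (0 : E4) 1)
    (e := ρ / 8) (by linarith [h.pos])
  have : ∀ σ : E4 ≃ₗᵢ[ℝ] E4, ∃ c ∈ t, σ e ∈ ball c (ρ / 8) := fun σ => by
    simpa using hc (mem_closedBall_zero_iff.2 (show ‖σ e‖ ≤ 1 by rw [σ.norm_map, he]))
  choose c hc1 hc2 using this
  refine Finite.of_finite_image (f := c) (ht.subset ?_) fun σ hσ τ hτ e' => ?_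
  · rintro _ ⟨σ, -, rfl⟩; exact hc1 σ
  · refine h.sep hσ hτ (unit_mem_sh h.two he) ?_
    have k1 := mem_ball_iff_norm.1 (hc2 σ)
    have k2 := mem_ball_iff_norm'.1 (hc2 τ)
    rw [← e'] at k2
    linarith [norm_sub_le_norm_sub_add_norm_sub (σ e) (c σ) (τ e)]

variable {𝒰 : Ultrafilter ι}

theorem inv (h : DH 𝒰 g z b κ Ψ r r' ρ) {σ : E4 ≃ₗᵢ[ℝ] E4} (hσ : Dk 𝒰 Ψ r ρ σ) :
    Dk 𝒰 Ψ r ρ σ⁻¹ := by
  obtain ⟨e, he, -⟩ := exists_orth_unit 0 0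
  have h1 := unit_mem_sh h.two he
  have hw : ∀ᶠ j in (𝒰 : Filter ι), tr (Ψ j) (Ψ j) σ ρ e ∈ Sh r ∧
      Ψ j e = Ψ j (tr (Ψ j) (Ψ j) σ ρ e) := by
    filter_upwards [hσ (1 / 4) (by norm_num)] with j a
    obtain ⟨c1, c2, -⟩ := a e h1
    have k := abs_le.1 ((abs_norm_sub_norm_le _ _).trans c2)
    have : 1 / r ≤ 1 / 2 := one_div_le_one_div_of_le (by norm_num) h.two
    rw [σ.norm_map, he] at k
    exact ⟨⟨by linarith [k.1], by linarith [k.2, h.two]⟩, (RH.spec c1).2.symm⟩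
  obtain ⟨A, hA⟩ := h.gd.base h.inn h.gd (y := fun j => tr (Ψ j) (Ψ j) σ ρ e) (y' := fun _ => e)
    (R := 1) (hw.mono fun j a => ⟨h.sub a.1, h.sub h1, he.le, a.2⟩)
  have hA' : Dk 𝒰 Ψ r ρ A := h.dk (y₀ := fun j => tr (Ψ j) (Ψ j) σ ρ e) fun ε hε => by
    filter_upwards [hA ε hε, hw] with j ⟨L, a⟩ c using ⟨c.1, e, L, c.2, a⟩
  have hρ := h.pos
  obtain ⟨j, ⟨L, -, a, -⟩, c⟩ := ((hA (ρ / 16) (by positivity)).and
    (hσ (ρ / 16) (by positivity))).exists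
  have k : A * σ = 1 := by
    refine h.sep (h.mul hA' hσ) h.one h1 ?_
    have k1 : ‖(A * σ) e - A (tr (Ψ j) (Ψ j) σ ρ e)‖ = ‖tr (Ψ j) (Ψ j) σ ρ e - σ e‖ := by
      rw [norm_sub_rev, ← A.norm_map (_ - σ e), map_sub]; rfl
    have k2 := norm_sub_le_norm_sub_add_norm_sub ((A * σ) e) (A (tr (Ψ j) (Ψ j) σ ρ e)) e
    rw [norm_sub_rev] at a
    show ‖(A * σ) e - e‖ < _
    linarith [(c e h1).2.1]
  rwa [← eq_inv_of_mul_eq_one_left k]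

/-- two points of the same fibre differ by a deck transformation -/
theorem key (h : DH 𝒰 g z b κ Ψ r r' ρ) : ∀ᶠ j in (𝒰 : Filter ι), ∀ x ∈ Sh r, ∀ y ∈ Sh r,
    Ψ j y = Ψ j x → ∃ σ, Dk 𝒰 Ψ r ρ σ ∧ tr (Ψ j) (Ψ j) σ ρ x = y := by
  set S : ι → Set (E4 × E4) := fun j => {p | p.1 ∈ Sh r ∧ p.2 ∈ Sh r ∧ Ψ j p.2 = Ψ j p.1}
  have : ∀ᶠ q in un (𝒰 : Filter ι) S, ∃ σ, Dk 𝒰 Ψ r ρ σ ∧ tr (Ψ q.1) (Ψ q.1) σ ρ q.2.1 = q.2.2 := by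
    refine Filter.mem_iff_ultrafilter.2 fun 𝒱 h𝒱 => ?_
    have he : Tendsto Prod.fst (𝒱 : Filter (ι × E4 × E4)) 𝒰 := (un_fst _ _).mono_left h𝒱
    have hm : ∀ᶠ q in (𝒱 : Filter (ι × E4 × E4)), q.2 ∈ S q.1 := h𝒱 (un_mem _ _)
    have h' := h.comap he
    obtain ⟨A, hA⟩ := h'.gd.base h'.inn h'.gd (y := fun q => q.2.1) (y' := fun q => q.2.2) (R := r)
      (hm.mono fun q a => ⟨h.sub a.1, h.sub a.2.1, a.2.1.2.le, a.2.2⟩)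
    have hA' : Dk 𝒰 Ψ r ρ A := fun ε hε => ev_of_ultra he
      (h'.dk (y₀ := fun q => q.2.1) (fun ε hε => by
        filter_upwards [hA ε hε, hm] with q ⟨L, a⟩ c using ⟨c.1, q.2.2, L, c.2.2, a⟩) ε hε)
    have hρ := h.pos
    filter_upwards [hA (ρ / 8) (by positivity), hm, h'.rh] with q ⟨L, _, a, _⟩ c d
    exact ⟨A, hA', (d A).eq c.1 (by linarith) c.2.2⟩
  filter_upwards [ev_un.1 this] with j a x hx y hy e using a (x, y) ⟨hx, hy, e⟩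

/-- the deck group -/
def grp (h : DH 𝒰 g z b κ Ψ r r' ρ) : Subgroup (E4 ≃ₗᵢ[ℝ] E4) where
  carrier := {σ | Dk (𝒰 : Filter ι) Ψ r ρ σ}
  one_mem' := h.one
  mul_mem' := fun a c => h.mul a c
  inv_mem' := fun a => h.inv a

/-- the group law -/
theorem law (h : DH l g z b κ Ψ r r' ρ) {σ τ : E4 ≃ₗᵢ[ℝ] E4} (hσ : Dk l Ψ r ρ σ)
    (hτ : Dk l Ψ r ρ τ) {r0 : ℝ} (h0 : 0 < r0) (h1 : r0 < r) : ∀ᶠ j in l, ∀ y ∈ Sh r0,
      tr (Ψ j) (Ψ j) σ ρ (tr (Ψ j) (Ψ j) τ ρ y) = tr (Ψ j) (Ψ j) (σ * τ) ρ y := by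
  obtain ⟨t, ht, hth⟩ := sh_thick h0 h1
  have hρ := h.pos
  have hη : 0 < min t (ρ / 16) := lt_min ht (by positivity)
  have hη1 := min_le_left t (ρ / 16)
  have hη2 := min_le_right t (ρ / 16)
  filter_upwards [hσ _ hη, hτ _ hη, h.rh] with j a c d y hy
  have hy' := sh_mono h0 h1.le hy
  obtain ⟨c1, c2, -⟩ := c y hy'
  set w := tr (Ψ j) (Ψ j) τ ρ y
  have hw : w ∈ Sh r := hth _ (sh_lie τ hy) (by rw [mem_closedBall, dist_eq_norm]; linarith)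
  obtain ⟨a1, a2, -⟩ := a w hw
  refine ((d (σ * τ)).eq hy' ?_ ((RH.spec a1).2.trans (RH.spec c1).2)).symm
  have k := norm_sub_le_norm_sub_add_norm_sub (tr (Ψ j) (Ψ j) σ ρ w) (σ w) ((σ * τ) y)
  have k2 : ‖σ w - (σ * τ) y‖ = ‖w - τ y‖ := by
    rw [← σ.norm_map (w - τ y), map_sub]; rfl
  linarith

end DH

end Crest.Agent.N207.Gs

end
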