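import Crest.Agent.N207.G.Dk

/-!
# Row 207, block G (helper25): linearisation of the deck group
-/

set_option autoImplicit false
set_option linter.unusedSectionVars false
set_option maxSynthPendingDepth 3

open scoped ContDiff Manifold Topology
open Set Filter Metric
open Crest.GeometryTopology.CoordMetric
open Crest.Agent.R202.Tens Crest.Agent.N207.Jt

noncomputable section

namespace Crest.Agent.N207.Gs

/-- the average that linearises the maps `T σ` -/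
def av (Γ : Subgroup (E4 ≃ₗᵢ[ℝ] E4)) [Fintype Γ] (T : (E4 ≃ₗᵢ[ℝ] E4) → E4 → E4) (y : E4) : E4 :=
  (Fintype.card Γ : ℝ)⁻¹ • ∑ σ : Γ, (σ.1⁻¹ : E4 ≃ₗᵢ[ℝ] E4) (T σ.1 y)

theorem av_law {Γ : Subgroup (E4 ≃ₗᵢ[ℝ] E4)} [Fintype Γ] {T : (E4 ≃ₗᵢ[ℝ] E4) → E4 → E4} {y : E4}
    (τ : Γ) (h : ∀ σ : Γ, T σ.1 (T τ.1 y) = T (σ.1 * τ.1) y) :
    av Γ T (T τ.1 y) = τ.1 (av Γ T y) := by
  unfold av
  rw [map_smul, map_sum]
  congr 1
  refine Fintype.sum_equiv (Equiv.mulRight τ) _ _ fun σ => ?_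
  rw [h σ]
  show _ = (τ.1 * (σ.1 * τ.1)⁻¹) (T (σ.1 * τ.1) y)
  rw [mul_inv_rev, mul_inv_cancel_left]

theorem av_ue {ι : Type} {l : Filter ι} {Γ : Subgroup (E4 ≃ₗᵢ[ℝ] E4)} [Fintype Γ]
    {T : ι → (E4 ≃ₗᵢ[ℝ] E4) → E4 → E4} {S : Set E4}
    (h : ∀ σ : Γ, UE l (fun j => T j σ.1) (fun _ y => σ.1 y) fun _ => S) :
    UE l (fun j => av Γ (T j)) (fun _ y => (1 : E4 ≃ₗᵢ[ℝ] E4) y) fun _ => S := by
  have k := (GE.const' (Fintype.card Γ : ℝ)⁻¹).smul (GE.sum Finset.univ fun (σ : Γ) _ =>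
    GE.clm ((σ.1⁻¹ : E4 ≃ₗᵢ[ℝ] E4) : E4 →L[ℝ] E4) (h σ))
  refine k.congr_right (Eventually.of_forall fun p => ⟨rfl, Eventually.of_forall fun y => ?_⟩)
  have hc : (Fintype.card Γ : ℝ) ≠ 0 := by exact_mod_cast Fintype.card_ne_zero
  have e : ∀ σ : Γ, ((σ.1⁻¹ : E4 ≃ₗᵢ[ℝ] E4) : E4 →L[ℝ] E4) (σ.1 y) = y := fun σ =>
    σ.1.symm_apply_apply y
  simp only [e, Finset.sum_const, Finset.card_univ, ← Nat.cast_smul_eq_nsmul ℝ, smul_smul,
    inv_mul_cancel₀ hc, one_smul]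
  rfl

variable {M : Type*} [TopologicalSpace M] [ChartedSpace E4 M] [IsManifold 𝓘(ℝ, E4) ∞ M]
  [T3Space M] [ConnectedSpace M] [MeasurableSpace M] [BorelSpace M]

/-- **the deck group** -/
theorem deck_of (hS : SHL M) (hL : LIS M) : DECK M := by
  intro ι 𝒰 g z b κ hI R hR
  obtain ⟨Ψ, hΨ⟩ := hS 𝒰 g z b κ hI (1 / (5 * R)) (5 * R) (by positivity)
    (by rw [div_lt_iff₀ (by positivity)]; nlinarith)
  obtain ⟨t, ht, hth⟩ := sh_thick (by linarith : 0 < 4 * R) (by linarith : 4 * R < 5 * R)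
  obtain ⟨ρ', hρ', hli⟩ := hL 𝒰 g z b κ Ψ (Sh (5 * R)) (Sh (4 * R)) (1 / (5 * R)) (5 * R) t hI hΨ
    (by positivity) ht (fun y hy => ⟨hy.1.le, hy.2.le⟩)
    fun y hy => ball_subset_closedBall.trans (hth y hy)
  obtain ⟨t', ht', hth'⟩ := sh_thick (by linarith : 0 < 3 * R) (by linarith : 3 * R < 4 * R)
  have H : DH 𝒰 g z b κ Ψ (3 * R) (4 * R) (min ρ' t') :=
    ⟨hI, hΨ.mono (isOpen_shell _ _) (sh_mono (by linarith) (by linarith)),
      hli.mono fun j hj x hx y hy d => hj x hx y hy (d.trans_le (min_le_left _ _)), lt_min hρ' ht',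
      by linarith, by linarith, fun y hy => (closedBall_subset_closedBall (by
        linarith [min_le_right ρ' t', lt_min hρ' ht'])).trans (hth' y hy)⟩
  set ρ := min ρ' t'
  have hfin : Finite H.grp := H.finite.to_subtype
  have := Fintype.ofFinite H.grp
  set T : ι → (E4 ≃ₗᵢ[ℝ] E4) → E4 → E4 := fun j σ => tr (Ψ j) (Ψ j) σ ρ with hT
  obtain ⟨k, r, hr, hk, hk'⟩ := exists_inv (h := fun j => av H.grp (T j)) (r1 := R) (r2 := 2 * R)
    (r3 := 3 * R) hR (by linarith) (by linarith) (av_ue fun σ => H.ue σ.2)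
  obtain ⟨s, hs, hsh⟩ := sh_thick (by linarith : 0 < R) (by linarith : R < 2 * R)
  have s23 : Sh (2 * R) ⊆ Sh (3 * R) := sh_mono (by linarith) (by linarith)
  refine ⟨H.grp, fun j y => Ψ j (k j y), hfin, fun γ hγ x hx e => H.free hγ hx e,
    H.gd.comp hI (A := 1) (isOpen_shell _ _) (fun y hy => hy.2.le) hs
      (fun y hy => (hsh y hy).trans (s23.trans H.sub)) hk, ?_⟩
  have hlaw : ∀ᶠ j in (𝒰 : Filter ι), ∀ σ τ : H.grp, ∀ y ∈ Sh (2 * R),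
      T j σ.1 (T j τ.1 y) = T j (σ.1 * τ.1) y :=
    eventually_all.2 fun σ => eventually_all.2 fun τ => H.law σ.2 τ.2 (by linarith) (by linarith)
  have hη : 0 < min s (r / 4) := lt_min hs (by positivity)
  have hη1 := min_le_left s (r / 4)
  have hη2 := min_le_right s (r / 4)
  have hnr : ∀ᶠ j in (𝒰 : Filter ι), ∀ σ : H.grp, ∀ y ∈ Sh (3 * R),
      Nr (Ψ j) (Ψ j) σ.1 ρ (Sh (3 * R)) (min s (r / 4)) y := eventually_all.2 fun σ => σ.2 _ hη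
  filter_upwards [hk', hlaw, hnr, H.key, ue_c1 (A := fun _ => 1) hk hη] with j a c d e f x hx y hy
  have m2 : ∀ w ∈ Sh R, k j w ∈ Sh (2 * R) := fun w hw =>
    hsh w hw (by rw [mem_closedBall, dist_eq_norm]; exact (f w hw).2.1.trans hη1)
  have lin : ∀ τ : H.grp, av H.grp (T j) (T j τ.1 (k j x)) = τ.1 x := fun τ => by
    rw [av_law τ fun σ => c σ τ _ (m2 x hx), (a x hx).1]
  constructor
  · intro h
    obtain ⟨σ, hσ, h1⟩ := e _ (s23 (m2 x hx)) _ (s23 (m2 y hy)) h.symm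
    refine ⟨σ, hσ, ?_⟩
    rw [← lin ⟨σ, hσ⟩]
    exact (congrArg (av H.grp (T j)) h1).trans (a y hy).1
  · rintro ⟨γ, hγ, rfl⟩
    obtain ⟨d1, d2, -⟩ := d ⟨γ, hγ⟩ _ (s23 (m2 x hx))
    have h1 : ‖T j γ (k j x) - γ x‖ < r := by
      have k1 := norm_sub_le_norm_sub_add_norm_sub (T j γ (k j x)) (γ (k j x)) (γ x)
      have k2 : ‖γ (k j x) - γ x‖ = ‖k j x - x‖ := by rw [← map_sub, γ.norm_map]
      have k3 : ‖k j x - x‖ ≤ min s (r / 4) := (f x hx).2.1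
      have k4 : ‖T j γ (k j x) - γ (k j x)‖ ≤ min s (r / 4) := d2
      linarith
    show Ψ j (k j x) = Ψ j (k j (γ x))
    rw [(a _ hy).2 _ h1 (lin ⟨γ, hγ⟩)]
    exact (RH.spec d1).2.symm

end Crest.Agent.N207.Gs

end
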