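import Crest.Agent.N207.C.Cutf
import Crest.Agent.N207.C.VolUp
import Crest.Agent.N207.G.Hes

/-!
# Row 207, block G (a): lower bounds for heat and conjugate heat solutions
-/

set_option autoImplicit false
set_option linter.dupNamespace false
set_option linter.unusedSectionVars false
open Set MeasureTheory Filter Topology
open scoped ContDiff

noncomputable section

namespace Crest.Agent.N207

namespace HC

variable {M : Type*} [TopologicalSpace M] [CompactSpace M] [MeasurableSpace M]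
  [OpensMeasurableSpace M] {H : HC M}

theorem Cutf.mono (A : H.Alg) {a b r L a' b' : ℝ} {ψ ψ' : ℝ → M → ℝ} (c : H.Cutf a b r L ψ ψ')
    (ha : a ≤ a') (hb : b' ≤ b) : H.Cutf a' b' r L ψ ψ' :=
  have s := Icc_subset_Icc ha hb
  ⟨A.sm_mono c.sm ha hb, c.dt.mono ha hb, fun t ht => c.nn t (s ht), fun t ht => c.le t (s ht),
    fun t ht => c.bt t (s ht), fun t ht => c.bl t (s ht), fun t ht => c.bg t (s ht),
    fun t ht => c.vol t (s ht)⟩

/-- the mass of a heat solution stays near a cutoff -/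
theorem mass_stays (A : H.Alg) (I : H.Intg) {K m a b r L : ℝ} {ψ ψ' u : ℝ → M → ℝ} (K0 : 0 ≤ K)
    (hK : ∀ t ∈ Ioo 0 H.T, ∀ x, |H.R t x| ≤ K) (hs : H.St a b) (hL : 0 ≤ L)
    (c : H.Cutf a b r L ψ ψ') (hu : H.Heat a b u) (h0 : ∀ x, 0 ≤ u a x)
    (hm : ∀ t ∈ Icc a b, ∫ x, u t x ∂H.vol t ≤ m) :
    ∫ x, ψ a x * u a x ∂H.vol a - (2 * L / r ^ 2 + K) * m * (b - a) ≤
      ∫ x, ψ b x * u b x ∂H.vol b := by
  have hp := A.heat_ge hs hu h0
  have hd := I.int_dt hs (A.sm_mul c.sm hu.1) (c.dt.mul hu.2)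
  have s' := A.sm_of_dt hs.2.1 c.sm c.dt
  set q := (2 * L / r ^ 2 + K) with hq
  have q0 : 0 ≤ q := by positivity
  have hl : ∀ t ∈ Icc a b, HasDerivWithinAt (fun t => -(q * m) * t) (-(q * m)) (Icc a b) t :=
    fun t _ => by simpa using ((hasDerivAt_id t).const_mul (-(q * m))).hasDerivWithinAt
  have := sub_le_of_deriv hl hd (fun t ht => by
    have ht' := Ioo_subset_Icc_self ht
    have hT := hs.mem ht'
    have su := A.sm_s0 hu.1 t ht'
    have sψ := A.sm_s0 c.sm t ht'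
    have i1 := A.integrable I hT (A.s0_mul sψ (A.s0_lap hT su))
    have i2 := A.integrable I hT (A.s0_mul (A.s0_lap hT sψ) su)
    have i3 := A.integrable I hT (A.s0_sub (A.s0_mul (A.sm_s0 s' t ht') su)
      (A.s0_mul (A.s0_R hT) (A.s0_mul sψ su)))
    have e : ∀ x, ψ' t x * u t x + ψ t x * H.lap t (u t) x - H.R t x * (ψ t x * u t x) =
        (ψ' t x * u t x - H.R t x * (ψ t x * u t x)) + ψ t x * H.lap t (u t) x := fun x => by ring
    simp only [e]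
    rw [integral_add i3 i1, A.ibp2 I hT sψ su, ← integral_add i3 i2]
    have k1 : -(q * m) ≤ ∫ x, -q * u t x ∂H.vol t := by
      rw [integral_const_mul]; nlinarith [hm t ht']
    refine k1.trans (integral_mono (A.integrable I hT (A.s0_cmul _ su)) (i3.add i2) fun x => ?_)
    have r1 : √(ψ t x) ≤ 1 := Real.sqrt_le_one.2 (c.le t ht' x)
    have r2 : L / r ^ 2 * √(ψ t x) ≤ L / r ^ 2 := mul_le_of_le_one_right (by positivity) r1
    have b1 := (abs_le.1 ((c.bt t ht' x).trans r2)).1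
    have b2 := (abs_le.1 ((c.bl t ht' x).trans r2)).1
    have b3 : H.R t x * ψ t x ≤ K := by
      nlinarith [abs_le.1 (hK t hT x), c.nn t ht' x, c.le t ht' x]
    have b4 : -q ≤ ψ' t x - H.R t x * ψ t x + H.lap t (ψ t) x := by
      have : 2 * L / r ^ 2 = L / r ^ 2 + L / r ^ 2 := by ring
      linarith
    nlinarith [mul_le_mul_of_nonneg_right b4 (hp t ht' x)])
    ⟨le_rfl, hs.2.1.le⟩ ⟨hs.2.1.le, le_rfl⟩ hs.2.1.le
  linarith

theorem heat_big_pt (h : H.Ok) (hU : H.DistUp) (hV : H.VolUp) {t0 : ℝ} (h0 : 0 < t0) {A : ℝ}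
    (hA : 1 ≤ A) : ∃ Λ c1 s0 : ℝ, 0 < Λ ∧ 0 < c1 ∧ 0 < s0 ∧ ∀ {a b s : ℝ} (y : M), t0 ≤ a →
      H.St a b → 0 < s → s ≤ s0 → b - a ≤ A * s ^ 2 → ∃ ψ, H.S0 ψ ∧ (∀ x, ψ x ≤ 1) ∧ ψ y = 1 ∧
        ∀ u, H.Heat a b u → (∀ x, 0 ≤ u a x) → ∫ x, u a x ∂H.vol a ≤ 1 →
          1 / 2 ≤ ∫ x, ψ x * u a x ∂H.vol a → ∃ x0 ∈ H.B b y (Λ * s), c1 / s ^ 4 ≤ u b x0 := by
  have Al := h.alg
  obtain ⟨θ, lam, L, r0, hθ, hlam, hL, -, hr0, -, -, h1⟩ := exists_cutf h hU hV h0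
  obtain ⟨K0, hK0⟩ := h.evo.R_bd
  have hK : ∀ t ∈ Ioo 0 H.T, ∀ x, |H.R t x| ≤ |K0| + 1 := fun t ht x =>
    (hK0 t ht x).trans (by linarith [le_abs_self K0])
  have K0' : 0 < |K0| + 1 := by positivity
  generalize |K0| + 1 = K at hK K0'
  obtain ⟨m, hm⟩ : ∃ m, m = Real.exp (K * H.T) := ⟨_, rfl⟩
  have m0 : 0 < m := hm ▸ Real.exp_pos _
  obtain ⟨Λ, hΛ⟩ : ∃ Λ, Λ = A / θ + 16 * L * A * m + 1 := ⟨_, rfl⟩
  have p1 : 0 < A / θ := by positivity
  have p2 : 0 < 16 * L * A * m := by positivity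
  have Λ1 : 1 ≤ Λ := by linarith
  obtain ⟨c1, hc1⟩ : ∃ c1, c1 = 1 / (8 * L * Λ ^ 4) := ⟨_, rfl⟩
  have c0 : 0 < c1 := by rw [hc1]; positivity
  refine ⟨Λ, c1, min (r0 / Λ) (min 1 (1 / (8 * K * A * m))), by positivity, c0, by positivity,
    fun {a b s} y ha hs s0 s1 l2 => ?_⟩
  have s2 : Λ * s ≤ r0 := by
    have := s1.trans (min_le_left _ _); rwa [le_div_iff₀ (by positivity), mul_comm] at this
  have s3 : s ≤ 1 := s1.trans ((min_le_right _ _).trans (min_le_left _ _))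
  have s4 : 8 * K * A * m * s ≤ 1 := by
    have := s1.trans ((min_le_right _ _).trans (min_le_right _ _))
    rwa [le_div_iff₀ (by positivity), mul_comm] at this
  have hb : b ∈ Icc a b := ⟨hs.2.1.le, le_rfl⟩
  have ha' : a ∈ Icc a b := ⟨le_rfl, hs.2.1.le⟩
  obtain ⟨ψ, ψ', hs', c, c2, c3⟩ := h1 b ⟨ha.trans hs.2.1.le, hs.2.2⟩ y (Λ * s) (by positivity) s2 b
    le_rfl (le_add_of_nonneg_right (by positivity)) hs.2.2
  have w1 : b - 2 * θ * (Λ * s) ^ 2 ≤ a := by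
    have e1 : A ≤ θ * Λ := by
      have : θ * (A / θ) = A := by field_simp
      nlinarith
    have e2 : θ * Λ ≤ 2 * θ * Λ ^ 2 := by nlinarith [mul_pos hθ (by linarith : 0 < Λ)]
    nlinarith [mul_le_mul_of_nonneg_right (e1.trans e2) (sq_nonneg s)]
  have cm := c.mono Al w1 le_rfl
  refine ⟨ψ a, Al.sm_s0 cm.sm a ha', cm.le a ha', c2 a ⟨w1, hs.2.1.le⟩ y
    (h.dist.mem_B (hs.mem ha') y (by positivity)), fun u hu u0 u1 u2 => ?_⟩
  have up := Al.heat_ge hs hu u0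
  have k1 := mass_stays Al h.int K0'.le hK hs (by linarith) cm hu u0 (m := m) fun t ht =>
    (Al.heat_mass h.int hK hs hu u0 t ht).trans (by
      rw [hm]
      refine (mul_le_of_le_one_right (Real.exp_pos _).le u1).trans (Real.exp_le_exp.2 ?_)
      have : t - a ≤ H.T := by linarith [hs.1, ht.2, hs.2.2]
      gcongr)
  have k2 : (2 * L / (Λ * s) ^ 2 + K) * m * (b - a) ≤ 1 / 4 := by
    refine (mul_le_mul_of_nonneg_left l2 (by positivity)).trans ?_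
    have e : (2 * L / (Λ * s) ^ 2 + K) * m * (A * s ^ 2) =
        2 * L * A * m / Λ ^ 2 + K * A * m * s * s := by field_simp
    have e1 : 2 * L * A * m / Λ ^ 2 ≤ 1 / 8 := by
      rw [div_le_iff₀ (by positivity)]; nlinarith
    have e2 : K * A * m * s * s ≤ K * A * m * s := mul_le_of_le_one_right (by positivity) s3
    linarith
  have sb := Al.sm_s0 hu.1 b hb
  have sψ := Al.sm_s0 cm.sm b hb
  obtain ⟨x0, hx0, k3⟩ : ∃ x0, ψ b x0 ≠ 0 ∧ c1 / s ^ 4 ≤ u b x0 := by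
    by_contra hc
    push Not at hc
    have k4 := int_cut_le Al h.int (hs.mem hb) (Al.s0_mul sψ sb) (B := {x | ψ b x ≠ 0})
      (isOpen_ne_fun (Al.s0_cont sψ) continuous_const).measurableSet (c := c1 / s ^ 4)
      (fun z => by
        by_cases hz : ψ b z = 0
        · rw [hz, zero_mul]; positivity
        · exact (mul_le_of_le_one_left (up b hb z) (cm.le b hb z)).trans (hc z hz).le)
      (fun z hz => by rw [not_not.1 hz, zero_mul])
    have k5 := mul_le_mul_of_nonneg_left (cm.vol b hb) (by positivity : 0 ≤ c1 / s ^ 4)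
    have e : c1 / s ^ 4 * (L * (Λ * s) ^ 4) = 1 / 8 := by rw [hc1]; field_simp
    linarith
  exact ⟨x0, c3 b ⟨w1.trans hs.2.1.le, le_rfl⟩ x0 hx0, k3⟩

/-- uniform diameter bound -/
theorem diam_bd (h : H.Ok) (hU : H.DistUp) {t0 : ℝ} (h0 : 0 < t0) :
    ∃ D, 0 < D ∧ ∀ t ∈ Ico t0 H.T, ∀ x y, H.d t x y ≤ D := by
  by_cases hT : t0 < H.T
  swap
  · exact ⟨1, one_pos, fun t ht => absurd (ht.1.trans_lt ht.2) hT⟩
  rcases isEmpty_or_nonempty M with hM | ⟨⟨p⟩⟩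
  · exact ⟨1, one_pos, fun _ _ x => isEmptyElim x⟩
  obtain ⟨A, hA, h1⟩ := hU t0 h0
  obtain ⟨B, hB⟩ := isCompact_univ.exists_bound_of_continuousOn
    (h.dist.cont t0 ⟨h0, hT⟩ p).continuousOn
  refine ⟨A * (2 * |B| + √H.T + 1), by positivity, fun t ht x y =>
    (h1 t0 t le_rfl ht.1 ht.2 x y).trans (mul_le_mul_of_nonneg_left ?_ hA.le)⟩
  have a1 := h.dist.tri t0 ⟨h0, hT⟩ x p y
  rw [h.dist.symm t0 ⟨h0, hT⟩ x p] at a1
  have a2 : √(t - t0) ≤ √H.T := Real.sqrt_le_sqrt (by linarith [ht.2])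
  have a3 := (le_abs_self _).trans ((hB x (mem_univ _)).trans (le_abs_self B))
  have a4 := (le_abs_self _).trans ((hB y (mem_univ _)).trans (le_abs_self B))
  linarith

theorem heat_big_pt' (h : H.Ok) (hU : H.DistUp) (hV : H.VolUp) {t0 : ℝ} (h0 : 0 < t0) {A : ℝ}
    (hA : 1 ≤ A) (S : ℝ) : ∃ Λ c1 : ℝ, 0 < Λ ∧ 0 < c1 ∧ ∀ {a b s : ℝ} (y : M), t0 ≤ a →
      H.St a b → 0 < s → s ≤ S → b - a ≤ A * s ^ 2 → ∃ ψ, H.S0 ψ ∧ (∀ x, ψ x ≤ 1) ∧ ψ y = 1 ∧
        ∀ u, H.Heat a b u → (∀ x, 0 ≤ u a x) → ∫ x, u a x ∂H.vol a ≤ 1 →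
          1 / 2 ≤ ∫ x, ψ x * u a x ∂H.vol a → ∃ x0 ∈ H.B b y (Λ * s), c1 / s ^ 4 ≤ u b x0 := by
  have Al := h.alg
  obtain ⟨Λ, c1, s0, Λ0, c0, hs0, h1⟩ := heat_big_pt h hU hV h0 hA
  obtain ⟨D, hD, h2⟩ := diam_bd h hU h0
  obtain ⟨V, hV0, h3⟩ := vol_tot Al h.int h.evo h0
  obtain ⟨K0, hK0⟩ := h.evo.R_bd
  have hK : ∀ t ∈ Ioo 0 H.T, ∀ x, |H.R t x| ≤ |K0| := fun t ht x =>
    (hK0 t ht x).trans (le_abs_self K0)
  have K0' := abs_nonneg K0
  generalize |K0| = K at hK K0'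
  obtain ⟨e, he⟩ : ∃ e, e = Real.exp (-K * H.T) := ⟨_, rfl⟩
  have e0 : 0 < e := he ▸ Real.exp_pos _
  refine ⟨Λ + 2 * D / s0, min c1 (e / (4 * V) * s0 ^ 4), by positivity, by positivity,
    fun {a b s} y ha hs s1 _ l2 => ?_⟩
  have p1 : 0 < 2 * D / s0 := by positivity
  rcases le_total s s0 with hc | hc
  · obtain ⟨ψ, sψ, ψ1, ψy, h4⟩ := h1 y ha hs s1 hc l2
    refine ⟨ψ, sψ, ψ1, ψy, fun u hu u0 u1 u2 => ?_⟩
    obtain ⟨x0, hx0, k⟩ := h4 u hu u0 u1 u2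
    exact ⟨x0, B_mono b y (by nlinarith) hx0, le_trans (by gcongr; exact min_le_left _ _) k⟩
  refine ⟨fun _ => 1, Al.s0_const 1, fun _ => le_rfl, rfl, fun u hu u0 u1 u2 => ?_⟩
  have hb : b ∈ Icc a b := ⟨hs.2.1.le, le_rfl⟩
  have ha' : a ∈ Icc a b := ⟨le_rfl, hs.2.1.le⟩
  have hb' : b ∈ Ico t0 H.T := ⟨ha.trans hs.2.1.le, hs.2.2⟩
  obtain ⟨v, hv, ev⟩ := h.solv.conj hs (Al.s0_const 1)
  have k1 := Al.dual h.int hs hu hv ha' hb
  have k2 := Al.conj_ge hs hv hK zero_le_one (fun x => by rw [ev]) a ha'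
  simp only [ev, mul_one, one_mul] at k1 k2 u2
  have sa := Al.sm_s0 hu.1 a ha'
  have k3 : ∫ x, e * u a x ∂H.vol a ≤ ∫ x, u a x * v a x ∂H.vol a :=
    integral_mono (Al.integrable h.int (hs.mem ha') (Al.s0_cmul e sa))
      (Al.integrable h.int (hs.mem ha') (Al.s0_mul sa (Al.sm_s0 hv.1 a ha'))) fun x => by
      have : e ≤ Real.exp (-K * (b - a)) := by
        rw [he]; refine Real.exp_le_exp.2 ?_
        nlinarith [hs.1, hs.2.2]
      simp only [mul_comm e]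
      exact mul_le_mul_of_nonneg_left (this.trans (k2 x)) (u0 x)
  rw [integral_const_mul] at k3
  obtain ⟨x0, k4⟩ : ∃ x0, e / (4 * V) ≤ u b x0 := by
    by_contra! hn
    have k4 := int_cut_le Al h.int (hs.mem hb) (Al.sm_s0 hu.1 b hb) MeasurableSet.univ
      (fun z => (hn z).le) (fun z hz => absurd (mem_univ z) hz)
    have k5 := mul_le_mul_of_nonneg_left (h3 b hb') (by positivity : 0 ≤ e / (4 * V))
    have k6 : e / (4 * V) * V = e / 4 := by field_simp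
    nlinarith
  refine ⟨x0, (h2 b hb' y x0).trans_lt ?_, le_trans ?_ k4⟩
  · have : 2 * D / s0 * s0 = 2 * D := by field_simp
    nlinarith [mul_le_mul_of_nonneg_left hc p1.le, mul_pos Λ0 s1]
  · rw [div_le_iff₀ (by positivity)]
    exact (min_le_right _ _).trans (by gcongr)

theorem heat_lower0 (h : H.Ok) (hU : H.DistUp) (hV : H.VolUp) {t0 : ℝ} (h0 : 0 < t0) {A : ℝ}
    (hA : 1 ≤ A) (s0 : ℝ) : ∃ κ : ℝ, 0 < κ ∧ ∀ {a b s : ℝ} (y : M), t0 ≤ a → H.St a b → 0 < s →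
      s ≤ s0 → s ^ 2 / A ≤ b - a → b - a ≤ A * s ^ 2 → ∃ ψ, H.S0 ψ ∧ (∀ x, ψ x ≤ 1) ∧ ψ y = 1 ∧
        ∀ u, H.Heat a b u → (∀ x, 0 ≤ u a x) → ∫ x, u a x ∂H.vol a ≤ 1 →
          1 / 2 ≤ ∫ x, ψ x * u a x ∂H.vol a → ∀ x ∈ H.B b y (2 * A * s), κ / s ^ 4 ≤ u b x := by
  have Al := h.alg
  obtain ⟨Λ, c1, Λ0, c0, h1⟩ := heat_big_pt' h hU hV h0 hA s0
  obtain ⟨C, hC, h2⟩ := h.kerH t0 h0
  obtain ⟨Z, hZ⟩ : ∃ Z, Z = √(1 + Real.log (8 * C * A ^ 2) - Real.log c1) + (Λ + 2 * A) * A :=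
    ⟨_, rfl⟩
  refine ⟨4 * C * A ^ 2 * Real.exp (-Z ^ 2), by positivity,
    fun {a b s} y ha hs s0 s1 l1 l2 => ?_⟩
  obtain ⟨ψ, sψ, ψ1, ψy, h3⟩ := h1 y ha hs s0 s1 l2
  refine ⟨ψ, sψ, ψ1, ψy, fun u hu u0 u1 u2 x hx => ?_⟩
  obtain ⟨x0, hx0, k3⟩ := h3 u hu u0 u1 u2
  have hb : b ∈ Icc a b := ⟨hs.2.1.le, le_rfl⟩
  have up := Al.heat_ge hs hu u0
  obtain ⟨δ, hδ⟩ : ∃ δ, δ = 4 * C * A ^ 2 * Real.exp (-Z ^ 2) / s ^ 4 := ⟨_, rfl⟩
  have δ0 : 0 < δ := by rw [hδ]; positivity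
  have δ1 : δ ≤ 4 * C * A ^ 2 / s ^ 4 := by
    rw [hδ]
    exact div_le_div_of_nonneg_right (mul_le_of_le_one_right (by positivity)
      (Real.exp_le_one_iff.2 (neg_nonpos.2 (sq_nonneg Z)))) (by positivity)
  clear h1 h3
  have hba := sub_pos.2 hs.2.1
  have hm1 : a ≤ (a + b) / 2 := by linarith
  have hs2 : H.St ((a + b) / 2) b := hs.mono hm1 (by linarith) le_rfl
  have hU' : H.Heat ((a + b) / 2) b fun t z => u t z + δ := by
    have hu' := Al.heat_mono hu hm1 le_rfl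
    refine ⟨Al.sm_add hu'.1 (Al.sm_const δ), ?_⟩
    refine (hu'.2.add (HasDt.static fun _ => δ)).congr_d fun t ht z => ?_
    rw [Al.lap_add t (hs2.mem ht) (Al.sm_s0 hu'.1 t ht) (Al.s0_const δ), Al.lap_const (hs2.mem ht)]
  have k4 := Al.harnack h.evo h.dist hs2 hU' (m := 8 * C * A ^ 2 / s ^ 4)
    (fun t ht z => by linarith [up t ⟨hm1.trans ht.1, ht.2⟩ z]) (fun z => by
      have k := h2 ha hs hu u0 ((a + b) / 2) ⟨by linarith, by linarith⟩ z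
      have k' : C / ((a + b) / 2 - a) ^ 2 ≤ C / (s ^ 2 / A / 2) ^ 2 := by
        gcongr; linarith
      have e : C / (s ^ 2 / A / 2) ^ 2 = 4 * C * A ^ 2 / s ^ 4 := by field_simp; ring
      have k'' := mul_le_of_le_one_right (by positivity : 0 ≤ C / ((a + b) / 2 - a) ^ 2) u1
      have e2 : 8 * C * A ^ 2 / s ^ 4 = 2 * (4 * C * A ^ 2 / s ^ 4) := by ring
      linarith) (t := b) ⟨by linarith, le_rfl⟩ x0 x
  have hT := hs.mem hb
  have d1 : H.d b x0 x ≤ (Λ + 2 * A) * s := by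
    have a1 : H.d b y x0 < Λ * s := hx0
    have a2 : H.d b y x < 2 * A * s := hx
    have a3 := h.dist.tri b hT x0 y x
    rw [h.dist.symm b hT x0 y] at a3
    linarith
  have d2 : H.d b x0 x / (2 * √(b - (a + b) / 2)) ≤ (Λ + 2 * A) * A := by
    have a1 : s / (2 * A) ≤ √(b - (a + b) / 2) := by
      refine Real.le_sqrt_of_sq_le (le_trans ?_ (by linarith : s ^ 2 / A / 2 ≤ _))
      rw [div_pow, div_div]
      gcongr; nlinarith
    have a2 : 0 < s / (2 * A) := by positivity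
    rw [div_le_iff₀ (by linarith)]
    have a3 : (Λ + 2 * A) * A * (2 * (s / (2 * A))) = (Λ + 2 * A) * s := by field_simp
    nlinarith [mul_le_mul_of_nonneg_left a1 (by positivity : 0 ≤ (Λ + 2 * A) * A)]
  have d3 : √(1 + Real.log (8 * C * A ^ 2 / s ^ 4) - Real.log (u b x0 + δ)) ≤
      √(1 + Real.log (8 * C * A ^ 2) - Real.log c1) := by
    refine Real.sqrt_le_sqrt ?_
    have a1 := Real.log_le_log (by positivity) (k3.trans (le_add_of_nonneg_right δ0.le))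
    rw [Real.log_div c0.ne' (by positivity)] at a1
    rw [Real.log_div (by positivity) (by positivity)]
    linarith
  have d4 : 1 + Real.log (8 * C * A ^ 2 / s ^ 4) - Real.log (u b x + δ) ≤ Z ^ 2 :=
    (Real.sqrt_le_iff.1 (k4.trans ((add_le_add d3 d2).trans_eq hZ.symm))).2
  have d5 : 2 * δ ≤ u b x + δ := by
    have e : 2 * δ = Real.exp (Real.log (8 * C * A ^ 2 / s ^ 4) + -Z ^ 2) := by
      rw [Real.exp_add, Real.exp_log (by positivity), hδ]; ring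
    rw [e, ← Real.le_log_iff_exp_le (by linarith [up b hb x])]
    linarith
  linarith

/-- (a) lower bound for conjugate solutions -/
theorem conj_lower (h : H.Ok) (hU : H.DistUp) (hV : H.VolUp) {t0 : ℝ} (h0 : 0 < t0) {A : ℝ}
    (hA : 1 ≤ A) (s0 : ℝ) : ∃ κ : ℝ, 0 < κ ∧ ∀ {a b s : ℝ} {v : ℝ → M → ℝ} (z : M), t0 ≤ a →
      H.St a b → 0 < s → s ≤ s0 → s ^ 2 / A ≤ b - a → b - a ≤ A * s ^ 2 → H.Conj a b v →
      (∀ x, 0 ≤ v b x) → ∀ y ∈ H.B b z (A * s),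
        κ / s ^ 4 * ∫ x in H.B b z (A * s), v b x ∂H.vol b ≤ v a y := by
  have Al := h.alg
  obtain ⟨κ, hκ, h1⟩ := heat_lower0 h hU hV h0 hA s0
  refine ⟨κ, hκ, fun {a b s v} z ha hs s1 s2 l1 l2 hv v0 y hy => ?_⟩
  obtain ⟨ψ, sψ, ψ1, ψy, h2⟩ := h1 y ha hs s1 s2 l1 l2
  have hb : b ∈ Icc a b := ⟨hs.2.1.le, le_rfl⟩
  have ha' : a ∈ Icc a b := ⟨le_rfl, hs.2.1.le⟩
  have vp := Al.conj_nonneg h.evo hs hv v0
  have sa := Al.sm_s0 hv.1 a ha'
  have sb := Al.sm_s0 hv.1 b hb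
  refine le_of_forall_pos_le_add fun δ hδ => ?_
  set q := 2 * (v a y + δ) with hq
  have q0 : 0 < q := by linarith [vp a ha' y]
  obtain ⟨w, sw, w0, w1, hw⟩ := E.exists_bump Al h.int (hs.mem ha')
    (Al.s0_sub (Al.s0_cmul q sψ) sa) y hδ
  have i1 := Al.integrable h.int (hs.mem ha') (Al.s0_mul sψ sw)
  have i2 := Al.integrable h.int (hs.mem ha') (Al.s0_mul sw sa)
  have e : ∀ x, (q * ψ x - v a x) * w x = q * (ψ x * w x) - w x * v a x := fun x => by ring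
  simp only [e, ψy] at hw
  rw [integral_sub (i1.const_mul q) i2, integral_const_mul] at hw
  have j1 : ∫ x, ψ x * w x ∂H.vol a ≤ 1 := by
    rw [← w1]
    exact integral_mono i1 (Al.integrable h.int (hs.mem ha') sw) fun x =>
      mul_le_of_le_one_left (w0 x) (ψ1 x)
  have j2 : 0 ≤ ∫ x, w x * v a x ∂H.vol a := integral_nonneg fun x => mul_nonneg (w0 x) (vp a ha' x)
  obtain ⟨u, hu, rfl⟩ := h.solv.heat hs sw
  have k1 := h2 u hu w0 w1.le (by
    by_contra hc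
    nlinarith [mul_lt_mul_of_pos_left (not_le.1 hc) q0])
  have k2 := Al.dual h.int hs hu hv ha' hb
  have hT := hs.mem hb
  have k3 := setInt_le_wt h hT (h.dist.isOpen_B hT z (A * s))
    (Al.s0_cmul (s ^ 4 / κ) (Al.sm_s0 hu.1 b hb)) sb
    (fun x => mul_nonneg (by positivity) (Al.heat_ge hs hu w0 b hb x)) v0 fun x hx => by
      have a1 : H.d b z x < A * s := hx
      have a2 : H.d b z y < A * s := hy
      have a3 := h.dist.tri b hT y z x
      rw [h.dist.symm b hT y z] at a3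
      have a4 := k1 x (show H.d b y x < 2 * A * s by linarith)
      rw [div_le_iff₀ (by positivity)] at a4
      rw [div_mul_eq_mul_div, le_div_iff₀ hκ]; linarith
  simp only [mul_assoc] at k3
  rw [integral_const_mul] at k3
  have k4 := mul_le_mul_of_nonneg_left k3 (by positivity : 0 ≤ κ / s ^ 4)
  rw [← mul_assoc, show κ / s ^ 4 * (s ^ 4 / κ) = 1 by field_simp, one_mul] at k4
  nlinarith [mul_le_mul_of_nonneg_left j1 q0.le]

/-- the mass of a bump in a ball -/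
theorem CS.mass_ball (h : H.Ok) {a t ε τ0 : ℝ} {z : M} {v : ℝ → M → ℝ} (c : H.CS a t z ε τ0 v)
    {r : ℝ} (hr : ε ≤ r) : 1 - ε ≤ ∫ x in H.B t z r, v t x ∂H.vol t := by
  have hb : t ∈ Icc a t := ⟨c.st.2.1.le, le_rfl⟩
  have hT := c.st.mem hb
  have i := h.alg.integrable h.int hT (h.alg.sm_s0 c.conj.1 t hb)
  have k1 := integral_add_compl (h.dist.meas_B hT z r) i
  have k2 : ∫ x in (H.B t z r)ᶜ, v t x ∂H.vol t ≤ ∫ y in {y | ε ≤ H.d t z y}, v t y ∂H.vol t :=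
    setIntegral_mono_set i.integrableOn (Eventually.of_forall fun x => (c.pos x).le)
      (LE.le.eventuallyLE fun x hx => hr.trans (not_lt.1 hx))
  linarith [c.mass, c.conc]

theorem gLow (h : H.Ok) (C : H.COut) : H.GLow := fun t0 h0 A hA => by
  obtain ⟨κ, hκ, h1⟩ := conj_lower h C.dup C.up h0 (A := 2 * A) (by linarith) 1
  refine ⟨κ / 2, by positivity, fun {a t ε τ0 z v} ha c σ hσ l1 l2 l3 y hy => ?_⟩
  have p := sub_pos.2 hσ.2
  have q := Real.sqrt_pos.2 p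
  have e := Real.sq_sqrt p.le
  have k := h1 z (ha.trans hσ.1) (c.st.mono hσ.1 hσ.2 le_rfl) q (Real.sqrt_le_one.2 l1)
    (by rw [e]; exact div_le_self p.le (by linarith)) (by rw [e]; nlinarith)
    (h.alg.conj_mono c.conj hσ.1 le_rfl) (fun x => (c.pos x).le) y
    (show H.d t z y < _ by nlinarith)
  have k2 := c.mass_ball h (r := 2 * A * √(t - σ)) (by nlinarith)
  have e4 : √(t - σ) ^ 4 = (t - σ) ^ 2 := by rw [← e]; ring_nf; simp
  rw [e4] at k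
  refine le_trans ?_ k
  rw [div_right_comm, div_eq_mul_one_div (κ / _)]
  gcongr; linarith

end HC

end Crest.Agent.N207

end
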