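import Crest.Agent.N207.G.EnA

/-!
# Row 207, block G: tightness and the Gaussian Poincaré inequality
-/

set_option autoImplicit false
set_option linter.dupNamespace false
set_option linter.unusedSectionVars false
open Set MeasureTheory Filter Topology
open scoped ContDiff

noncomputable section

namespace Crest.Agent.N207

namespace HC

variable {M : Type*} [TopologicalSpace M] [CompactSpace M] [MeasurableSpace M]
  [OpensMeasurableSpace M] {H : HC M}

theorem setInt_le_int (h : H.Ok) {t : ℝ} (ht : t ∈ Ioo 0 H.T) {S : Set M} (hS : MeasurableSet S)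
    {P Q : M → ℝ} (iP : Integrable P (H.vol t)) (sQ : H.S0 Q) (h0 : ∀ y, 0 ≤ Q y)
    (h1 : ∀ y ∈ S, P y ≤ Q y) : ∫ y in S, P y ∂H.vol t ≤ ∫ y, Q y ∂H.vol t :=
  have i1 := h.alg.integrable h.int ht sQ
  le_trans (setIntegral_mono_on iP.integrableOn i1.integrableOn hS h1)
    (setIntegral_le_integral i1 (Eventually.of_forall h0))

theorem vol_real_le2 (I : H.Intg) {K : ℝ} (hK : ∀ t ∈ Ioo 0 H.T, ∀ x, |H.R t x| ≤ K) {s t : ℝ}
    (hs : s ∈ Ioo 0 H.T) (ht : t ∈ Ioo 0 H.T) (B : Set M) :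
    (H.vol t).real B ≤ Real.exp (K * |t - s|) * (H.vol s).real B := by
  have := I.fin s hs
  have k := I.vol_le hK s hs t ht B
  rw [Measure.smul_apply, smul_eq_mul] at k
  have k2 := ENNReal.toReal_mono (ENNReal.mul_ne_top ENNReal.ofReal_ne_top (measure_ne_top _ _)) k
  rwa [ENNReal.toReal_mul, ENNReal.toReal_ofReal (Real.exp_pos _).le] at k2

theorem gTight (h : H.Ok) (C : H.COut) : H.GTight := fun t0 h0 β hβ => by
  have Al := h.alg
  obtain ⟨C1, hC1, h1⟩ := Al.exists_lipheat h.evo h.solv h.dist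
  obtain ⟨C2, hC2, h2⟩ := C.dlo
  obtain ⟨A, hA, h3⟩ := C.dup t0 h0
  obtain ⟨K, hK, -, k2⟩ := E.psi_bounds
  obtain ⟨L, hL⟩ : ∃ L, L = 2 + C1 + C2 + K / β := ⟨_, rfl⟩
  have p0 : 0 < K / β := by positivity
  have L1 : 1 ≤ L := by linarith
  refine ⟨A * (2 * L + 2) + 1, by nlinarith, fun {a t ε τ0 z v} ha c σ hσ l1 => ?_⟩
  have p := sub_pos.2 hσ.2
  obtain ⟨s, hs⟩ : ∃ s, s = √(t - σ) := ⟨_, rfl⟩
  have s0 : 0 < s := hs ▸ Real.sqrt_pos.2 p
  have e : s ^ 2 = t - σ := hs ▸ Real.sq_sqrt p.le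
  rw [← hs] at l1 ⊢
  have st := c.st.mono hσ.1 hσ.2 le_rfl
  have hv := Al.conj_mono c.conj hσ.1 le_rfl
  have vp := Al.conj_pos h.evo st hv c.pos
  obtain ⟨U, hU, g1, -, -, g3, -⟩ := h1 st z s s0
  have hb : t ∈ Icc σ t := ⟨hσ.2.le, le_rfl⟩
  have ha' : σ ∈ Icc σ t := ⟨le_rfl, hσ.2.le⟩
  have cp := E.cd_aff E.psi_cd 0 (L * s)
  have sψ := Al.sm_compU (φ := fun r => E.psi ((r - 0) / (L * s))) cp hU.1
  have sφ := Al.sm_sub (Al.sm_const 1) sψ
  have hd := Al.pair_dt h.int st sφ ((HasDt.static fun _ => 1).sub (Al.heat_comp st hU cp)) hv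
  set q := K / (L * s) ^ 2 with hq
  have q0 : 0 ≤ q := by positivity
  have hl : ∀ r ∈ Icc σ t, HasDerivWithinAt (fun r => -q * r) (-q) (Icc σ t) r :=
    fun r _ => by simpa using ((hasDerivAt_id r).const_mul (-q)).hasDerivWithinAt
  have k1 := sub_le_of_deriv hl hd (fun r hr => by
    have hr' := Ioo_subset_Icc_self hr
    have hT := st.mem hr'
    have sv := Al.sm_s0 hv.1 r hr'
    have su := Al.sm_s0 hU.1 r hr'
    have m1 : -q = ∫ x, -q * v r x ∂H.vol r := by
      rw [integral_const_mul, Al.conj_mass h.int st hv hr' hb, c.mass, mul_one]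
    have e1 : ∀ x, (0 - (H.lap r (fun y => E.psi ((U r y - 0) / (L * s))) x -
        deriv (deriv fun r => E.psi ((r - 0) / (L * s))) (U r x) * H.gam r (U r) (U r) x) -
        H.lap r (fun y => 1 - E.psi ((U r y - 0) / (L * s))) x) =
        deriv (deriv fun r => E.psi ((r - 0) / (L * s))) (U r x) * H.gam r (U r) (U r) x := by
      intro x
      rw [Al.lap_sub hT (Al.s0_const 1) (Al.sm_s0 sψ r hr'), Al.lap_const hT]; ring
    simp only [e1]
    rw [m1]
    refine integral_mono (Al.integrable h.int hT (Al.s0_cmul _ sv)) (Al.integrable h.int hT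
      (Al.s0_mul (Al.s0_mul (Al.s0_compU ((cp.iterate_deriv 1).iterate_deriv 1) su)
        (Al.s0_gam hT su su)) sv)) fun x => mul_le_mul_of_nonneg_right ?_ (vp r hr' x).le
    rw [E.deriv2_aff E.psi_cd]
    have b1 := (abs_le.1 ((k2 ((U r x - 0) / (L * s))).trans
      (mul_le_of_le_one_right (by linarith) (E.chi_le_one _)))).1
    have b2 : -q ≤ deriv (deriv E.psi) ((U r x - 0) / (L * s)) / (L * s) ^ 2 := by
      rw [hq, ← neg_div]; gcongr
    nlinarith [Al.gam_nonneg r hT su x, g1 r hr' x]) ha' hb hσ.2.le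
  have k3 : q * (t - σ) ≤ β := by
    rw [hq, ← e, show K / (L * s) ^ 2 * s ^ 2 = K / L ^ 2 by field_simp,
      div_le_iff₀ (by positivity)]
    have e1 : β * (K / β) = K := by field_simp
    have e2 : β * (K / β) ≤ β * L := by gcongr; linarith
    have e3 : β * L ≤ β * L ^ 2 := by gcongr; nlinarith
    linarith
  have φ0 : ∀ r x, 0 ≤ 1 - E.psi ((U r x - 0) / (L * s)) := fun r x => by
    linarith [E.psi_le_one ((U r x - 0) / (L * s))]
  have k4 : ∫ x, (1 - E.psi ((U t x - 0) / (L * s))) * v t x ∂H.vol t ≤ ε := by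
    refine le_trans ?_ c.conc
    have hT := st.mem hb
    have i1 := Al.integrable h.int hT (Al.s0_mul (Al.sm_s0 sφ t hb) (Al.sm_s0 hv.1 t hb))
    rw [← setIntegral_eq_integral_of_forall_compl_eq_zero (s := {y | ε ≤ H.d t z y})
      fun y hy => by
        rw [E.psi_one, sub_self, zero_mul]
        have a1 : H.d t z y < ε := not_le.1 hy
        have a2 := (abs_le.1 (g3 t hb y)).2
        have a3 := h2 σ t st.1 hσ.2.le st.2.2 z y
        rw [← hs] at a2 a3
        rw [div_le_one (by positivity)]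
        nlinarith [mul_pos p0 s0]]
    refine setIntegral_mono_on i1.integrableOn
      (Al.integrable h.int hT (Al.sm_s0 hv.1 t hb)).integrableOn
      (isClosed_le continuous_const (h.dist.cont t hT z)).measurableSet fun y _ => ?_
    exact mul_le_of_le_one_left (c.pos y).le (by linarith [E.psi_nonneg ((U t y - 0) / (L * s))])
  have k5 := setInt_le_int h (st.mem ha') (S := {y | (A * (2 * L + 2) + 1) * s ≤ H.d t z y})
    (isClosed_le continuous_const (h.dist.cont t (st.mem hb) z)).measurableSet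
    (Al.integrable h.int (st.mem ha') (Al.sm_s0 hv.1 σ ha'))
    (Al.s0_mul (Al.sm_s0 sφ σ ha') (Al.sm_s0 hv.1 σ ha'))
    (fun y => mul_nonneg (φ0 σ y) (vp σ ha' y).le) fun y hy => by
      rw [E.psi_zero, sub_zero, one_mul]
      have a1 : (A * (2 * L + 2) + 1) * s ≤ H.d t z y := hy
      have a2 := (abs_le.1 (g3 σ ha' y)).1
      have a3 := h3 σ t (ha.trans hσ.1) hσ.2.le st.2.2 z y
      rw [← hs] at a3
      rw [sub_self, Real.sqrt_zero] at a2
      rw [le_div_iff₀ (by positivity)]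
      have a4 : A * ((2 * L + 2) * s) ≤ A * (H.d σ z y + s) := by nlinarith
      have a5 := le_of_mul_le_mul_left a4 hA
      linarith
  linarith

namespace Alg

variable (A : H.Alg) {a b : ℝ} {u v : ℝ → M → ℝ}
include A

omit [OpensMeasurableSpace M] in
theorem heat_addc (hs : H.St a b) (hu : H.Heat a b u) (c : ℝ) :
    H.Heat a b fun t x => u t x - c :=
  ⟨A.sm_sub hu.1 (A.sm_const c), (hu.2.sub (HasDt.static fun _ => c)).congr_d fun t ht z => by
    rw [A.lap_sub (hs.mem ht) (A.sm_s0 hu.1 t ht) (A.s0_const c), A.lap_const (hs.mem ht)]⟩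

omit [OpensMeasurableSpace M] in
theorem heat_sq_dt (hs : H.St a b) (hu : H.Heat a b u) : HasDt a b (fun t x => u t x ^ 2)
    fun t x => H.lap t (fun y => u t y ^ 2) x - 2 * H.gam t (u t) (u t) x :=
  (A.heat_comp hs hu (φ := fun y => y ^ 2) (by fun_prop)).congr_d fun t _ x => by
    have : deriv (fun y : ℝ => y ^ 2) = fun y => 2 * y := by funext y; simp
    rw [this]; simp

omit [OpensMeasurableSpace M] in
/-- Bernstein: `2 (t - a) |∇u|² + u² ≤ sup u(a)²` -/
theorem heat_bern (E : H.Evo) (hs : H.St a b) (hu : H.Heat a b u) {m : ℝ}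
    (h0 : ∀ x, u a x ^ 2 ≤ m) : ∀ t ∈ Icc a b, ∀ x,
      2 * (t - a) * H.gam t (u t) (u t) x + u t x ^ 2 ≤ m := by
  have t1 : H.Sm a b fun t (_ : M) => 2 * (t - a) := A.sm_timeU (by fun_prop)
  have d1 : HasDt a b (fun t (_ : M) => 2 * (t - a)) fun _ _ => 2 :=
    HasDt.time (c' := fun _ => 2) fun t _ => by
      simpa using ((hasDerivAt_id t).sub_const a).const_mul 2
  have sg := A.sm_gam hs hu.1 hu.1
  simpa using A.sub_le hs (A.sm_add (A.sm_mul t1 sg) (A.sm_pow 2 hu.1))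
    ((d1.mul (E.dt_gam hs hu.1 hu.2)).add (A.heat_sq_dt hs hu)) (m := m) (c := 0)
    (fun x => by simpa using h0 x) fun t ht x => by
      have hm : t ∈ Icc a b := Ioc_subset_Icc_self ht
      have hT := hs.mem hm
      have su := A.sm_s0 hu.1 t hm
      rw [A.lap_add t hT (A.s0_cmul _ (A.s0_gam hT su su)) (A.s0_pow 2 su),
        A.lap_cmul hT _ (A.s0_gam hT su su)]
      simp only [sub_self]
      rw [A.gam_const' hT 0 su]
      nlinarith [mul_nonneg (sub_pos.2 ht.1).le (E.hh_nonneg t hT su x)]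

/-- the Gaussian Poincaré inequality of Hein and Naber -/
theorem gauss_poinc (I : H.Intg) (E : H.Evo) (hs : H.St a b) (hu : H.Heat a b u)
    (hv : H.Conj a b v) (hp : ∀ t ∈ Icc a b, ∀ x, 0 ≤ v t x) :
    ∫ x, u a x ^ 2 * v a x ∂H.vol a ≤ ∫ x, u b x ^ 2 * v b x ∂H.vol b +
      2 * (b - a) * ∫ x, H.gam a (u a) (u a) x * v a x ∂H.vol a := by
  have ha : a ∈ Icc a b := ⟨le_rfl, hs.2.1.le⟩
  have k1 := A.pair_le I hs (A.sm_gam hs hu.1 hu.1) (E.dt_gam hs hu.1 hu.2) hv hp fun t ht x => by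
    have su := A.sm_s0 hu.1 t ht
    simp only [sub_self]
    rw [A.gam_const' (hs.mem ht) 0 su]
    linarith [E.hh_nonneg t (hs.mem ht) su x]
  have hd := A.pair_dt I hs (A.sm_pow 2 hu.1) (A.heat_sq_dt hs hu) hv
  set q := 2 * ∫ x, H.gam a (u a) (u a) x * v a x ∂H.vol a with hq
  have hl : ∀ r ∈ Icc a b, HasDerivWithinAt (fun r => -q * r) (-q) (Icc a b) r :=
    fun r _ => by simpa using ((hasDerivAt_id r).const_mul (-q)).hasDerivWithinAt
  have k2 := sub_le_of_deriv hl hd (fun r hr => by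
    have e : ∀ x, (H.lap r (fun y => u r y ^ 2) x - 2 * H.gam r (u r) (u r) x -
      H.lap r (fun y => u r y ^ 2) x) * v r x = -2 * (H.gam r (u r) (u r) x * v r x) :=
      fun x => by ring
    simp only [e]
    rw [integral_const_mul]
    have := k1 ha (Ioo_subset_Icc_self hr) hr.1.le
    simp only at this
    linarith) ha ⟨hs.2.1.le, le_rfl⟩ hs.2.1.le
  linarith

end Alg

theorem gSep (h : H.Ok) (C : H.COut) : H.GSep := fun t0 h0 => by
  have Al := h.alg
  obtain ⟨c1, hc1, h1⟩ := gLow h C t0 h0 5 (by norm_num)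
  obtain ⟨κ, hκ, h2⟩ := C.lo t0 h0
  obtain ⟨K0, hK0⟩ := h.evo.R_bd
  have hK : ∀ t ∈ Ioo 0 H.T, ∀ x, |H.R t x| ≤ |K0| := fun t ht x =>
    (hK0 t ht x).trans (le_abs_self K0)
  have K0' := abs_nonneg K0
  generalize |K0| = K at hK K0'
  obtain ⟨c0, hc0⟩ : ∃ c0, c0 = c1 / 16 * (κ / 8 ^ 4 / Real.exp K) := ⟨_, rfl⟩
  have p0 : 0 < c0 := by rw [hc0]; positivity
  refine ⟨min (1 / 2) (c0 / 8), by positivity, (min_le_left _ _).trans (by norm_num),
    fun {a t ε τ0 s z v} ha c s0 s1 l1 σ hσ l2 F sF F01 y1 y2 d1 d2 f1 f2 => ?_⟩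
  generalize hβ : min (1 / 2) (c0 / 8) = β at *
  have β0 : 0 < β := hβ ▸ by positivity
  have β1 : β ≤ 1 / 2 := hβ ▸ min_le_left _ _
  have β2 : β ≤ c0 / 8 := hβ ▸ min_le_right _ _
  have s2 : 0 < s ^ 2 := by positivity
  have st : H.St σ t := c.st.mono l2 (by linarith [hσ.2]) le_rfl
  have hb : t ∈ Icc σ t := ⟨st.2.1.le, le_rfl⟩
  have ha' : σ ∈ Icc σ t := ⟨le_rfl, st.2.1.le⟩
  have hT := st.mem hb
  have hS := st.mem ha'
  have hv := Al.conj_mono c.conj l2 le_rfl
  have vp := Al.conj_pos h.evo st hv c.pos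
  obtain ⟨u, hu, rfl⟩ := h.solv.heat st sF
  have su := Al.sm_s0 hu.1 t hb
  have u0 := Al.heat_ge st hu (fun x => (F01 x).1) t hb
  have u1 := Al.heat_le st hu (fun x => (F01 x).2) t hb
  have k1 := Al.gauss_poinc h.int h.evo st (Al.heat_addc st hu (u t z)) hv
    fun r hr x => (vp r hr x).le
  have e1 : ∀ x, H.gam σ (fun x => u σ x - u t z) (fun x => u σ x - u t z) x =
      H.gam σ (u σ) (u σ) x := fun x => by
    rw [Al.gam_sub hS sF (Al.s0_const _) (Al.s0_sub sF (Al.s0_const _)), Al.gam_const hS _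
      (Al.s0_sub sF (Al.s0_const _)), Al.gam_sub' hS sF (Al.s0_const _) sF, Al.gam_const' hS _ sF]
    ring
  simp only [e1] at k1
  have G0 : 0 ≤ ∫ x, H.gam σ (u σ) (u σ) x * v σ x ∂H.vol σ :=
    integral_nonneg fun x => mul_nonneg (Al.gam_nonneg σ hS sF x) (vp σ ha' x).le
  have s3 : s ≤ 1 / 2 := s1.trans β1
  have ε1 : ε ≤ s := l1.trans (by nlinarith)
  -- top time
  have k2 : ∫ x, (u t x - u t z) ^ 2 * v t x ∂H.vol t ≤ β ^ 2 + ε := by
    have g1 : ∀ x, H.gam t (fun y => s * u t y) (fun y => s * u t y) x ≤ 1 := fun x => by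
      have := Al.heat_bern h.evo st hu (m := 1) (fun y => by nlinarith [F01 y]) t hb x
      rw [Al.gam_cmul hT _ su (Al.s0_cmul _ su), Al.gam_cmul' hT _ su su]
      nlinarith [Al.gam_nonneg t hT su x, hσ.2, sq_nonneg (u t x)]
    have g2 := Al.lip_glob h.dist hT (Al.s0_cmul s su) g1 z
    have ms : MeasurableSet {y | ε ≤ H.d t z y} :=
      (isClosed_le continuous_const (h.dist.cont t hT z)).measurableSet
    have iv := Al.integrable h.int hT (Al.sm_s0 hv.1 t hb)
    have k : ∫ x, (u t x - u t z) ^ 2 * v t x ∂H.vol t ≤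
        ∫ x, (β ^ 2 * v t x + {y | ε ≤ H.d t z y}.indicator (v t) x) ∂H.vol t := by
      refine integral_mono (Al.integrable h.int hT (Al.s0_mul (Al.s0_pow 2 (Al.s0_sub su
        (Al.s0_const _))) (Al.sm_s0 hv.1 t hb))) ((iv.const_mul _).add (iv.indicator ms))
        fun x => ?_
      have pv := c.pos x
      by_cases hx : x ∈ {y | ε ≤ H.d t z y}
      · simp only [indicator_of_mem hx]
        have : (u t x - u t z) ^ 2 ≤ 1 := by nlinarith [u0 x, u1 x, u0 z, u1 z]
        nlinarith [sq_nonneg β]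
      · simp only [indicator_of_notMem hx, add_zero]
        have a1 : H.d t z x < ε := not_le.1 hx
        have a2 := g2 x
        rw [← mul_sub, abs_mul, abs_of_pos s0] at a2
        have a3 : |u t x - u t z| ≤ β := le_of_mul_le_mul_left (by linarith) s0
        exact mul_le_mul_of_nonneg_right (by rw [← sq_abs]; gcongr) pv.le
    rw [integral_add (iv.const_mul _) (iv.indicator ms), integral_const_mul, c.mass,
      integral_indicator ms] at k
    linarith [c.conc]
  -- bottom time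
  have k3 : ∀ y, H.d t z y ≤ 4 * s → (∀ x ∈ H.B t y (s / 8), 1 / 4 ≤ (u σ x - u t z) ^ 2) →
      c0 ≤ ∫ x, (u σ x - u t z) ^ 2 * v σ x ∂H.vol σ := fun y hy hq => by
    have := h.int.fin σ hS
    have r1 : s ≤ √(t - σ) := Real.le_sqrt_of_sq_le (by linarith [hσ.2])
    have k := setInt_le_int h hS (h.dist.meas_B hT y (s / 8)) (P := fun _ => c1 / 16 / s ^ 4)
      (integrable_const _) (Al.s0_mul (Al.s0_pow 2 (Al.s0_sub sF (Al.s0_const (u t z))))
        (Al.sm_s0 hv.1 σ ha')) (fun x => mul_nonneg (sq_nonneg _) (vp σ ha' x).le) fun x hx => by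
      have a1 : H.d t y x < s / 8 := hx
      have a2 := h1 ha c σ ⟨l2, st.2.1⟩ (by nlinarith [hσ.1]) (ε1.trans r1) (ε1.trans s3) x
        (by linarith [h.dist.tri t hT z y x])
      have a3 : c1 / (2 * s ^ 2) ^ 2 ≤ c1 / (t - σ) ^ 2 := by
        have := sub_pos.2 st.2.1
        gcongr; linarith [hσ.1]
      have a4 : c1 / 16 / s ^ 4 = 1 / 4 * (c1 / (2 * s ^ 2) ^ 2) := by field_simp; norm_num
      rw [a4]
      exact mul_le_mul (hq x hx) (a3.trans a2) (by positivity) (sq_nonneg _)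
    rw [setIntegral_const, smul_eq_mul] at k
    refine le_trans ?_ k
    have a5 := (h2 t ⟨ha.trans c.st.2.1.le, hT.2⟩ y (s / 8) ⟨by positivity, by linarith⟩).trans
      (vol_real_le2 h.int hK hS hT _)
    have a6 : Real.exp (K * |t - σ|) ≤ Real.exp K := Real.exp_le_exp.2
      (mul_le_of_le_one_right K0' (by rw [abs_of_pos (sub_pos.2 st.2.1)]; nlinarith [hσ.1]))
    have a7 := a5.trans (mul_le_mul_of_nonneg_right a6 measureReal_nonneg)
    rw [← div_le_iff₀' (Real.exp_pos K)] at a7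
    refine le_trans (le_of_eq ?_) (mul_le_mul_of_nonneg_right a7 (by positivity))
    rw [hc0]; field_simp
  have k4 : c0 ≤ ∫ x, (u σ x - u t z) ^ 2 * v σ x ∂H.vol σ := by
    rcases le_total (u t z) (1 / 2) with hm | hm
    · exact k3 y1 d1 fun x hx => by rw [f1 x hx]; nlinarith
    · exact k3 y2 d2 fun x hx => by rw [f2 x hx]; nlinarith
  have k5 := mul_le_mul_of_nonneg_right (show 2 * (t - σ) ≤ 4 * s ^ 2 by linarith [hσ.1]) G0
  have k6 : ε ≤ β := ε1.trans s1
  nlinarith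

end HC

end Crest.Agent.N207

end
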