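import Crest.Agent.N207.G.Bas
import Crest.Agent.N207.E.Cut

/-!
# Row 207, block G, entropy half (helper23): Gronwall, weights, global heat estimates
-/

set_option autoImplicit false
set_option linter.dupNamespace false
set_option linter.unusedSectionVars false
open Set MeasureTheory Filter Topology
open scoped ContDiff

noncomputable section

namespace Crest.Agent.N207.Ge

open HC

/-- Gronwall with a second quantity that pays the source `p` -/
theorem gron {y y' g g' p q : ℝ → ℝ} {a b k K m e : ℝ} (hk : 0 ≤ k) (hK : 0 ≤ K)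
    (hm : 0 ≤ m) (he : 0 ≤ e)
    (hy : ∀ t ∈ Icc a b, HasDerivWithinAt y (y' t) (Icc a b) t)
    (hg : ∀ t ∈ Icc a b, HasDerivWithinAt g (g' t) (Icc a b) t)
    (y0 : ∀ t ∈ Icc a b, 0 ≤ y t) (g0 : ∀ t ∈ Icc a b, 0 ≤ g t) (p0 : ∀ t ∈ Icc a b, 0 ≤ p t)
    (q0 : ∀ t ∈ Icc a b, 0 ≤ q t)
    (h1 : ∀ t ∈ Icc a b, y' t ≤ k * y t + m * p t + e - q t)
    (h2 : ∀ t ∈ Icc a b, g' t ≤ K * g t - 2 * p t) :
    (∀ t ∈ Icc a b, y t ≤ Real.exp (k * (b - a)) *
      (y a + m * Real.exp (K * (b - a)) * g a + e * (b - a))) ∧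
    ∀ a1, a ≤ a1 → a1 < b → ∃ t ∈ Icc a1 b, (b - a1) * q t ≤ Real.exp (k * (b - a)) *
      (y a + m * Real.exp (K * (b - a)) * g a + 2 * e * (b - a)) := by
  set Φ : ℝ → ℝ := fun t => Real.exp (-k * (t - a)) * y t + m * Real.exp (K * (b - t)) * g t -
    e * (t - a) with hΦ
  have hd : ∀ t ∈ Icc a b, HasDerivWithinAt Φ (Real.exp (-k * (t - a)) * (y' t - k * y t) +
      m * Real.exp (K * (b - t)) * (g' t - K * g t) - e) (Icc a b) t := by
    intro t ht
    have e1 : HasDerivAt (fun t => Real.exp (-k * (t - a))) (Real.exp (-k * (t - a)) * (-k)) t := by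
      simpa using (((hasDerivAt_id t).sub_const a).const_mul (-k)).exp
    have e2 : HasDerivAt (fun t => m * Real.exp (K * (b - t)))
        (m * (Real.exp (K * (b - t)) * (-K))) t := by
      simpa using ((((hasDerivAt_id t).const_sub b).const_mul K).exp).const_mul m
    have e3 : HasDerivAt (fun t => e * (t - a)) e t := by
      simpa using ((hasDerivAt_id t).sub_const a).const_mul e
    refine (((e1.hasDerivWithinAt.mul (hy t ht)).add (e2.hasDerivWithinAt.mul (hg t ht))).sub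
      e3.hasDerivWithinAt).congr_deriv ?_
    ring
  have hb : ∀ t ∈ Icc a b, Real.exp (-k * (t - a)) * (y' t - k * y t) +
      m * Real.exp (K * (b - t)) * (g' t - K * g t) - e ≤ -(Real.exp (-k * (b - a)) * q t) := by
    intro t ht
    have a1 : Real.exp (-k * (t - a)) ≤ 1 := Real.exp_le_one_iff.2 (by nlinarith [ht.1])
    have a2 : 1 ≤ Real.exp (K * (b - t)) := Real.one_le_exp (by nlinarith [ht.2])
    have a3 : Real.exp (-k * (b - a)) ≤ Real.exp (-k * (t - a)) :=
      Real.exp_le_exp.2 (by nlinarith [ht.2])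
    have a4 := Real.exp_pos (-k * (t - a))
    have a5 : Real.exp (-k * (t - a)) * (y' t - k * y t) ≤
        Real.exp (-k * (t - a)) * (m * p t + e - q t) :=
      mul_le_mul_of_nonneg_left (by linarith [h1 t ht]) a4.le
    have a6 : m * Real.exp (K * (b - t)) * (g' t - K * g t) ≤
        m * Real.exp (K * (b - t)) * (-2 * p t) :=
      mul_le_mul_of_nonneg_left (by linarith [h2 t ht]) (by positivity)
    have a7 := mul_nonneg hm (p0 t ht)
    have a8 := q0 t ht
    nlinarith [mul_nonneg (sub_nonneg.2 a1) a7, mul_nonneg (sub_nonneg.2 a2) a7,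
      mul_nonneg (sub_nonneg.2 a1) he, mul_nonneg (sub_nonneg.2 a3) a8]
  have hanti := anti_of_deriv hd fun t ht => (hb t (Ioo_subset_Icc_self ht)).trans
    (neg_nonpos.2 (mul_nonneg (Real.exp_pos _).le (q0 t (Ioo_subset_Icc_self ht))))
  have hΦa : Φ a = y a + m * Real.exp (K * (b - a)) * g a := by simp [hΦ]
  have hee : Real.exp (k * (b - a)) * Real.exp (-k * (b - a)) = 1 := by
    rw [← Real.exp_add]; simp
  refine ⟨fun t ht => ?_, fun a1 ha1 hb1 => ?_⟩
  · have h3 : Φ t ≤ Φ a := hanti (left_mem_Icc.2 (ht.1.trans ht.2)) ht ht.1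
    have h4 : 0 ≤ m * Real.exp (K * (b - t)) * g t := mul_nonneg (by positivity) (g0 t ht)
    have h5 : Real.exp (-k * (b - a)) * y t ≤ Real.exp (-k * (t - a)) * y t :=
      mul_le_mul_of_nonneg_right (Real.exp_le_exp.2 (by nlinarith [ht.2])) (y0 t ht)
    have h6 : Real.exp (-k * (b - a)) * y t ≤
        y a + m * Real.exp (K * (b - a)) * g a + e * (b - a) := by
      rw [hΦa] at h3
      simp only [hΦ] at h3
      nlinarith [ht.2]
    calc y t = Real.exp (k * (b - a)) * (Real.exp (-k * (b - a)) * y t) := by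
          rw [← mul_assoc, hee, one_mul]
      _ ≤ _ := mul_le_mul_of_nonneg_left h6 (Real.exp_pos _).le
  · have hsub : Icc a1 b ⊆ Icc a b := Icc_subset_Icc_left ha1
    obtain ⟨t, ht, hts⟩ := exists_hasDerivAt_eq_slope Φ _ hb1
      (fun t ht => ((hd t (hsub ht)).continuousWithinAt).mono hsub)
      (fun t ht => (hd t (hsub (Ioo_subset_Icc_self ht))).hasDerivAt
        (Icc_mem_nhds (lt_of_le_of_lt ha1 ht.1) ht.2))
    refine ⟨t, Ioo_subset_Icc_self ht, ?_⟩
    have ht' := hsub (Ioo_subset_Icc_self ht)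
    have hb' : b ∈ Icc a b := right_mem_Icc.2 (ha1.trans hb1.le)
    have h3 := hb t ht'
    rw [hts, div_le_iff₀ (by linarith)] at h3
    have h4 : Φ a1 ≤ Φ a := hanti (left_mem_Icc.2 (ha1.trans hb1.le)) ⟨ha1, hb1.le⟩ ha1
    have h5 : -(e * (b - a)) ≤ Φ b := by
      have := mul_nonneg (Real.exp_pos (-k * (b - a))).le (y0 b hb')
      have := mul_nonneg (by positivity : 0 ≤ m * Real.exp (K * (b - b))) (g0 b hb')
      simp only [hΦ]
      linarith
    have h6 : Real.exp (-k * (b - a)) * ((b - a1) * q t) ≤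
        y a + m * Real.exp (K * (b - a)) * g a + 2 * e * (b - a) := by
      have := mul_nonneg he (sub_nonneg.2 (ha1.trans hb1.le))
      rw [hΦa] at h4
      nlinarith
    calc (b - a1) * q t = Real.exp (k * (b - a)) * (Real.exp (-k * (b - a)) * ((b - a1) * q t)) := by
          rw [← mul_assoc, hee, one_mul]
      _ ≤ _ := mul_le_mul_of_nonneg_left h6 (Real.exp_pos _).le

/-- the one-dimensional weight: a plateau, exponential decay and a cutoff -/
theorem exists_weight : ∃ K : ℝ, 0 < K ∧ ∀ r l lam : ℝ, 0 < l → 0 ≤ lam → ∃ Ξ : ℝ → ℝ,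
    ContDiff ℝ ∞ Ξ ∧ (∀ x, 0 ≤ Ξ x ∧ Ξ x ≤ 1) ∧ (∀ x ≤ r + l / 16, Ξ x = 1) ∧
      (∀ x, r + 3 * l / 4 ≤ x → Ξ x = 0) ∧ (∀ x, r + 3 * l / 4 < x → deriv Ξ x = 0) ∧
      ∀ x, deriv Ξ x ^ 2 ≤ 2 * lam ^ 2 * Ξ x ^ 2 + K / l ^ 2 * Real.exp (-(lam * l / 2)) := by
  obtain ⟨K, hK, hK1, -⟩ := E.zeta_bounds
  refine ⟨32 * K ^ 2 + 1, by positivity, fun r l lam hl hlam => ?_⟩
  obtain ⟨ψ, hψ, hψ1, hψ2, hψ3, hψ4⟩ := Dist.exists_psi (ε := l / 16) (by positivity)
  have c1 : ContDiff ℝ ∞ fun x : ℝ => E.zeta (4 / l * (x - r) - 1) :=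
    E.zeta_cd.comp (by fun_prop)
  have c2 : ContDiff ℝ ∞ fun x : ℝ => Real.exp (-lam * ψ (x - (r + l / 16))) :=
    (contDiff_const.mul (hψ.comp (by fun_prop))).exp
  have hz : ∀ x, r + 3 * l / 4 ≤ x → E.zeta (4 / l * (x - r) - 1) = 0 := fun x hx => by
    refine E.zeta_zero ?_
    have : 4 / l * (3 * l / 4) ≤ 4 / l * (x - r) :=
      mul_le_mul_of_nonneg_left (by linarith) (by positivity)
    have e : 4 / l * (3 * l / 4) = 3 := by field_simp
    linarith
  have hp0 : ∀ x, 0 ≤ ψ x := fun x => by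
    rcases le_total x 0 with h | h
    · rw [hψ3 x h]
    · have hm : Monotone ψ := monotone_of_deriv_nonneg (hψ.differentiable (by simp))
        fun s => (hψ1 s).1
      have := hm h
      rwa [hψ3 0 le_rfl] at this
  have he1 : ∀ x, Real.exp (-lam * ψ x) ≤ 1 := fun x =>
    Real.exp_le_one_iff.2 (by nlinarith [hp0 x])
  have hd : ∀ x, HasDerivAt (fun x : ℝ => E.zeta (4 / l * (x - r) - 1) *
      Real.exp (-lam * ψ (x - (r + l / 16))))
      (deriv E.zeta (4 / l * (x - r) - 1) * (4 / l) * Real.exp (-lam * ψ (x - (r + l / 16))) +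
        E.zeta (4 / l * (x - r) - 1) * (Real.exp (-lam * ψ (x - (r + l / 16))) *
          (-lam * deriv ψ (x - (r + l / 16))))) x := by
    intro x
    have a1 : HasDerivAt (fun x : ℝ => 4 / l * (x - r) - 1) (4 / l) x := by
      simpa using (((hasDerivAt_id x).sub_const r).const_mul (4 / l)).sub_const 1
    have a2 := ((E.zeta_cd.differentiable (by simp)) (4 / l * (x - r) - 1)).hasDerivAt.comp x a1
    have a3 := (((hψ.differentiable (by simp)) (x - (r + l / 16))).hasDerivAt.comp x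
      ((hasDerivAt_id x).sub_const (r + l / 16)))
    have a4 := (a3.const_mul (-lam)).exp
    refine (a2.mul a4).congr_deriv ?_
    simp
  refine ⟨_, c1.mul c2, fun x => ⟨mul_nonneg (E.zeta_nonneg _) (Real.exp_pos _).le,
    mul_le_one₀ (E.zeta_le_one _) (Real.exp_pos _).le (he1 _)⟩, fun x hx => ?_,
    fun x hx => by simp only [hz x hx, zero_mul], fun x hx => ?_, fun x => ?_⟩
  · have : 4 / l * (x - r) ≤ 4 / l * (l / 16) :=
      mul_le_mul_of_nonneg_left (by linarith) (by positivity)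
    have e : 4 / l * (l / 16) = 1 / 4 := by field_simp; norm_num
    rw [E.zeta_one (by linarith), hψ3 _ (by linarith)]
    simp
  · have : (fun x : ℝ => E.zeta (4 / l * (x - r) - 1) * Real.exp (-lam * ψ (x - (r + l / 16))))
        =ᶠ[𝓝 x] fun _ => 0 :=
      (lt_mem_nhds hx).mono fun y hy => by simp only [hz y hy.le, zero_mul]
    rw [this.deriv_eq, deriv_const]
  · rw [(hd x).deriv]
    set Z := E.zeta (4 / l * (x - r) - 1)
    set Z' := deriv E.zeta (4 / l * (x - r) - 1) with hZ'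
    set X := Real.exp (-lam * ψ (x - (r + l / 16))) with hX
    set p := deriv ψ (x - (r + l / 16))
    have hp : p ^ 2 ≤ 1 := by have := hψ1 (x - (r + l / 16)); nlinarith [this.1, this.2]
    have b1 : (Z' * (4 / l) * X) ^ 2 ≤ 16 * K ^ 2 / l ^ 2 * Real.exp (-(lam * l / 2)) := by
      by_cases hx : x < r + l / 2
      · have : Z' = 0 := (E.deriv_vanish (fun s hs => E.zeta_one hs.le)
          (fun s hs => E.zeta_zero hs.le)).1 _ (by
            have : 4 / l * (x - r) < 4 / l * (l / 2) :=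
              mul_lt_mul_of_pos_left (by linarith) (by positivity)
            have e : 4 / l * (l / 2) = 2 := by field_simp; norm_num
            linarith)
        rw [this]
        simp only [zero_mul, ne_eq, OfNat.ofNat_ne_zero, not_false_eq_true, zero_pow]
        positivity
      · have h1 : l / 4 ≤ ψ (x - (r + l / 16)) := by
          have := (hψ4 (x - (r + l / 16))).1
          have := le_max_left (x - (r + l / 16)) 0
          linarith [not_lt.1 hx]
        have h2 : X ^ 2 ≤ Real.exp (-(lam * l / 2)) := by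
          rw [hX, sq, ← Real.exp_add]
          exact Real.exp_le_exp.2 (by nlinarith)
        have h3 : Z' ^ 2 ≤ K ^ 2 := sq_le_sq' (abs_le.1 (hK1 _)).1 (abs_le.1 (hK1 _)).2
        have e : (Z' * (4 / l) * X) ^ 2 = 16 * Z' ^ 2 / l ^ 2 * X ^ 2 := by field_simp; ring
        rw [e]
        gcongr
    have b2 : (Z * (X * (-lam * p))) ^ 2 ≤ lam ^ 2 * (Z * X) ^ 2 := by
      have e : (Z * (X * (-lam * p))) ^ 2 = lam ^ 2 * (Z * X) ^ 2 * p ^ 2 := by ring
      rw [e]
      exact mul_le_of_le_one_right (by positivity) hp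
    have b3 : 2 * (16 * K ^ 2 / l ^ 2 * Real.exp (-(lam * l / 2))) ≤
        (32 * K ^ 2 + 1) / l ^ 2 * Real.exp (-(lam * l / 2)) := by
      have e : 2 * (16 * K ^ 2 / l ^ 2 * Real.exp (-(lam * l / 2))) =
          32 * K ^ 2 / l ^ 2 * Real.exp (-(lam * l / 2)) := by ring
      rw [e]
      gcongr
      linarith
    nlinarith [sq_nonneg (Z' * (4 / l) * X - Z * (X * (-lam * p)))]

variable {M : Type*} [TopologicalSpace M] [CompactSpace M] [MeasurableSpace M]
  [OpensMeasurableSpace M] {H : HC M}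

theorem int_add (A : H.Alg) (I : H.Intg) {t : ℝ} (ht : t ∈ Ioo 0 H.T) {u v : M → ℝ}
    (hu : H.S0 u) (hv : H.S0 v) :
    ∫ x, (u x + v x) ∂H.vol t = ∫ x, u x ∂H.vol t + ∫ x, v x ∂H.vol t :=
  integral_add (A.integrable I ht hu) (A.integrable I ht hv)

theorem int_sub (A : H.Alg) (I : H.Intg) {t : ℝ} (ht : t ∈ Ioo 0 H.T) {u v : M → ℝ}
    (hu : H.S0 u) (hv : H.S0 v) :
    ∫ x, (u x - v x) ∂H.vol t = ∫ x, u x ∂H.vol t - ∫ x, v x ∂H.vol t :=
  integral_sub (A.integrable I ht hu) (A.integrable I ht hv)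

theorem int_mono (A : H.Alg) (I : H.Intg) {t : ℝ} (ht : t ∈ Ioo 0 H.T) {u v : M → ℝ}
    (hu : H.S0 u) (hv : H.S0 v) (h : ∀ x, u x ≤ v x) :
    ∫ x, u x ∂H.vol t ≤ ∫ x, v x ∂H.vol t :=
  integral_mono (A.integrable I ht hu) (A.integrable I ht hv) h

theorem dt_gam_heat (A : H.Alg) (E : H.Evo) {a b : ℝ} (hs : H.St a b) {u : ℝ → M → ℝ}
    (hu : H.Heat a b u) : HasDt a b (fun t => H.gam t (u t) (u t)) fun t x =>
      H.lap t (H.gam t (u t) (u t)) x - 2 * H.hh t (u t) x :=
  (E.dt_gam hs hu.1 hu.2).congr_d fun t ht x => by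
    simp only [sub_self]
    rw [A.gam_const' (hs.mem ht) 0 (A.sm_s0 hu.1 t ht)]
    ring

/-- reverse Bernstein estimate -/
theorem rev_bern (A : H.Alg) (E : H.Evo) {a b m : ℝ} (hs : H.St a b) {u : ℝ → M → ℝ}
    (hu : H.Heat a b u) (h0 : ∀ x, |u a x| ≤ m) :
    ∀ t ∈ Icc a b, ∀ x, 2 * (t - a) * H.gam t (u t) (u t) x + u t x ^ 2 ≤ m ^ 2 := by
  have hg := A.sm_gam hs hu.1 hu.1
  have hc : H.Sm a b fun t (_ : M) => 2 * (t - a) := A.sm_timeU (by fun_prop)
  have hf := A.sm_add (A.sm_mul hc hg) (A.sm_mul hu.1 hu.1)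
  have hd := ((HasDt.time (M := M) (a := a) (b := b) (c := fun t => 2 * (t - a)) (c' := fun _ => 2)
    fun t _ => by simpa using ((hasDerivAt_id t).sub_const a).const_mul 2).mul
    (dt_gam_heat A E hs hu)).add (hu.2.mul hu.2)
  have := A.sub_le hs hf hd (m := m ^ 2) (c := 0) (fun x => by
    have := h0 x
    have := abs_nonneg (u a x)
    have := sq_abs (u a x)
    simp only [sub_self, mul_zero, zero_mul, zero_add]
    nlinarith) (fun t ht x => by
    have ht' := Ioc_subset_Icc_self ht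
    have htm := hs.mem ht'
    have hut := A.sm_s0 hu.1 t ht'
    have hgt := A.s0_gam htm hut hut
    rw [A.lap_add t htm (A.s0_cmul _ hgt) (A.s0_mul hut hut), A.lap_cmul htm _ hgt,
      A.lap_mul t htm hut hut]
    have := mul_nonneg (sub_nonneg.2 ht.1.le) (E.hh_nonneg t htm hut x)
    nlinarith)
  intro t ht x
  have h1 := this t ht x
  simp only [zero_mul, add_zero] at h1
  nlinarith

/-- the global Bochner inequality -/
theorem int_gam_dt (A : H.Alg) (I : H.Intg) (E : H.Evo) {a b K : ℝ} (hs : H.St a b)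
    (hK : ∀ t ∈ Ioo 0 H.T, ∀ x, |H.R t x| ≤ K) {u : ℝ → M → ℝ} (hu : H.Heat a b u) :
    ∃ g' : ℝ → ℝ, (∀ t ∈ Icc a b, HasDerivWithinAt
      (fun t => ∫ x, H.gam t (u t) (u t) x ∂H.vol t) (g' t) (Icc a b) t) ∧
      ∀ t ∈ Icc a b, g' t ≤ K * ∫ x, H.gam t (u t) (u t) x ∂H.vol t -
        2 * ∫ x, H.hh t (u t) x ∂H.vol t := by
  refine ⟨_, I.int_dt hs (A.sm_gam hs hu.1 hu.1) (dt_gam_heat A E hs hu), fun t ht => ?_⟩
  have htm := hs.mem ht
  have hut := A.sm_s0 hu.1 t ht
  have hgt := A.s0_gam htm hut hut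
  have i1 := A.integrable I htm (A.s0_lap htm hgt)
  have i2 := A.integrable I htm (A.s0_hh htm hut)
  have i3 := A.integrable I htm hgt
  have h1 : ∫ x, (H.lap t (H.gam t (u t) (u t)) x - 2 * H.hh t (u t) x -
      H.R t x * H.gam t (u t) (u t) x) ∂H.vol t ≤ ∫ x, (H.lap t (H.gam t (u t) (u t)) x +
      (K * H.gam t (u t) (u t) x - 2 * H.hh t (u t) x)) ∂H.vol t := by
    refine integral_mono ((i1.sub (i2.const_mul 2)).sub (A.integrable I htm
      (A.s0_mul (A.s0_R htm) hgt))) (i1.add ((i3.const_mul K).sub (i2.const_mul 2))) fun x => ?_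
    have := A.gam_nonneg t htm hut x
    have := (abs_le.1 (hK t htm x)).1
    simp only
    nlinarith
  rw [int_add A I htm (A.s0_lap htm hgt) (A.s0_sub (A.s0_cmul K hgt)
    (A.s0_cmul 2 (A.s0_hh htm hut))), I.int_lap t htm hgt,
    integral_sub (i3.const_mul K) (i2.const_mul 2), integral_const_mul, integral_const_mul,
    zero_add] at h1
  exact h1

theorem int_nonneg' {μ : Measure M} {f : M → ℝ} (h : ∀ x, 0 ≤ f x) : 0 ≤ ∫ x, f x ∂μ :=
  integral_nonneg h

/-- the heat flow moves little in `L²` -/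
theorem l2_move (A : H.Alg) (I : H.Intg) (E : H.Evo) {a b K : ℝ} (hs : H.St a b) (hK0 : 0 ≤ K)
    (hK : ∀ t ∈ Ioo 0 H.T, ∀ x, |H.R t x| ≤ K) (hb : b - a ≤ 1) {u : ℝ → M → ℝ}
    (hu : H.Heat a b u) : ∀ t ∈ Icc a b, ∫ x, (u t x - u a x) ^ 2 ∂H.vol t ≤
      4 * Real.exp (1 + 2 * K) * (b - a) * ∫ x, H.gam a (u a) (u a) x ∂H.vol a := by
  obtain ⟨g', hg1, hg2⟩ := int_gam_dt A I E hs hK hu
  have hab := sub_pos.2 hs.2.1
  have ha : a ∈ Icc a b := left_mem_Icc.2 hs.2.1.le
  have hua := A.sm_s0 hu.1 a ha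
  have hw := A.sm_sub hu.1 (A.sm_static (a := a) (b := b) hua)
  have hd := (hu.2.sub (HasDt.static (u a))).mul (hu.2.sub (HasDt.static (u a)))
  have hy := I.int_dt hs (A.sm_mul hw hw) hd
  have key := (gron (k := (b - a)⁻¹ + K) (m := 4 * (b - a)) (e := 0) (q := fun _ => 0)
    (p := fun t => ∫ x, H.hh t (u t) x ∂H.vol t) (by positivity) hK0 (by positivity) le_rfl hy hg1
    (fun t _ => int_nonneg' fun x => mul_self_nonneg _)
    (fun t ht => int_nonneg' fun x => A.gam_nonneg t (hs.mem ht) (A.sm_s0 hu.1 t ht) x)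
    (fun t ht => int_nonneg' fun x => E.hh_nonneg t (hs.mem ht) (A.sm_s0 hu.1 t ht) x)
    (fun _ _ => le_rfl) (fun t ht => ?_) hg2).1
  · intro t ht
    have h1 := key t ht
    simp only [sub_self, mul_zero, integral_zero, zero_add, zero_mul, add_zero] at h1
    simp only [sq]
    refine h1.trans ?_
    have h2 : 0 ≤ ∫ x, H.gam a (u a) (u a) x ∂H.vol a :=
      int_nonneg' fun x => A.gam_nonneg a (hs.mem ha) hua x
    have h3 : Real.exp (((b - a)⁻¹ + K) * (b - a)) * Real.exp (K * (b - a)) ≤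
        Real.exp (1 + 2 * K) := by
      rw [← Real.exp_add]
      refine Real.exp_le_exp.2 ?_
      rw [add_mul, inv_mul_cancel₀ hab.ne']
      nlinarith
    calc _ = 4 * (Real.exp (((b - a)⁻¹ + K) * (b - a)) * Real.exp (K * (b - a))) * (b - a) *
          ∫ x, H.gam a (u a) (u a) x ∂H.vol a := by ring
      _ ≤ _ := by gcongr
  · have htm := hs.mem ht
    have hut := A.sm_s0 hu.1 t ht
    have hwt := A.s0_sub hut hua
    have i1 := A.integrable I htm (A.s0_mul hwt hwt)
    have i2 := A.integrable I htm (A.s0_hh htm hut)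
    have hl := A.s0_sub (A.s0_lap htm hut) (A.s0_const 0)
    rw [← integral_const_mul, ← integral_const_mul, ← integral_add (i1.const_mul _)
      (i2.const_mul _), add_zero, sub_zero]
    refine integral_mono (A.integrable I htm (A.s0_sub (A.s0_add (A.s0_mul hl hwt)
      (A.s0_mul hwt hl)) (A.s0_mul (A.s0_R htm) (A.s0_mul hwt hwt))))
      ((i1.const_mul _).add (i2.const_mul _)) fun x => ?_
    have h1 := E.lap_sq t htm hut x
    have h2 := (abs_le.1 (hK t htm x)).1
    set w := u t x - u a x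
    set l := H.lap t (u t) x
    have h3 : 2 * l * w ≤ (b - a)⁻¹ * (w * w) + (b - a) * l ^ 2 := by
      have h4 : 0 ≤ (b - a)⁻¹ * (w - (b - a) * l) ^ 2 := by positivity
      have e : (b - a)⁻¹ * (w - (b - a) * l) ^ 2 =
          (b - a)⁻¹ * (w * w) + (b - a) * l ^ 2 - 2 * l * w := by field_simp; ring
      linarith
    have h5 := mul_le_mul_of_nonneg_left h1 hab.le
    have h6 := mul_self_nonneg w
    simp only
    nlinarith

end Crest.Agent.N207.Ge

end
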