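import Crest.Agent.N207.G.EnSt
import Crest.Agent.N207.C.Cutf

/-!
# Row 207, block G (helper93): few bad scales, regular windows
-/

set_option autoImplicit false
set_option linter.unusedSectionVars false
open Set MeasureTheory Filter Topology
open scoped ContDiff

noncomputable section

namespace Crest.Agent.N207.Ge

open HC

theorem exists_bad (P : ℤ → Prop) (n0 : ℕ) (h : ∀ J : Finset ℤ, (∀ j ∈ J, P j) → J.card ≤ n0) :
    ∃ Bad : Finset ℤ, Bad.card ≤ n0 ∧ ∀ j ∉ Bad, ¬ P j := by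
  have hf : {j | P j}.Finite := by
    by_contra hi
    obtain ⟨J, hJ, hc⟩ := Set.Infinite.exists_subset_card_eq hi (n0 + 1)
    have := h J fun j hj => hJ hj
    omega
  exact ⟨hf.toFinset, h _ fun j hj => by simpa using hj, fun j hj => by simpa using hj⟩

theorem tele {w : ℝ → ℝ} {a b hi : ℝ} (hw : MonotoneOn w (Icc a b))
    (hh : ∀ x ∈ Icc a b, w x ≤ hi) (p q : ℤ → ℝ) (ho : ∀ j k, j < k → q k ≤ p j)
    (J : Finset ℤ) : (∀ j ∈ J, p j ∈ Icc a b ∧ q j ∈ Icc a b) → ∀ x ∈ Icc a b,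
      (∀ j ∈ J, x ≤ p j) → ∑ j ∈ J, (w (q j) - w (p j)) ≤ hi - w x := by
  induction J using Finset.induction_on_max with
  | empty => intro _ x hx _; simpa using hh x hx
  | insert k J hk ih =>
    intro hm x hx hxp
    have hn : k ∉ J := fun h => lt_irrefl _ (hk k h)
    have h1 := hm k (by simp)
    have h2 := ih (fun j hj => hm j (by simp [hj])) (q k) h1.2 fun j hj => ho j k (hk j hj)
    have h3 := hw hx h1.1 (hxp k (by simp))
    rw [Finset.sum_insert hn]
    linarith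

variable {M : Type*} [TopologicalSpace M] [CompactSpace M] [MeasurableSpace M]
  [OpensMeasurableSpace M] {H : HC M}

theorem exists_cs (h : H.Ok) {a t ε : ℝ} (hs : H.St a t) (z : M) (hε : 0 < ε) :
    ∃ τ0 v, H.CS a t z ε τ0 v := by
  obtain ⟨τ, h1, h2, u, u1, u2, u3, u4, u5, u6⟩ :=
    h.bump t ⟨hs.1.trans hs.2.1, hs.2.2⟩ z ε hε
  obtain ⟨v, v1, rfl⟩ := h.solv.conj hs u1
  exact ⟨τ, v, hs, v1, u2, u3, h1, h2, u4, u5, u6⟩

theorem gBad (h : H.Ok) : H.GBad := by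
  intro t0 h0 η hη
  obtain ⟨C, hC, hW⟩ := sol_int_le h h0 1
  refine ⟨⌈(C + 1) / η⌉₊, fun t ht z c e hc he => ?_⟩
  obtain ⟨Bad, b1, b2⟩ := exists_bad (fun j => t0 ≤ t - 2 * (c * 2 ^ j) ^ 2 ∧
    ∀ (ε τ0 : ℝ) (v : ℝ → M → ℝ), ε ≤ e j → H.CS t0 t z ε τ0 v →
      η < H.drop t τ0 v (c * 2 ^ j)) ⌈(C + 1) / η⌉₊ fun J hJ => by
    have hs : H.St t0 t := ⟨h0, ht.1, ht.2⟩
    have e1 : ∀ᶠ ε in 𝓝[>] (0 : ℝ), 0 < ε ∧ ε ≤ 1 ∧ ∀ j ∈ J, ε ≤ e j :=
      eventually_mem_nhdsWithin.and (((eventually_le_nhds one_pos).filter_mono nhdsWithin_le_nhds).and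
        ((Finset.eventually_all J).2 fun j _ =>
          (eventually_le_nhds (he j)).filter_mono nhdsWithin_le_nhds))
    obtain ⟨ε, ε0, ε1, ε2⟩ := e1.exists
    obtain ⟨τ0, v, hv⟩ := exists_cs h hs z ε0
    have hb := hW le_rfl hs hv.conj hv.pos hv.mass hv.t0 (hv.t1.le.trans ε1)
    have hm := h.alg.W_mono h.int h.evo hs hv.conj (h.alg.conj_pos h.evo hs hv.conj hv.pos) hv.t0
    have ha : t0 ∈ Icc t0 t := ⟨le_rfl, ht.1.le⟩
    have := tele hm (fun x hx => (hb x hx).2.trans (hv.hW.trans ε1))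
      (fun j => t - 2 * (c * 2 ^ j) ^ 2) (fun j => t - (c * 2 ^ j) ^ 2) (fun j k hjk => by
        have h1 : (2 : ℝ) ^ (j + 1) ≤ 2 ^ k := zpow_le_zpow_right₀ one_le_two hjk
        rw [zpow_add_one₀ two_ne_zero] at h1
        have h2 : (0 : ℝ) < c * 2 ^ j := by positivity
        have h3 : c * 2 ^ j * 2 ≤ c * 2 ^ k := by rw [mul_assoc]; gcongr
        nlinarith) J (fun j hj => by
        have := (hJ j hj).1
        have h2 := sq_nonneg (c * 2 ^ j)
        exact ⟨⟨this, by linarith⟩, by linarith, by linarith⟩) t0 ha fun j hj => (hJ j hj).1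
    have h1 : (J.card : ℝ) * η ≤ C + 1 := by
      have h2 := Finset.card_nsmul_le_sum J (fun j => H.drop t τ0 v (c * 2 ^ j)) η
        fun j hj => ((hJ j hj).2 ε τ0 v (ε2 j hj) hv).le
      rw [nsmul_eq_mul] at h2
      have h3 := (hb t0 ha).1
      exact h2.trans (this.trans (by linarith))
    exact_mod_cast ((le_div_iff₀ hη).2 h1).trans (Nat.le_ceil _)
  refine ⟨Bad, b1, fun j hj hw => ?_⟩
  have := b2 j hj
  push Not at this
  exact this hw

theorem isClosed_An (h : H.Ok) {t : ℝ} (ht : t ∈ Ioo 0 H.T) (z : M) (r R : ℝ) :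
    IsClosed (H.An t z r R) :=
  (isClosed_le continuous_const (h.dist.cont t ht z)).inter
    (isClosed_le (h.dist.cont t ht z) continuous_const)

theorem gBadE (h : H.Ok) (D : H.DGlob) : H.GBadE := by
  intro t0 h0 ε0 hε Λ hΛ
  obtain ⟨E, hE, hb, -⟩ := D t0 h0
  obtain ⟨m, hm⟩ := pow_unbounded_of_one_lt (Λ ^ 2) (one_lt_two (α := ℝ))
  refine ⟨⌈(2 * m + 1) * E / ε0⌉₊, fun t ht z => ?_⟩
  have ht' : t ∈ Ioo 0 H.T := ⟨h0.trans_le ht.1, ht.2⟩
  have hi := h.alg.integrable h.int ht' (h.alg.s0_N ht' 0)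
  have hn := h.evo.N_nonneg 0 t ht'
  set An : ℤ → Set M := fun j => H.An t z (2 ^ j / Λ) (Λ * 2 ^ j) with hAn
  have hA : ∀ j, MeasurableSet (An j) := fun j => (isClosed_An h ht' z _ _).measurableSet
  obtain ⟨Bad, b1, b2⟩ := exists_bad (fun j => ε0 < ∫ y in An j, H.N 0 t y ∂H.vol t)
    ⌈(2 * m + 1) * E / ε0⌉₊ fun J hJ => by
    classical
    have key : ∀ j k : ℤ, ∀ y, y ∈ An j → y ∈ An k → j ≤ k + m := fun j k y h1 h2 => by
      have h3 : (2 : ℝ) ^ j ≤ Λ ^ 2 * 2 ^ k := by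
        have := (div_le_iff₀ (by linarith)).1 (h1.1.trans h2.2)
        linarith
      have h4 : (2 : ℝ) ^ j ≤ 2 ^ (k + m) := by
        rw [zpow_add₀ two_ne_zero, zpow_natCast, mul_comm]
        exact h3.trans (by gcongr)
      exact (zpow_le_zpow_iff_right₀ one_lt_two).1 h4
    have h1 : ∀ y, ∑ j ∈ J, (An j).indicator (H.N 0 t) y ≤ (2 * m + 1) * H.N 0 t y := fun y => by
      simp only [indicator_apply]
      rw [← Finset.sum_filter, Finset.sum_const, nsmul_eq_mul]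
      refine mul_le_mul_of_nonneg_right ?_ (hn y)
      rcases (J.filter fun j => y ∈ An j).eq_empty_or_nonempty with he | ⟨k, hk⟩
      · rw [he]; simp; positivity
      · have hk' := (Finset.mem_filter.1 hk).2
        have := Finset.card_le_card (s := J.filter fun j => y ∈ An j)
          (t := Finset.Icc (k - m) (k + m)) fun j hj => by
          have hj' := (Finset.mem_filter.1 hj).2
          have := key j k y hj' hk'
          have := key k j y hk' hj'
          exact Finset.mem_Icc.2 ⟨by linarith, by linarith⟩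
        rw [Int.card_Icc] at this
        have e : (k + m + 1 - (k - m)).toNat = 2 * m + 1 := by omega
        rw [e] at this
        exact_mod_cast this
    have h2 := Finset.card_nsmul_le_sum J _ ε0 fun j hj => (hJ j hj).le
    rw [nsmul_eq_mul] at h2
    simp only [← integral_indicator (hA _)] at h2
    rw [← integral_finsetSum _ fun j _ => hi.indicator (hA j)] at h2
    have h3 := integral_mono (integrable_finsetSum _ fun j _ => hi.indicator (hA j))
      (hi.const_mul _) h1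
    rw [integral_const_mul] at h3
    have h4 : (2 * m + 1 : ℝ) * ∫ y, H.N 0 t y ∂H.vol t ≤ (2 * m + 1) * E := by
      gcongr; exact hb t ht
    exact_mod_cast ((le_div_iff₀ hε).2 (h2.trans (h3.trans h4))).trans (Nat.le_ceil _)
  refine ⟨Bad, b1, fun j hj x r hs => le_trans ?_ (not_lt.1 (b2 j hj))⟩
  exact setIntegral_mono_set hi.integrableOn (Eventually.of_forall hn) hs.eventuallyLE

theorem sqrt_le_div {x C r : ℝ} (hr : 0 < r) (k : ℕ) (h : x ≤ C / r ^ (2 * k)) :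
    √x ≤ √C / r ^ k := by
  refine (Real.sqrt_le_sqrt h).trans (le_of_eq ?_)
  rw [Real.sqrt_div' _ (by positivity), mul_comm, pow_mul, Real.sqrt_sq (by positivity)]

theorem gRegE (h : H.Ok) (E : H.EStatB) : H.GRegE := by
  intro t0 h0
  obtain ⟨ε0, c, r0, hε, hc, hr0, -, hk⟩ := E t0 h0
  obtain ⟨C0, hC0, k0⟩ := hk 0
  obtain ⟨C1, hC1, k1⟩ := hk 1
  have s0 := Real.sqrt_pos.2 hC0
  have s1 := Real.sqrt_pos.2 hC1
  refine ⟨ε0, √C0, hε, s0.le, fun l δ hl hδ => ⟨min (min (r0 / l) (c * l / 2))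
    (min (δ * l / √C0) (δ * l ^ 2 / √C1)), by positivity, fun t ht s Ω hs hβ hen σ hσ x hx => ?_⟩⟩
  simp only [le_min_iff] at hβ
  obtain ⟨⟨b1, b2⟩, b3, b4⟩ := hβ
  have ht' : t ∈ Ioo 0 H.T := ⟨h0.trans_le ht.1, ht.2⟩
  have hr : 0 < l * s := by positivity
  have hx' : x ∈ H.B t x (l * s / 2) := by
    show H.d t x x < _
    rw [h.dist.self t ht']; positivity
  have a1 : l * s ≤ r0 := by rwa [le_div_iff₀' hl] at b1
  have a2 : t - σ ≤ c * (l * s) := by nlinarith [hσ.1]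
  obtain ⟨n0, q0⟩ := k0 t ht x _ hr a1 (hen x hx) x hx' σ hσ.2 a2
  obtain ⟨-, q1⟩ := k1 t ht x _ hr a1 (hen x hx) x hx' σ hσ.2 a2
  refine ⟨(sqrt_le_div hr 2 n0).trans (le_of_eq (by field_simp)),
    (sqrt_le_div hr 1 q0).trans ?_, (sqrt_le_div hr 2 q1).trans ?_⟩
  · rw [le_div_iff₀ s0] at b3
    rw [div_le_div_iff₀ (by positivity) (by positivity)]
    nlinarith
  · rw [le_div_iff₀ s1] at b4
    rw [div_le_div_iff₀ (by positivity) (by positivity)]
    nlinarith [mul_le_mul_of_nonneg_right b4 (sq_nonneg s)]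

end Crest.Agent.N207.Ge

end
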