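import Crest.Agent.N207.G.EnB
import Crest.Agent.N207.E.MV

/-!
# Row 207, block G, entropy half (helper23): the Hessian of the smoothed potential
-/

set_option autoImplicit false
set_option linter.dupNamespace false
set_option linter.unusedSectionVars false
open Set MeasureTheory Filter Topology
open scoped ContDiff

noncomputable section

namespace Crest.Agent.N207.Ge

open HC

variable {M : Type*} [TopologicalSpace M] [CompactSpace M] [MeasurableSpace M]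
  [OpensMeasurableSpace M] {H : HC M}

/-- the data of the smoothing step -/
structure HD (H : HC M) (t s σ θ F B δ η : ℝ) (χ : M → ℝ) (u : ℝ → M → ℝ) : Prop where
  st : H.St (t - 2 * s ^ 2) t
  s0 : 0 < s
  s1 : s ≤ 1 / 2
  σ1 : σ ∈ Icc (t - 2 * s ^ 2) (t - s ^ 2)
  θ0 : 0 < θ
  θ1 : θ ≤ 1 / 2
  heat : H.Heat σ (σ + θ * s ^ 2) u
  δ0 : 0 ≤ δ
  δ1 : δ ≤ 1 / 4
  η0 : 0 ≤ η
  reg : H.Reg t s B δ {x | χ x ≠ 0}
  sχ : H.S0 χ
  χ0 : ∀ x, 0 ≤ χ x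
  bd : ∀ x, |u σ x| ≤ F * s ^ 2
  en : ∫ x, H.gam σ (u σ) (u σ) x ∂H.vol σ ≤ F * s ^ 6
  vol : ∀ r ∈ Icc (t - 2 * s ^ 2) t, ∫ x, χ x ∂H.vol r ≤ F * s ^ 4
  ini : ∀ φ : M → ℝ, H.S0 φ → (∀ x, 0 ≤ φ x ∧ φ x ≤ 1) →
    (∀ x, φ x ≠ 0 → χ =ᶠ[𝓝 x] fun _ => 1) →
      ∫ x, φ x ^ 2 * H.Pc 2 σ (u σ) x ∂H.vol σ ≤ η * s ^ 4

/-- the third derivatives of a heat solution -/
structure HG (H : HC M) (C a b : ℝ) (u G P' : ℝ → M → ℝ) : Prop where
  sG : H.Sm a b G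
  G0 : ∀ t ∈ Icc a b, ∀ x, 0 ≤ G t x
  ric : ∀ t ∈ Icc a b, ∀ x, H.N 0 t x * H.gam t (u t) (u t) x ≤
    C * (G t x + H.Q 0 t x * H.gam t (u t) (u t) x)
  kato : ∀ t ∈ Icc a b, ∀ x,
    H.gam t (H.Pc 2 t (u t)) (H.Pc 2 t (u t)) x ≤ 4 * H.Pc 2 t (u t) x * G t x
  dP : HasDt a b (fun t => H.Pc 2 t (u t)) P'
  ev : ∀ t ∈ Icc a b, ∀ x, P' t x - H.lap t (H.Pc 2 t (u t)) x ≤ -2 * G t x +
    C * (√(H.N 0 t x) * H.Pc 2 t (u t) x + 2 * √(H.Q 0 t x) * √(H.Pc 2 t (u t) x))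

theorem exists_HG (A : H.Alg) (He : H.Hes) : ∃ C, 0 ≤ C ∧ ∀ {a b : ℝ} {u : ℝ → M → ℝ},
    H.St a b → H.Heat a b u → ∃ G P', HG H C a b u G P' := by
  obtain ⟨C, hC0, hC⟩ := He.heat
  refine ⟨C, hC0, fun hs hu => ?_⟩
  obtain ⟨G, g1, g2, g3, g4⟩ := hC hs hu
  obtain ⟨P', -, hP⟩ := A.sm_dt hs.2.1 (sm_Pc A hs hu.1 2)
  exact ⟨G, P', g1, g2, g3, (g4 2).1, hP, fun t ht x => by
    simpa using (g4 2).2 P' hP t ht x⟩

namespace HD

variable {t s σ θ F B δ η : ℝ} {χ : M → ℝ} {u : ℝ → M → ℝ}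

theorem win (D : HD H t s σ θ F B δ η χ u) : σ < σ + θ * s ^ 2 ∧ σ + θ * s ^ 2 < t ∧
    θ * s ^ 2 ≤ 1 := by
  have := D.s0; have := D.θ0; have := D.θ1; have := D.s1; have := D.σ1.2
  have h : 0 < θ * s ^ 2 := by positivity
  refine ⟨by linarith, by nlinarith, by nlinarith⟩

theorem st' (D : HD H t s σ θ F B δ η χ u) : H.St σ (σ + θ * s ^ 2) :=
  D.st.mono D.σ1.1 D.win.1 D.win.2.1.le

theorem sub (D : HD H t s σ θ F B δ η χ u) : Icc σ (σ + θ * s ^ 2) ⊆ Icc (t - 2 * s ^ 2) t :=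
  Icc_subset_Icc D.σ1.1 D.win.2.1.le

theorem tm (D : HD H t s σ θ F B δ η χ u) : t ∈ Icc (t - 2 * s ^ 2) t :=
  right_mem_Icc.2 D.st.2.1.le

theorem kb (D : HD H t s σ θ F B δ η χ u) : δ / s ^ 2 * (t - (t - 2 * s ^ 2)) ≤ 1 / 2 := by
  have := D.s0
  have e : δ / s ^ 2 * (t - (t - 2 * s ^ 2)) = 2 * δ := by field_simp; ring
  linarith [D.δ1]

theorem gam_cmp (A : H.Alg) (E : H.Evo) (D : HD H t s σ θ F B δ η χ u) {w : M → ℝ} (hw : H.S0 w)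
    {x : M} (hx : χ x ≠ 0) {r r' : ℝ} (hr : r ∈ Icc (t - 2 * s ^ 2) t)
    (hr' : r' ∈ Icc (t - 2 * s ^ 2) t) : H.gam r w w x ≤ 4 * H.gam r' w w x :=
  Ge.gam_cmp A E D.st hw (fun ρ hρ => (D.reg ρ hρ x hx).2.1) D.kb hr hr'

theorem src (D : HD H t s σ θ F B δ η χ u) {x : M} (hx : χ x ≠ 0) {r P : ℝ}
    (hr : r ∈ Icc (t - 2 * s ^ 2) t) (hP : 0 ≤ P) :
    √(H.N 0 r x) * P + 2 * √(H.Q 0 r x) * √P ≤ (B + 1) / s ^ 2 * P + δ / s ^ 2 := by
  obtain ⟨h1, h2, -⟩ := D.reg r hr x hx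
  have hs := D.s0
  have h3 : 2 * √P ≤ P + 1 := by nlinarith [Real.sq_sqrt hP, sq_nonneg (√P - 1)]
  have h4 : √(H.Q 0 r x) * (2 * √P) ≤ δ / s ^ 2 * (P + 1) :=
    mul_le_mul h2 h3 (by positivity) (div_nonneg D.δ0 (by positivity))
  have h5 : δ / s ^ 2 * P ≤ 1 / s ^ 2 * P := by gcongr; linarith [D.δ1]
  have h6 := mul_le_mul_of_nonneg_right h1 hP
  have e : (B + 1) / s ^ 2 * P = B / s ^ 2 * P + 1 / s ^ 2 * P := by ring
  nlinarith

/-- gradient bound in the second half of the window -/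
theorem gam_le (A : H.Alg) (E : H.Evo) (D : HD H t s σ θ F B δ η χ u) {r : ℝ}
    (hr : r ∈ Icc (σ + θ * s ^ 2 / 2) (σ + θ * s ^ 2)) (x : M) :
    H.gam r (u r) (u r) x ≤ F ^ 2 / θ * s ^ 2 := by
  have hs := D.s0
  have hθ := D.θ0
  have h0 : 0 < θ * s ^ 2 := by positivity
  have hr' : r ∈ Icc σ (σ + θ * s ^ 2) := ⟨by linarith [hr.1], hr.2⟩
  have h1 := rev_bern A E D.st' D.heat D.bd r hr' x
  have h2 := A.gam_nonneg r (D.st'.mem hr') (A.sm_s0 D.heat.1 r hr') x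
  have h3 : θ * s ^ 2 * H.gam r (u r) (u r) x ≤ (F * s ^ 2) ^ 2 := by
    nlinarith [hr.1, sq_nonneg (u r x)]
  rw [div_mul_eq_mul_div, le_div_iff₀ hθ]
  have h4 : s ^ 2 * (H.gam r (u r) (u r) x * θ) ≤ s ^ 2 * (F ^ 2 * s ^ 2) := by nlinarith
  exact le_of_mul_le_mul_left h4 (by positivity)

end HD

theorem pw1 {φ c γ P G : ℝ} (γ0 : 0 ≤ γ) (p0 : 0 ≤ P) (g0 : 0 ≤ G)
    (h3 : c ^ 2 ≤ γ * (4 * P * G)) : -(2 * φ * c) ≤ φ ^ 2 * G + 4 * γ * P := by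
  have h2 : (2 * φ * c) ^ 2 ≤ (φ ^ 2 * G + 4 * γ * P) ^ 2 := by
    nlinarith [mul_le_mul_of_nonneg_left h3 (sq_nonneg φ), sq_nonneg (φ ^ 2 * G - 4 * γ * P)]
  exact (neg_le_abs _).trans (abs_le_of_sq_le_sq' h2 (by positivity) |> abs_le.2)

theorem pw2 {φ γ P a m hh d g g' : ℝ} (p0 : 0 ≤ P) (m0 : 0 ≤ m) (g0 : 0 ≤ g) (hγ : γ = d ^ 2 * g)
    (h1 : g ≤ 4 * g') (h2 : g' ≤ 1) (h3 : d ^ 2 ≤ 2 * a * φ ^ 2 + m)
    (h4 : P ≤ 2 * hh + 8 * 2 ^ 2) :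
    4 * γ * P ≤ 32 * a * (φ ^ 2 * P) + 32 * m * hh + 512 * m * 1 := by
  have h5 : γ ≤ 4 * (2 * a * φ ^ 2 + m) := by rw [hγ]; nlinarith [sq_nonneg d]
  nlinarith [mul_le_mul_of_nonneg_right h5 p0, mul_le_mul_of_nonneg_left h4 m0]

theorem pw3 {φ D G C S k1 k2 P : ℝ} (hC : 0 ≤ C) (hk2 : 0 ≤ k2) (φ0 : 0 ≤ φ) (φ1 : φ ≤ 1)
    (h1 : D ≤ -2 * G + C * S) (h2 : S ≤ k1 * P + k2) :
    φ ^ 2 * D ≤ -2 * (φ ^ 2 * G) + C * k1 * (φ ^ 2 * P) + C * k2 * 1 := by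
  have h3 : D ≤ -2 * G + C * (k1 * P + k2) := by nlinarith [mul_le_mul_of_nonneg_left h2 hC]
  have h4 := mul_le_mul_of_nonneg_left h3 (sq_nonneg φ)
  have h5 : φ ^ 2 ≤ 1 := by nlinarith
  nlinarith [mul_le_mul_of_nonneg_left h5 (mul_nonneg hC hk2)]

theorem pw4 {φ c γ P G l P' R χ hh a m k1 k2 K : ℝ} (p0 : 0 ≤ P) (hR : -K ≤ R)
    (b1 : -(2 * φ * c) ≤ φ ^ 2 * G + 4 * γ * P)
    (b2 : 4 * γ * P ≤ a * (φ ^ 2 * P) + 32 * m * hh + 512 * m * χ)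
    (b3 : φ ^ 2 * (P' - l) ≤ -2 * (φ ^ 2 * G) + k1 * (φ ^ 2 * P) + k2 * χ) :
    0 * P + φ ^ 2 * P' - R * (φ ^ 2 * P) ≤ φ ^ 2 * l + 2 * φ * c +
      ((a + k1 + K) * (φ ^ 2 * P) + 32 * m * hh + (512 * m + k2) * χ - φ ^ 2 * G) := by
  have b4 : 0 ≤ φ ^ 2 * P := by positivity
  nlinarith [mul_le_mul_of_nonneg_right hR b4]

set_option maxHeartbeats 1000000 in
/-- the weighted energy estimate for `|Hess u - 2 g|²` -/
theorem wen (h : H.Ok) {C F B l : ℝ} (hC : 0 ≤ C) (hF : 0 ≤ F) (hB : 0 ≤ B) (hl : 0 < l) :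
    ∃ F', 1 ≤ F' ∧ ∀ {t s σ θ δ η : ℝ} {χ : M → ℝ} {u G P' : ℝ → M → ℝ},
      HD H t s σ θ F B δ η χ u → HG H C σ (σ + θ * s ^ 2) u G P' → ∀ (x0 : M) (r : ℝ),
      (∀ y, H.d t x0 y < r + l * s → χ y = 1) →
      ∃ φ : M → ℝ, H.S0 φ ∧ (∀ x, 0 ≤ φ x ∧ φ x ≤ 1) ∧ (∀ x, H.d t x0 x < r → φ x = 1) ∧
        (∀ x, φ x ≠ 0 → χ x = 1) ∧
        (∀ ρ ∈ Icc σ (σ + θ * s ^ 2), ∫ x, φ x ^ 2 * H.Pc 2 ρ (u ρ) x ∂H.vol ρ ≤
          F' * (η + δ + Real.exp (-(l / (2 * √θ)))) * s ^ 4) ∧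
        ∃ ρ ∈ Icc (σ + θ * s ^ 2 / 2) (σ + θ * s ^ 2), ∫ x, φ x ^ 2 * G ρ x ∂H.vol ρ ≤
          F' * (η + δ + Real.exp (-(l / (2 * √θ)))) / θ * s ^ 2 := by
  have A := h.alg
  have I := h.int
  have E := h.evo
  obtain ⟨K, hK⟩ := E.R_bd
  obtain ⟨Kw, hKw, hW⟩ := exists_weight
  have hK' : ∀ t ∈ Ioo 0 H.T, ∀ x, |H.R t x| ≤ |K| := fun t ht x => (hK t ht x).trans (le_abs_self K)
  set k0 := 32 + C * (B + 1) + |K| with hk0
  set F1 := 1 + 32 * Kw / l ^ 2 * Real.exp |K| * F + 2 * (512 * Kw / l ^ 2 * F + C * F) with hF1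
  have hF1' : 1 ≤ F1 := by
    have : 0 ≤ 32 * Kw / l ^ 2 * Real.exp |K| * F + 2 * (512 * Kw / l ^ 2 * F + C * F) := by
      positivity
    linarith
  refine ⟨2 * Real.exp k0 * F1, by nlinarith [Real.one_le_exp (show 0 ≤ k0 by positivity)], ?_⟩
  intro t s σ θ δ η χ u G P' D g x0 r hχ
  have hs := D.s0
  have hθ := D.θ0
  have hδ := D.δ0
  have hη := D.η0
  have hsq : 0 < √θ := Real.sqrt_pos.2 hθ
  have htm := D.st.mem D.tm
  obtain ⟨U, hU, hU1, hU2⟩ := h.dist.approx t htm x0 (l * s / 16) (by positivity)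
  obtain ⟨Ξ, c1, c2, c3, c4, c5, c6⟩ := hW r (l * s) (1 / (√θ * s)) (by positivity) (by positivity)
  set X := Real.exp (-(l / (2 * √θ))) with hX
  have hX0 : 0 < X := Real.exp_pos _
  have eX : Real.exp (-(1 / (√θ * s) * (l * s) / 2)) = X := by
    rw [hX]; congr 2; field_simp
  have hlam : (1 / (√θ * s)) ^ 2 = 1 / (θ * s ^ 2) := by
    rw [div_pow, mul_pow, Real.sq_sqrt hθ.le, one_pow]
  rw [eX, hlam] at c6
  have hφ : H.S0 fun x => Ξ (U x) := A.s0_compU c1 hU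
  have hin : ∀ x, U x ≤ r + 3 * (l * s) / 4 → H.d t x0 x < r + l * s := fun x hx => by
    have := (abs_le.1 (hU2 x)).1
    have : 0 < l * s := by positivity
    linarith
  have hne : ∀ x, Ξ (U x) ≠ 0 → H.d t x0 x < r + l * s := fun x hx =>
    hin x (le_of_lt (not_le.1 fun hc => hx (c4 _ hc)))
  have hini := D.ini _ hφ (fun x => c2 _) fun x hx =>
    Filter.mem_of_superset ((isOpen_lt (h.dist.cont t htm x0) continuous_const).mem_nhds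
      (hne x hx)) fun y hy => hχ y hy
  have hφ2 := A.s0_pow 2 hφ
  have hsP := sm_Pc A D.st' D.heat.1 2
  have hy := I.int_dt D.st' (A.sm_mul (A.sm_static hφ2) hsP) ((HasDt.static _).mul g.dP)
  obtain ⟨g', hg1, hg2⟩ := int_gam_dt A I E D.st' hK' D.heat
  set m' := Kw / (l * s) ^ 2 * X with hm'
  have hm0 : 0 ≤ m' := by positivity
  set k := 32 / (θ * s ^ 2) + C * ((B + 1) / s ^ 2) + |K| with hk
  set e := (512 * m' + C * (δ / s ^ 2)) * (F * s ^ 4) with he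
  have key := gron (k := k) (m := 32 * m') (e := e)
    (q := fun ρ => ∫ x, Ξ (U x) ^ 2 * G ρ x ∂H.vol ρ)
    (p := fun ρ => ∫ x, H.hh ρ (u ρ) x ∂H.vol ρ) (by positivity) (abs_nonneg K) (by positivity)
    (by positivity) hy hg1
    (fun ρ hρ => int_nonneg' fun x => mul_nonneg (sq_nonneg _)
      (Pc_nonneg E (D.st'.mem hρ) (A.sm_s0 D.heat.1 ρ hρ) 2 x))
    (fun ρ hρ => int_nonneg' fun x => A.gam_nonneg ρ (D.st'.mem hρ) (A.sm_s0 D.heat.1 ρ hρ) x)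
    (fun ρ hρ => int_nonneg' fun x => E.hh_nonneg ρ (D.st'.mem hρ) (A.sm_s0 D.heat.1 ρ hρ) x)
    (fun ρ hρ => int_nonneg' fun x => mul_nonneg (sq_nonneg _) (g.G0 ρ hρ x))
    (fun ρ hρ => by
      have hm := D.st'.mem hρ
      have huρ := A.sm_s0 D.heat.1 ρ hρ
      have hP := s0_Pc A hm huρ 2
      have hG := A.sm_s0 g.sG ρ hρ
      have hP' := A.sm_s0 (A.sm_of_dt D.win.1 hsP g.dP) ρ hρ
      have hibp := I.ibp ρ hm hφ2 hP
      have s1 := A.s0_mul hφ2 (A.s0_lap hm hP)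
      have s2 := A.s0_gam hm hφ2 hP
      have s3 := A.s0_cmul k (A.s0_mul hφ2 hP)
      have s4 := A.s0_cmul (32 * m') (A.s0_hh hm huρ)
      have s5 := A.s0_cmul (512 * m' + C * (δ / s ^ 2)) D.sχ
      have s6 := A.s0_mul hφ2 hG
      have h1 := int_mono A I hm (A.s0_sub (A.s0_add (A.s0_mul (A.s0_const 0) hP)
        (A.s0_mul hφ2 hP')) (A.s0_mul (A.s0_R hm) (A.s0_mul hφ2 hP)))
        (A.s0_add (A.s0_add s1 s2) (A.s0_sub (A.s0_add (A.s0_add s3 s4) s5) s6)) fun x => by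
          have p0 := Pc_nonneg E hm huρ 2 x
          have g0 := g.G0 ρ hρ x
          have χ0 := D.χ0 x
          have hh0 := E.hh_nonneg ρ hm huρ x
          have hR := (abs_le.1 (hK' ρ hm x)).1
          have e1 : H.gam ρ (fun x => Ξ (U x) ^ 2) (H.Pc 2 ρ (u ρ)) x =
              2 * Ξ (U x) * H.gam ρ (fun x => Ξ (U x)) (H.Pc 2 ρ (u ρ)) x := by
            simp only [sq]
            rw [A.gam_mul ρ hm hφ hφ hP]
            ring
          rw [e1]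
          have cs := A.gam_sq hm hφ hP x
          have γ0 := A.gam_nonneg ρ hm hφ x
          refine pw4 p0 hR (pw1 γ0 p0 g0
            (cs.trans (mul_le_mul_of_nonneg_left (g.kato ρ hρ x) γ0))) ?_ ?_
          · by_cases hx : U x ≤ r + 3 * (l * s) / 4
            · have hχ1 := hχ x (hin x hx)
              have h2 := D.gam_cmp A E hU (x := x) (by rw [hχ1]; norm_num) (D.sub hρ) D.tm
              rw [hχ1, div_eq_mul_one_div 32]
              exact pw2 p0 hm0 (A.gam_nonneg ρ hm hU x) (A.gam_compU2 hm c1 hU x) h2 (hU1 x)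
                (c6 (U x)) (Pc_le_hh E hm huρ 2 x)
            · rw [A.gam_compU2 hm c1 hU, c5 _ (not_le.1 hx)]
              simp only [ne_eq, OfNat.ofNat_ne_zero, not_false_eq_true, zero_pow, zero_mul,
                mul_zero]
              positivity
          · by_cases hx : Ξ (U x) = 0
            · rw [hx]
              simp only [ne_eq, OfNat.ofNat_ne_zero, not_false_eq_true, zero_pow,
                zero_mul, mul_zero, add_zero, zero_add]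
              positivity
            · have hχ1 := hχ x (hne x hx)
              rw [hχ1]
              exact pw3 hC (by positivity) (c2 _).1 (c2 _).2 (g.ev ρ hρ x)
                (D.src (x := x) (by rw [hχ1]; norm_num) (D.sub hρ) p0)
      rw [int_add A I hm (A.s0_add s1 s2) (A.s0_sub (A.s0_add (A.s0_add s3 s4) s5) s6),
        int_add A I hm s1 s2, hibp, int_sub A I hm (A.s0_add (A.s0_add s3 s4) s5) s6,
        int_add A I hm (A.s0_add s3 s4) s5, int_add A I hm s3 s4, integral_const_mul,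
        integral_const_mul, integral_const_mul] at h1
      have h7 := mul_le_mul_of_nonneg_left (D.vol ρ (D.sub hρ))
        (show 0 ≤ 512 * m' + C * (δ / s ^ 2) by positivity)
      linarith) hg2
  have hw := D.win
  have e0 : σ + θ * s ^ 2 - σ = θ * s ^ 2 := by ring
  rw [e0] at key
  have hθs : 0 < θ * s ^ 2 := by positivity
  have hek : Real.exp (k * (θ * s ^ 2)) ≤ Real.exp k0 := by
    refine Real.exp_le_exp.2 ?_
    have e1 : k * (θ * s ^ 2) = 32 + C * (B + 1) * θ + |K| * (θ * s ^ 2) := by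
      rw [hk]; field_simp
    have := mul_le_mul_of_nonneg_left hw.2.2 (abs_nonneg K)
    have : C * (B + 1) * θ ≤ C * (B + 1) * 1 := by gcongr; linarith [D.θ1]
    linarith
  have heK : Real.exp (|K| * (θ * s ^ 2)) ≤ Real.exp |K| :=
    Real.exp_le_exp.2 (by nlinarith [abs_nonneg K, hw.2.2])
  have hg0 : 0 ≤ ∫ x, H.gam σ (u σ) (u σ) x ∂H.vol σ := int_nonneg' fun x =>
    A.gam_nonneg σ (D.st'.mem (left_mem_Icc.2 hw.1.le))
      (A.sm_s0 D.heat.1 σ (left_mem_Icc.2 hw.1.le)) x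
  have he0 : 0 ≤ e := by positivity
  have tot : ∫ x, Ξ (U x) ^ 2 * H.Pc 2 σ (u σ) x ∂H.vol σ + 32 * m' * Real.exp (|K| * (θ * s ^ 2)) *
      ∫ x, H.gam σ (u σ) (u σ) x ∂H.vol σ + 2 * e * (θ * s ^ 2) ≤ F1 * (η + δ + X) * s ^ 4 := by
    have a1 : 32 * m' * Real.exp (|K| * (θ * s ^ 2)) * ∫ x, H.gam σ (u σ) (u σ) x ∂H.vol σ ≤
        32 * m' * Real.exp |K| * (F * s ^ 6) := by gcongr; exact D.en
    have a2 : 2 * e * (θ * s ^ 2) ≤ 2 * e * (1 * s ^ 2) := by gcongr; linarith [D.θ1]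
    have a3 : 32 * m' * Real.exp |K| * (F * s ^ 6) =
        32 * Kw / l ^ 2 * Real.exp |K| * F * X * s ^ 4 := by rw [hm']; field_simp
    have a4 : 2 * e * (1 * s ^ 2) = 2 * (512 * Kw / l ^ 2 * F * X + C * F * δ) * s ^ 4 := by
      rw [he, hm']; field_simp
    have a5 : η + 32 * Kw / l ^ 2 * Real.exp |K| * F * X + 2 * (512 * Kw / l ^ 2 * F * X +
        C * F * δ) ≤ F1 * (η + δ + X) := by
      have b1 : 0 ≤ 32 * Kw / l ^ 2 * Real.exp |K| * F := by positivity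
      have b2 : 0 ≤ 512 * Kw / l ^ 2 * F := by positivity
      have b3 : 0 ≤ C * F := by positivity
      rw [hF1]
      nlinarith [mul_nonneg b1 hη, mul_nonneg b1 hδ, mul_nonneg b2 hη, mul_nonneg b2 hδ,
        mul_nonneg b3 hη, mul_nonneg b3 hX0.le]
    have a6 := mul_le_mul_of_nonneg_right a5 (by positivity : 0 ≤ s ^ 4)
    nlinarith
  have hpos : 0 ≤ F1 * (η + δ + X) * s ^ 4 := by positivity
  refine ⟨_, hφ, fun x => c2 _, fun x hx => c3 _ (by linarith [(abs_le.1 (hU2 x)).2]),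
    fun x hx => hχ x (hne x hx), fun ρ hρ => ?_, ?_⟩
  · refine (key.1 ρ hρ).trans ?_
    calc _ ≤ Real.exp k0 * (F1 * (η + δ + X) * s ^ 4) :=
          mul_le_mul hek (by nlinarith [mul_nonneg he0 hθs.le]) (by
            have := int_nonneg' (μ := H.vol σ) fun x => mul_nonneg (sq_nonneg (Ξ (U x)))
              (Pc_nonneg E (D.st'.mem (left_mem_Icc.2 hw.1.le))
                (A.sm_s0 D.heat.1 σ (left_mem_Icc.2 hw.1.le)) 2 x)
            positivity) (Real.exp_pos _).le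
      _ ≤ _ := by nlinarith [mul_nonneg (Real.exp_pos k0).le hpos]
  · obtain ⟨ρ, hρ, h1⟩ := key.2 (σ + θ * s ^ 2 / 2) (by linarith) (by linarith)
    refine ⟨ρ, hρ, ?_⟩
    have h2 := h1.trans (mul_le_mul hek tot (by
      have := int_nonneg' (μ := H.vol σ) fun x => mul_nonneg (sq_nonneg (Ξ (U x)))
        (Pc_nonneg E (D.st'.mem (left_mem_Icc.2 hw.1.le))
          (A.sm_s0 D.heat.1 σ (left_mem_Icc.2 hw.1.le)) 2 x)
      positivity) (Real.exp_pos _).le)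
    rw [div_mul_eq_mul_div, le_div_iff₀ hθ]
    refine le_of_mul_le_mul_left (a := s ^ 2 / 2) ?_ (by positivity)
    nlinarith

end Crest.Agent.N207.Ge

end
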