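import Crest.Agent.N207.G.EnS

/-!
# Row 207, block G, entropy half (helper91): the cone function is the square of the distance
-/

set_option autoImplicit false
set_option linter.dupNamespace false
set_option linter.unusedSectionVars false
open Set MeasureTheory Filter Topology
open scoped ContDiff

noncomputable section

namespace Crest.Agent.N207.Ge

open HC

variable {M : Type*} [TopologicalSpace M] [CompactSpace M] [MeasurableSpace M]
  [OpensMeasurableSpace M] {H : HC M}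

/-- a smooth extension of `√(y + 2 c)` from `y > -c` -/
theorem sd_phi {c : ℝ} (hc : 0 < c) : ∃ φ : ℝ → ℝ, ContDiff ℝ ∞ φ ∧ (∀ y, 0 ≤ φ y) ∧
    ∀ y, -c < y → φ y = √(y + 2 * c) ∧ deriv φ y = 1 / (2 * √(y + 2 * c)) := by
  set χ : ℝ → ℝ := fun y => Real.smoothTransition ((y + 3 / 2 * c) / (c / 2)) with hχ
  have cχ : ContDiff ℝ ∞ χ := Real.smoothTransition.contDiff.comp (by fun_prop)
  have p : ∀ y, 0 < χ y * (y + 2 * c) + (1 - χ y) * c := fun y => by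
    have h0 : 0 ≤ χ y := Real.smoothTransition.nonneg _
    have h1 : χ y ≤ 1 := Real.smoothTransition.le_one _
    rcases le_total y (-(3 / 2 * c)) with hy | hy
    · have : χ y = 0 := Real.smoothTransition.zero_of_nonpos
        (div_nonpos_of_nonpos_of_nonneg (by linarith) (by positivity))
      rw [this]; linarith
    · nlinarith [mul_nonneg h0 (show 0 ≤ y + 3 / 2 * c by linarith)]
  have e : ∀ y, -c < y → √(χ y * (y + 2 * c) + (1 - χ y) * c) = √(y + 2 * c) := fun y hy => by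
    have : χ y = 1 := Real.smoothTransition.one_of_one_le
      (by rw [le_div_iff₀ (by positivity)]; linarith)
    rw [this]; congr 1; ring
  refine ⟨fun y => √(χ y * (y + 2 * c) + (1 - χ y) * c),
    ContDiff.sqrt (by fun_prop) fun y => (p y).ne', fun y => Real.sqrt_nonneg _,
    fun y hy => ⟨e y hy, ?_⟩⟩
  have ev : (fun y => √(χ y * (y + 2 * c) + (1 - χ y) * c)) =ᶠ[𝓝 y] fun y => √(y + 2 * c) :=
    (lt_mem_nhds hy).mono e
  rw [ev.deriv_eq]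
  exact (((hasDerivAt_id y).add_const (2 * c)).sqrt (by simp only [id]; linarith)).deriv

/-- the square root of the cone function -/
theorem sd_w (A : H.Alg) {t s β : ℝ} (ht : t ∈ Ioo 0 H.T) (hs : 0 < s) (β1 : β ≤ 1) {b : M → ℝ}
    (sb : H.S0 b) : ∃ w, H.S0 w ∧ (∀ x, 0 ≤ w x) ∧ ∀ x, |H.gam t b b x - 4 * b x| ≤ β * s ^ 2 →
      w x = √(b x + 2 * s ^ 2) ∧ w x ^ 2 = b x + 2 * s ^ 2 ∧ H.gam t w w x ≤ 1 ∧
        4 * w x ^ 2 - 9 * s ^ 2 ≤ 4 * w x ^ 2 * H.gam t w w x := by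
  have s2 : 0 < s ^ 2 := by positivity
  obtain ⟨φ, cφ, φ0, hφ⟩ := sd_phi s2
  refine ⟨fun x => φ (b x), A.s0_compU cφ sb, fun x => φ0 _, fun x hx => ?_⟩
  obtain ⟨h1, h2⟩ := abs_le.1 hx
  have g0 := A.gam_nonneg t ht sb x
  have h3 : β * s ^ 2 ≤ 1 * s ^ 2 := by gcongr
  obtain ⟨e1, e2⟩ := hφ (b x) (by linarith)
  have p : 0 < b x + 2 * s ^ 2 := by linarith
  have q := Real.sq_sqrt p.le
  have r := Real.sqrt_pos.2 p
  have e3 : 4 * φ (b x) ^ 2 * H.gam t (fun x => φ (b x)) (fun x => φ (b x)) x = H.gam t b b x := by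
    rw [A.gam_compU2 ht cφ sb, e2, e1]; field_simp; ring
  have e4 : φ (b x) ^ 2 = b x + 2 * s ^ 2 := by rw [e1, q]
  refine ⟨e1, e4, ?_, by rw [e3, e4]; linarith⟩
  rw [e4] at e3
  by_contra hn
  nlinarith [mul_pos p (sub_pos.2 (not_le.1 hn))]

/-- balls of time `t` have volume at the times of the window -/
theorem sd_vol (h : H.Ok) (C : H.COut) {t0 : ℝ} (h0 : 0 < t0) : ∃ k, 0 < k ∧
    ∀ {t σ ρ : ℝ} (y : M), t0 ≤ σ → σ ≤ t → t - σ ≤ 1 → t < H.T → 0 < ρ → ρ ≤ 1 →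
      k * ρ ^ 4 ≤ (H.vol σ).real (H.B t y ρ) := by
  obtain ⟨κ, hκ, h2⟩ := C.lo t0 h0
  obtain ⟨K0, hK0⟩ := h.evo.R_bd
  have hK : ∀ t ∈ Ioo 0 H.T, ∀ x, |H.R t x| ≤ |K0| := fun t ht x =>
    (hK0 t ht x).trans (le_abs_self K0)
  refine ⟨κ / Real.exp |K0|, by positivity, fun {t σ ρ} y h1 h3 h4 h5 ρ0 ρ1 => ?_⟩
  have a5 := (h2 t ⟨h1.trans h3, h5⟩ y ρ ⟨ρ0, ρ1⟩).trans
    (vol_real_le2 h.int hK (s := σ) ⟨by linarith, by linarith⟩ ⟨by linarith, h5⟩ _)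
  have a6 : Real.exp (|K0| * |t - σ|) ≤ Real.exp |K0| := Real.exp_le_exp.2
    (mul_le_of_le_one_right (abs_nonneg _) (by rwa [abs_of_nonneg (sub_nonneg.2 h3)]))
  have a7 := a5.trans (mul_le_mul_of_nonneg_right a6 measureReal_nonneg)
  rwa [div_mul_eq_mul_div, div_le_iff₀' (Real.exp_pos _)]

/-- a point at a given small distance -/
theorem sd_ne (h : H.Ok) (C : H.COut) {t0 : ℝ} (h0 : 0 < t0) : ∃ r0, 0 < r0 ∧
    ∀ t ∈ Ico t0 H.T, ∀ z r, 0 < r → r ≤ r0 → ∃ y, H.d t z y = r := by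
  obtain ⟨κ, hκ, h1⟩ := C.lo t0 h0
  obtain ⟨V, hV, h2⟩ := C.up t0 h0
  refine ⟨min 1 (κ / (2 * V)), by positivity, fun t ht z r r0 hr => ?_⟩
  have tt : t ∈ Ioo 0 H.T := ⟨by linarith [ht.1], ht.2⟩
  have r1 : r ≤ 1 := hr.trans (min_le_left _ _)
  have r2 : r * (2 * V) ≤ κ := (le_div_iff₀ (by positivity)).1 (hr.trans (min_le_right _ _))
  obtain ⟨p, hp⟩ : ∃ p, r ≤ H.d t z p := by
    by_contra! hn
    have := h.int.fin t tt
    have k : (H.vol t).real (H.B t z 1) ≤ (H.vol t).real (H.B t z r) :=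
      measureReal_mono fun p _ => hn p
    have k1 := h1 t ht z 1 ⟨one_pos, le_rfl⟩
    have k2 := h2 t ht z r r0
    have k3 : r ^ 4 ≤ r := pow_le_of_le_one r0.le r1 (by norm_num)
    nlinarith
  obtain ⟨K, hK, zK, pK, -⟩ := h.dist.conn t tt (lt_add_one (H.d t z p))
  obtain ⟨y, -, hy⟩ := hK.intermediate_value zK pK (h.dist.cont t tt z).continuousOn
    ⟨by rw [h.dist.self t tt]; exact r0.le, hp⟩
  exact ⟨y, hy⟩

/-- Chebyshev -/
theorem sd_cheb (h : H.Ok) {t σ ρ m : ℝ} (ht : t ∈ Ioo 0 H.T) (hσ : σ ∈ Ioo 0 H.T) {g : M → ℝ}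
    (sg : H.S0 g) {y : M} (hm : 0 ≤ m)
    (hl : ∫ x, g x ^ 2 ∂H.vol σ < (H.vol σ).real (H.B t y ρ) * m ^ 2) :
    ∃ x, H.d t y x < ρ ∧ |g x| ≤ m := by
  by_contra! hn
  have := h.int.fin σ hσ
  have k := setInt_le_int h hσ (isOpen_B h.dist ht y ρ).measurableSet (P := fun _ => m ^ 2)
    (integrable_const _) (h.alg.s0_pow 2 sg) (fun x => sq_nonneg _) fun x hx => by
      rw [← sq_abs (g x)]; gcongr; exact (hn x hx).le
  rw [setIntegral_const, smul_eq_mul] at k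
  linarith

/-- mass of a density that is large where `g` is small -/
theorem sd_mass (h : H.Ok) {σ c m : ℝ} (hσ : σ ∈ Ioo 0 H.T) {g v : M → ℝ}
    (sg : H.S0 g) (sv : H.S0 v) (v0 : ∀ x, 0 ≤ v x) {B S : Set M} (hB : MeasurableSet B)
    (BS : B ⊆ S) (hm : 0 < m) (hc : 0 ≤ c) (hv : ∀ x ∈ B, |g x| ≤ m → c ≤ v x) :
    c * ((H.vol σ).real B - (∫ x, g x ^ 2 ∂H.vol σ) / m ^ 2) ≤ ∫ x in S, v x ∂H.vol σ := by
  have := h.int.fin σ hσ
  have ig := h.alg.integrable h.int hσ (h.alg.s0_pow 2 sg)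
  have iv := h.alg.integrable h.int hσ sv
  have k1 : ∫ x in B, v x ∂H.vol σ ≤ ∫ x in S, v x ∂H.vol σ :=
    setIntegral_mono_set iv.integrableOn (Eventually.of_forall v0) (LE.le.eventuallyLE BS)
  have k2 : ∫ x in B, (c - c / m ^ 2 * g x ^ 2) ∂H.vol σ ≤ ∫ x in B, v x ∂H.vol σ :=
    setIntegral_mono_on ((integrable_const c).sub (ig.const_mul _)).integrableOn iv.integrableOn hB
      fun x hx => by
        rcases le_total |g x| m with h1 | h1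
        · have : 0 ≤ c / m ^ 2 * g x ^ 2 := by positivity
          linarith [hv x hx h1]
        · have h2 : m ^ 2 ≤ g x ^ 2 := by rw [← sq_abs (g x)]; gcongr
          have : c / m ^ 2 * m ^ 2 ≤ c / m ^ 2 * g x ^ 2 := by gcongr
          rw [div_mul_cancel₀ _ (by positivity)] at this
          linarith [v0 x]
  rw [integral_sub (integrable_const c).integrableOn (ig.const_mul _).integrableOn,
    setIntegral_const, integral_const_mul, smul_eq_mul] at k2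
  have k3 : ∫ x in B, g x ^ 2 ∂H.vol σ ≤ ∫ x, g x ^ 2 ∂H.vol σ :=
    setIntegral_le_integral ig (Eventually.of_forall fun x => sq_nonneg _)
  have k4 : c / m ^ 2 * ∫ x in B, g x ^ 2 ∂H.vol σ ≤ c / m ^ 2 * ∫ x, g x ^ 2 ∂H.vol σ := by gcongr
  have e : c * ((H.vol σ).real B - (∫ x, g x ^ 2 ∂H.vol σ) / m ^ 2) =
    (H.vol σ).real B * c - c / m ^ 2 * ∫ x, g x ^ 2 ∂H.vol σ := by ring
  linarith

/-- a bound on `4 τ f` is a lower bound on the density -/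
theorem sd_v {τ s G : ℝ} {u : M → ℝ} {x : M} (hs : 0 < s) (h1 : s ^ 2 ≤ τ) (h2 : τ ≤ 3 * s ^ 2)
    (hG : 0 ≤ G) (hu : 0 < u x) (h : 4 * τ * pot τ u x ≤ G * s ^ 2) :
    Real.exp (-G) / (12 * Real.pi) ^ 2 / s ^ 4 ≤ u x := by
  have s2 : 0 < s ^ 2 := by positivity
  have hτ : 0 < τ := by linarith
  have hπ := Real.pi_pos
  rw [pot_eq hτ hu] at h
  have k : -G ≤ Real.log (u x * (4 * Real.pi * τ) ^ 2) := by
    by_contra hn
    have := not_le.1 hn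
    nlinarith [mul_le_mul_of_nonneg_left h1 hG]
  rw [Real.le_log_iff_exp_le (by positivity)] at k
  rw [div_div, div_le_iff₀ (by positivity)]
  refine k.trans (mul_le_mul_of_nonneg_left ?_ hu.le)
  calc (4 * Real.pi * τ) ^ 2 ≤ (4 * Real.pi * (3 * s ^ 2)) ^ 2 := by gcongr
    _ = _ := by ring

theorem sd_sub (D : H.Dist) {t : ℝ} (ht : t ∈ Ioo 0 H.T) {z x y : M} {r p q : ℝ}
    (h1 : p + r ≤ H.d t z x) (h2 : H.d t z x + r ≤ q) (h : H.d t x y ≤ r) : y ∈ H.An t z p q := by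
  have a1 := D.tri t ht z x y
  have a2 := D.tri t ht z y x
  rw [D.symm t ht y x] at a2
  exact ⟨by linarith, by linarith⟩

/-- descent with a slope -/
theorem sd_desc (A : H.Alg) (D : H.Dist) {t : ℝ} (ht : t ∈ Ioo 0 H.T) {w : M → ℝ} (hw : H.S0 w)
    {x : M} {r ε c : ℝ} (hr : 0 < r) (hε : 0 < ε) (hc : 0 < c)
    (h : ∀ y, H.d t x y < r → c ^ 2 ≤ H.gam t w w y) :
    ∃ y, H.d t x y ≤ r ∧ w y ≤ w x - c * (r - ε) := by
  obtain ⟨y, h1, h2⟩ := descent A D ht (s0_aff A hw c⁻¹ 0) hr hε (x := x) fun y hy => by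
    rw [gam_aff2 A ht hw, inv_pow]
    exact (one_le_inv_mul₀ (by positivity)).2 (h y hy)
  refine ⟨y, h1, ?_⟩
  have := mul_le_mul_of_nonneg_left h2 hc.le
  simp only [add_zero, mul_add, mul_sub, mul_inv_cancel_left₀ hc.ne'] at this
  linarith

section Met
variable (A : H.Alg) (D : H.Dist) {t s θ R μ F F0 : ℝ} (ht : t ∈ Ioo 0 H.T) {z : M} {w : M → ℝ}
  (sw : H.S0 w) (w0 : ∀ x, 0 ≤ w x) (hs : 0 < s) (θ0 : 0 < θ) (θ1 : θ ≤ 1 / 2) (hR : 16 ≤ R)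
  (g1 : ∀ x ∈ H.An t z (θ * s) (R * s), H.gam t w w x ≤ 1)
  (g2 : ∀ x ∈ H.An t z (θ * s) (R * s), 4 * w x ^ 2 - 9 * s ^ 2 ≤ 4 * w x ^ 2 * H.gam t w w x)
  (hF : 0 ≤ F) (hF0 : 0 ≤ F0)
  (hc : ∀ y ∈ H.An t z (2 * θ * s) (4 * s), ∃ q, 0 ≤ q ∧ |q - w y| ≤ s / 16 ∧
    μ + (1 - F0) * s ^ 2 ≤ q ^ 2 ∧ q ^ 2 ≤ μ + (F + 3) * s ^ 2)
include A D ht sw hs θ1 hR g2 hF hF0 hc in
theorem sd_mu {y0 : M} (hy : H.d t z y0 = 5 / 2 * s) :
    μ ≤ (F0 + 8 + 16 * (F + F0 + 2) ^ 2) * s ^ 2 := by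
  have s2 : 0 < s ^ 2 := by positivity
  have θs : θ * s ≤ 1 / 2 * s := by gcongr
  have Rs : 16 * s ≤ R * s := by gcongr
  by_contra hn
  have hμ := not_le.1 hn
  have p0 : 0 ≤ 16 * (F + F0 + 2) ^ 2 * s ^ 2 := by positivity
  have big : ∀ q, 0 ≤ q → μ + (1 - F0) * s ^ 2 ≤ q ^ 2 → 3 * s ≤ q := fun q q0 hq =>
    abs_le_of_sq_le_sq' (by nlinarith) q0 |>.2
  obtain ⟨y, h1, h2⟩ := sd_desc A D ht sw (x := y0) (c := 1 / 2) (ε := s / 4) hs (by positivity)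
    (by norm_num) fun y hy' => by
      obtain ⟨q, q0, q1, q2, -⟩ := hc y (sd_sub D ht (by linarith) (by linarith) hy'.le)
      have a1 := big q q0 q2
      have a2 := g2 y (sd_sub D ht (by linarith) (by linarith) hy'.le)
      have a3 : 2 * s ≤ w y := by linarith [(abs_le.1 q1).2]
      have a4 : (2 * s) ^ 2 ≤ w y ^ 2 := by gcongr
      by_contra hlt
      nlinarith [mul_pos (show 0 < w y ^ 2 by nlinarith) (sub_pos.2 (not_le.1 hlt))]
  obtain ⟨q, q0, q1, q2, -⟩ := hc y (sd_sub D ht (by linarith) (by linarith) h1)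
  obtain ⟨p, -, p1, -, p3⟩ := hc y0 ⟨by linarith, by linarith⟩
  have a1 : q + s / 4 ≤ p := by linarith [(abs_le.1 q1).2, (abs_le.1 p1).1]
  have a2 : (q + s / 4) ^ 2 ≤ p ^ 2 := by gcongr
  have a3 : s * q ≤ s * (2 * (F + F0 + 2) * s) := by nlinarith
  have a4 := le_of_mul_le_mul_left a3 hs
  have a5 : q ^ 2 ≤ (2 * (F + F0 + 2) * s) ^ 2 := by gcongr
  nlinarith

include A D ht sw hs θ0 θ1 hR g1 hc in
theorem sd_up {c : ℝ} (c1 : 1 ≤ c) (hμ : μ + (F + 3) * s ^ 2 ≤ c * s ^ 2) {x : M}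
    (hx : x ∈ H.An t z (2 * θ * s) (R / 2 * s)) : w x ≤ H.d t z x + (c + 1) * s := by
  have θs : θ * s ≤ 1 / 2 * s := by gcongr
  have Rs : 16 * s ≤ R * s := by gcongr
  have k : ∀ y ∈ H.An t z (2 * θ * s) (4 * s), w y ≤ (c + 1) * s := fun y hy => by
    obtain ⟨q, -, q1, -, q3⟩ := hc y hy
    have : q ≤ c * s := (abs_le_of_sq_le_sq' (by
      nlinarith [mul_le_mul_of_nonneg_right (show c ≤ c ^ 2 by nlinarith) (sq_nonneg s)])
      (by positivity)).2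
    linarith [(abs_le.1 q1).1]
  have d0 := Alg.d_nonneg D ht z x
  rcases le_total (H.d t z x) (4 * s) with h4 | h4
  · linarith [k x ⟨hx.1, h4⟩]
  · obtain ⟨y, y1, y2⟩ := mid A D ht (x := x) (y := z) (a := H.d t z x - 2 * s) (b := 3 * s)
      (by linarith) (by linarith) (by rw [D.symm t ht x z]; linarith)
    have a1 := D.lip t ht sw (x := x) (r := H.d t z x - 2 * s)
      (fun u hu => g1 u (sd_sub D ht (by linarith) (by linarith [hx.2]) hu.le)) y1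
    have a2 := k y ⟨(sd_sub D ht (q := 2 * H.d t z x) (by linarith) (by linarith) y1.le).1,
      by linarith⟩
    linarith [(abs_le.1 a1).1]

include A D ht sw w0 hs θ1 g2 in
theorem sd_lo {κ a : ℝ} (κ0 : 0 < κ) (κ1 : κ ≤ 1 / 2) (a1 : 1 ≤ a)
    (hb : ∀ y ∈ H.An t z (a * s) ((R - 1) * s), 3 / κ * s ≤ w y) {x : M}
    (hx : H.d t z x ≤ R / 2 * s) : H.d t z x - κ * H.d t z x - (a + 1) * s ≤ w x := by
  have θs : θ * s ≤ 1 / 2 * s := by gcongr
  have as : 1 * s ≤ a * s := by gcongr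
  have d0 := Alg.d_nonneg D ht z x
  rcases le_or_gt (H.d t z x) (a * s) with h4 | h4
  · nlinarith [w0 x]
  obtain ⟨y, -, h2⟩ := sd_desc A D ht sw (x := x) (c := 1 - κ) (ε := s) (sub_pos.2 h4) hs
    (by linarith) fun y hy => by
      have b1 := hb y (sd_sub D ht (by linarith) (by linarith) hy.le)
      have b2 := g2 y (sd_sub D ht (by linarith) (by linarith) hy.le)
      rw [div_mul_eq_mul_div, div_le_iff₀ κ0] at b1
      have b3 : (3 * s) ^ 2 ≤ (w y * κ) ^ 2 := by gcongr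
      have b4 : 0 < w y := by nlinarith [w0 y]
      have b5 : 0 < w y ^ 2 := by positivity
      by_contra hlt
      have b6 := mul_pos b5 (sub_pos.2 (not_le.1 hlt))
      have b7 : w y ^ 2 * (5 * κ ^ 2) ≤ w y ^ 2 * (8 * κ) := by gcongr ?_ * ?_; nlinarith
      nlinarith
  nlinarith [w0 y, mul_nonneg κ0.le (show 0 ≤ (a + 1) * s by positivity)]

end Met

set_option maxHeartbeats 1000000 in
theorem gSand (h : H.Ok) (C : H.COut) : H.GSand := by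
  intro t0 h0 κ hκ
  have Al := h.alg
  have D := h.dist
  have hπ := Real.pi_pos
  obtain ⟨F0, hF0, hp⟩ := gPot h C t0 h0
  obtain ⟨F, hF, hp⟩ := hp 5 (by norm_num)
  obtain ⟨k, hk, hvol⟩ := sd_vol h C h0
  obtain ⟨r0, hr0, hne⟩ := sd_ne h C h0
  obtain ⟨κ', κ0, κ1, κ2⟩ : ∃ κ' : ℝ, 0 < κ' ∧ κ' ≤ 1 / 2 ∧ κ' ≤ κ :=
    ⟨min (1 / 2) κ, by positivity, min_le_left _ _, min_le_right _ _⟩
  obtain ⟨G, hG⟩ : ∃ G, G = (3 / κ' + 1) ^ 2 + (F + 3) := ⟨_, rfl⟩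
  have G0 : 0 ≤ G := by rw [hG]; positivity
  obtain ⟨c0, hc0⟩ : ∃ c0, c0 = Real.exp (-G) / (12 * Real.pi) ^ 2 := ⟨_, rfl⟩
  have c00 : 0 < c0 := by rw [hc0]; positivity
  obtain ⟨A0, hA0, htight⟩ := gTight h C t0 h0 (c0 * k / 8) (by positivity)
  obtain ⟨C2, hC2⟩ : ∃ C2, C2 = F0 + 8 + 16 * (F + F0 + 2) ^ 2 := ⟨_, rfl⟩
  have C20 : 8 ≤ C2 := by rw [hC2]; nlinarith [sq_nonneg (F + F0 + 2)]
  refine ⟨C2 + F + 4 + (2 * A0 + 2), by linarith, fun θ θ0 θ1 => ?_⟩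
  obtain ⟨β, β0, β1, β2, β3, β4⟩ : ∃ β : ℝ, 0 < β ∧ β ≤ 1 / 2 ∧ β ≤ r0 / 3 ∧
      β ≤ k * (θ / 8) ^ 4 / 2 ∧ β ≤ c0 * k / 8 :=
    ⟨min (min (1 / 2) (r0 / 3)) (min (k * (θ / 8) ^ 4 / 2) (c0 * k / 8)), by positivity,
      (min_le_left _ _).trans (min_le_left _ _), (min_le_left _ _).trans (min_le_right _ _),
      (min_le_right _ _).trans (min_le_left _ _), (min_le_right _ _).trans (min_le_right _ _)⟩
  refine ⟨β, β0, fun {a t ε τ0 s R σ μ z v b g} ha cs hs sβ hε hw hR P => ?_⟩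
  have s2 : 0 < s ^ 2 := by positivity
  have s1 : s ≤ 1 / 2 := sβ.trans β1
  have s3 : s ^ 2 ≤ s := by nlinarith
  have ε1 : ε ≤ s ^ 2 := hε.trans (by nlinarith)
  have hσ := P.σ1
  have aσ : a ≤ σ := hw.trans hσ.1
  have hm : σ ∈ Icc a t := ⟨aσ, by linarith [hσ.2]⟩
  have tσ := cs.st.mem hm
  have ht := cs.st.mem (right_mem_Icc.2 cs.st.2.1.le)
  have θs : θ * s ≤ 1 / 2 * s := by gcongr
  have θs0 : 0 < θ * s := by positivity
  have Rs : 16 * s ≤ R * s := by gcongr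
  have hF' := hp ha cs hs s1 ε1 σ hσ aσ
  have hv := fun (y : M) {ρ : ℝ} => @hvol t σ ρ y (ha.trans aσ) hm.2 (by linarith [hσ.1]) ht.2
  obtain ⟨w, sw, w0, hw'⟩ := sd_w Al ht hs (β1.trans (by norm_num)) P.sb
  have g1 := fun x hx => (hw' x (P.gam x hx)).2.2.1
  have g2 := fun x hx => (hw' x (P.gam x hx)).2.2.2
  have hc : ∀ y ∈ H.An t z (2 * θ * s) (4 * s), ∃ q, 0 ≤ q ∧ |q - w y| ≤ s / 16 ∧
      μ + (1 - F0) * s ^ 2 ≤ q ^ 2 ∧ q ^ 2 ≤ μ + (F + 3) * s ^ 2 := fun y hy => by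
    obtain ⟨x, x1, x2⟩ := sd_cheb h ht tσ P.sg (y := y) (ρ := θ / 8 * s) s2.le (by
      have k1 := hv y (ρ := θ / 8 * s) (by positivity) (by linarith)
      have k2 : 0 < k * (θ / 8) ^ 4 * s ^ 8 := by positivity
      calc _ ≤ β * s ^ 8 := P.l2
        _ ≤ k * (θ / 8) ^ 4 / 2 * s ^ 8 := by gcongr
        _ < k * (θ / 8 * s) ^ 4 * (s ^ 2) ^ 2 := by linarith
        _ ≤ _ := by gcongr)
    have sub : ∀ u, H.d t y u < θ / 8 * s → u ∈ H.An t z (θ * s) (5 * s) := fun u hu =>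
      sd_sub D ht (by linarith [hy.1]) (by linarith [hy.2]) hu.le
    have sub' : ∀ u, H.d t y u < θ / 8 * s → u ∈ H.An t z (θ * s) (R * s) := fun u hu =>
      ⟨(sub u hu).1, by linarith [(sub u hu).2]⟩
    have l := D.lip t ht sw (fun u hu => g1 u (sub' u hu)) x1
    have e1 := (hw' x (P.gam x (sub' x x1))).2.1
    have e2 := P.eq x (sub' x x1)
    obtain ⟨f1, f2⟩ := hF' x
    have f3 := f2 (sub x x1).2
    obtain ⟨x3, x4⟩ := abs_le.1 x2
    exact ⟨w x, w0 x, by linarith, by linarith, by linarith⟩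
  obtain ⟨y0, hy0⟩ := hne t ⟨ha.trans cs.st.2.1.le, ht.2⟩ z (5 / 2 * s) (by positivity)
    (by linarith)
  have μ2 := sd_mu Al D ht sw hs θ1 hR g2 hF hF0 hc hy0
  rw [← hC2] at μ2
  have μ1 : 0 ≤ μ + (F + 3) * s ^ 2 := by
    obtain ⟨q, -, -, -, q3⟩ := hc y0 ⟨by linarith, by linarith⟩
    exact (sq_nonneg q).trans q3
  have As : 1 * s ≤ A0 * s := by gcongr
  have hb : ∀ y ∈ H.An t z ((2 * A0 + 1) * s) ((R - 1) * s), 3 / κ' * s ≤ w y := fun y hy => by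
    by_contra hn
    have sub : ∀ u, H.d t y u < s → u ∈ H.An t z (2 * A0 * s) (R * s) := fun u hu =>
      sd_sub D ht (by linarith [hy.1]) (by linarith [hy.2]) hu.le
    have sub' : ∀ u, H.d t y u < s → u ∈ H.An t z (θ * s) (R * s) := fun u hu =>
      ⟨by linarith [(sub u hu).1], (sub u hu).2⟩
    have r1 : s ≤ √(t - σ) := Real.le_sqrt_of_sq_le (by linarith [hσ.2])
    have r2 : √(t - σ) ≤ 2 * s := Real.sqrt_le_iff.2 ⟨by positivity, by nlinarith [hσ.1]⟩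
    have k1 := htight ha cs σ ⟨aσ, by linarith [hσ.2]⟩ (by linarith)
    obtain ⟨τ1, τ2⟩ := cs_tau cs ε1 hσ
    have vp := cs_pos h cs σ hm
    have k2 := sd_mass h tσ P.sg (cs_s0 h cs hm) (fun x => (vp x).le)
      (isOpen_B D ht y s).measurableSet (S := {y | A0 * √(t - σ) ≤ H.d t z y})
      (fun u hu => le_trans (by nlinarith) (sub u hu).1) s2 (c := c0 / s ^ 4) (by positivity)
      fun x hx x2 => by
        rw [hc0]
        refine sd_v hs τ1 τ2 G0 (vp x) ?_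
        have l := D.lip t ht sw (fun u hu => g1 u (sub' u hu)) hx
        have l1 : H.d t y x < s := hx
        have l2 : w x ≤ (3 / κ' + 1) * s := by linarith [(abs_le.1 l).2, not_le.1 hn]
        have l3 : w x ^ 2 ≤ ((3 / κ' + 1) * s) ^ 2 := by have := w0 x; gcongr
        have e1 := (hw' x (P.gam x (sub' x hx))).2.1
        have e2 := P.eq x (sub' x hx)
        unfold Fv at e2
        rw [hG]
        linarith [(abs_le.1 x2).2]
    have k3 := hv y hs (by linarith)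
    have k4 : (∫ x, g x ^ 2 ∂H.vol σ) / (s ^ 2) ^ 2 ≤ k / 2 * s ^ 4 := by
      rw [div_le_iff₀ (by positivity)]
      have : (θ / 8) ^ 4 ≤ 1 := pow_le_one₀ (by positivity) (by linarith)
      calc _ ≤ β * s ^ 8 := P.l2
        _ ≤ k * 1 / 2 * s ^ 8 := by gcongr; exact β3.trans (by gcongr)
        _ = _ := by ring
    have k5 : c0 / s ^ 4 * (k / 2 * s ^ 4) ≤ _ :=
      (mul_le_mul_of_nonneg_left (by linarith) (by positivity)).trans k2
    rw [show c0 / s ^ 4 * (k / 2 * s ^ 4) = c0 * k / 2 by field_simp] at k5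
    have k6 : β * s ^ 2 ≤ β * 1 := by gcongr; linarith
    have : 0 < c0 * k := by positivity
    linarith
  refine ⟨abs_le.2 ⟨by nlinarith, by nlinarith⟩, fun x hx => ?_⟩
  have u1 := sd_up Al D ht sw hs θ0 θ1 hR g1 hc (c := C2 + F + 3) (by linarith) (by linarith) hx
  have u2 := sd_lo Al D ht sw w0 hs θ1 g2 κ0 κ1 (a := 2 * A0 + 1) (by linarith) hb hx.2
  have d0 := Alg.d_nonneg D ht z x
  have d1 : κ' * H.d t z x ≤ κ * H.d t z x := by gcongr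
  have d2 : 0 ≤ κ' * H.d t z x := by positivity
  have d3 : 0 ≤ (C2 + F + 4) * s := by positivity
  rw [← (hw' x (P.gam x ⟨by linarith [hx.1], by linarith [hx.2]⟩)).1]
  exact abs_le.2 ⟨by linarith, by linarith⟩

end Crest.Agent.N207.Ge

end
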