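import Crest.Agent.N207.G.EnP
import Crest.Agent.N207.G.EnA2

/-!
# Row 207, block G (helper22): tools for the epsilon regularity from the entropy
-/

set_option autoImplicit false
set_option linter.dupNamespace false
set_option linter.unusedSectionVars false
open Set MeasureTheory Filter Topology
open scoped ContDiff

noncomputable section

namespace Crest.Agent.N207.Ge

open HC

/-- discrete point picking -/
theorem pick_pt {M : Type*} {d : M → M → ℝ} {P : M → ℝ → Prop} {Λ r0 r1 : ℝ} {z : M}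
    (tri : ∀ x y w, d x w ≤ d x y + d y w) (h0 : d z z ≤ 0) (hr0 : 0 < r0) (hr1 : 0 < r1)
    (ht : ∀ y r, 0 < r → r < r1 → ¬P y r) (hz : P z r0) :
    ∃ y r, 0 < r ∧ r ≤ r0 ∧ d z y ≤ 2 * Λ * (r0 - r) ∧ P y r ∧
      ∀ y', d y y' < Λ * r → ¬P y' (r / 2) := by
  by_contra hn
  push Not at hn
  have key : ∀ k : ℕ, ∃ y, d z y ≤ 2 * Λ * (r0 - r0 / 2 ^ k) ∧ P y (r0 / 2 ^ k) := fun k => by
    induction k with
    | zero => exact ⟨z, by simpa using h0, by simpa using hz⟩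
    | succ k ih =>
      obtain ⟨y, h1, h2⟩ := ih
      obtain ⟨y', h3, h4⟩ := hn y _ (by positivity)
        (div_le_self hr0.le (one_le_pow₀ one_le_two)) h1 h2
      have e : r0 / 2 ^ (k + 1) = r0 / 2 ^ k / 2 := by rw [pow_succ, div_div]
      exact ⟨y', by rw [e]; linarith [tri z y y'], by rwa [e]⟩
  obtain ⟨k, hk⟩ := pow_unbounded_of_one_lt (r0 / r1) one_lt_two
  obtain ⟨y, -, h⟩ := key k
  exact ht y _ (by positivity) (by
    rw [div_lt_iff₀ (by positivity)]; rw [div_lt_iff₀ hr1] at hk; linarith) h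

theorem exists_theta {l x θ0 : ℝ} (hl : 0 < l) (hx : 0 < x) (h0 : 0 < θ0) :
    ∃ θ, 0 < θ ∧ θ ≤ θ0 ∧ Real.exp (-(l / (4 * √θ))) ≤ x * θ ^ 3 := by
  have h1 := (Real.tendsto_pow_mul_exp_neg_atTop_nhds_zero 6).eventually
    (gt_mem_nhds (show (0 : ℝ) < x * (l / 4) ^ 6 by positivity))
  obtain ⟨y, y1, y2, y3⟩ := (h1.and ((eventually_gt_atTop 0).and
    (eventually_ge_atTop (l / (4 * √θ0))))).exists
  have q := Real.sqrt_pos.2 h0
  refine ⟨(l / (4 * y)) ^ 2, by positivity, ?_, ?_⟩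
  · rw [← Real.le_sqrt (by positivity) h0.le, div_le_iff₀ (by positivity)]
    rw [div_le_iff₀ (by positivity)] at y3
    linarith
  · rw [Real.sqrt_sq (by positivity), show l / (4 * (l / (4 * y))) = y by field_simp,
      show x * ((l / (4 * y)) ^ 2) ^ 3 = x * (l / 4) ^ 6 / y ^ 6 by field_simp,
      le_div_iff₀ (by positivity)]
    linarith

variable {M : Type*} [TopologicalSpace M] [CompactSpace M] [MeasurableSpace M]
  [OpensMeasurableSpace M] {H : HC M}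

theorem int_cmp0 (A : H.Alg) (I : H.Intg) {K : ℝ} (hK : ∀ t ∈ Ioo 0 H.T, ∀ x, |H.R t x| ≤ K)
    {s t : ℝ} (hs : s ∈ Ioo 0 H.T) (ht : t ∈ Ioo 0 H.T) {f : M → ℝ} (hf : Integrable f (H.vol s))
    (h0 : ∀ x, 0 ≤ f x) : ∫ x, f x ∂H.vol t ≤ Real.exp (K * |t - s|) * ∫ x, f x ∂H.vol s := by
  have _ := A.T_pos
  have k := integral_mono_measure (I.vol_le hK s hs t ht) (Eventually.of_forall h0)
    (hf.smul_measure ENNReal.ofReal_ne_top)
  rwa [integral_smul_measure, ENNReal.toReal_ofReal (Real.exp_pos _).le, smul_eq_mul] at k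

theorem int_cmp (A : H.Alg) (I : H.Intg) (E : H.Evo) : ∃ W, 1 ≤ W ∧ ∀ s ∈ Ioo 0 H.T,
    ∀ t ∈ Ioo 0 H.T, (∀ S, (H.vol t).real S ≤ W * (H.vol s).real S) ∧ ∀ f : M → ℝ, H.S0 f →
      (∀ x, 0 ≤ f x) → ∫ x, f x ∂H.vol t ≤ W * ∫ x, f x ∂H.vol s := by
  obtain ⟨K, hK⟩ := E.R_bd
  have hK' : ∀ t ∈ Ioo 0 H.T, ∀ x, |H.R t x| ≤ |K| := fun t ht x =>
    (hK t ht x).trans (le_abs_self _)
  have hT := A.T_pos
  refine ⟨Real.exp (|K| * H.T), Real.one_le_exp (by positivity), fun s hs t ht => ?_⟩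
  have e : Real.exp (|K| * |t - s|) ≤ Real.exp (|K| * H.T) := Real.exp_le_exp.2
    (mul_le_mul_of_nonneg_left (abs_le.2 ⟨by linarith [hs.2, ht.1], by linarith [hs.1, ht.2]⟩)
      (abs_nonneg _))
  exact ⟨fun S => (vol_real_le2 I hK' hs ht S).trans
    (mul_le_mul_of_nonneg_right e measureReal_nonneg), fun f hf h0 =>
    (int_cmp0 A I hK' hs ht (A.integrable I hs hf) h0).trans
      (mul_le_mul_of_nonneg_right e (integral_nonneg h0))⟩

theorem int_le_vol' {μ : Measure M} [IsFiniteMeasure μ] {S : Set M} (hS : MeasurableSet S)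
    {g : M → ℝ} {m : ℝ} (g0 : ∀ z, 0 ≤ g z) (h1 : ∀ z ∈ S, g z ≤ m) (h2 : ∀ z, z ∉ S → g z = 0) :
    ∫ z, g z ∂μ ≤ m * μ.real S := by
  have : ∫ z, S.indicator (fun _ => m) z ∂μ = m * μ.real S := by
    rw [integral_indicator hS]; simp [mul_comm]
  rw [← this]
  refine integral_mono_of_nonneg (Eventually.of_forall g0) ((integrable_const m).indicator hS)
    (Eventually.of_forall fun z => ?_)
  by_cases hz : z ∈ S
  · simpa [hz] using h1 z hz
  · simp [hz, h2 z hz]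

/-- the set where an almost conical function is small has small volume -/
theorem small_set (A : H.Alg) (I : H.Intg) {t : ℝ} (ht : t ∈ Ioo 0 H.T) {w φ : M → ℝ}
    (hw : H.S0 w) (hφ : H.S0 φ) {S : Set M} (hS : MeasurableSet S) {m q p Γ : ℝ} (hq : 0 < q)
    (hp : 0 ≤ p) (hΓ : 0 ≤ Γ) (φ0 : ∀ x, 0 ≤ φ x) (φ1 : ∀ x, φ x ≤ 1) (φS : ∀ x ∉ S, φ x = 0)
    (φg : ∀ x, H.gam t φ φ x ≤ Γ ^ 2) (h1 : ∀ x ∈ S, 8 - p ≤ H.lap t w x)
    (h2 : ∀ x ∈ S, H.gam t w w x ≤ 4 * (w x - m)) :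
    8 * ∫ x, φ x * (q ^ 4 / (q ^ 4 + (w x - m) ^ 2)) ^ 2 ∂H.vol t ≤
      (p + 2 * Γ * q) * (H.vol t).real S := by
  have := I.fin t ht
  have q4 : 0 < q ^ 4 := by positivity
  have cZ : ContDiff ℝ ∞ fun y : ℝ => q ^ 4 / (q ^ 4 + (y - m) ^ 2) :=
    contDiff_const.div (by fun_prop) fun y => by positivity
  have dZ : ∀ y, deriv (fun y : ℝ => q ^ 4 / (q ^ 4 + (y - m) ^ 2)) y =
      -(2 * q ^ 4 * (y - m)) / (q ^ 4 + (y - m) ^ 2) ^ 2 := fun y => by
    have h3 : HasDerivAt (fun y : ℝ => q ^ 4 + (y - m) ^ 2) (2 * (y - m)) y := by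
      simpa using (((hasDerivAt_id y).sub_const m).fun_pow 2).const_add (q ^ 4)
    rw [((hasDerivAt_const y (q ^ 4)).fun_div h3 (by positivity)).deriv]
    ring
  have sZ := A.s0_compU cZ hw
  have k1 := I.ibp t ht (A.s0_mul hφ sZ) hw
  have i1 := A.integrable I ht (A.s0_mul (A.s0_mul hφ sZ) (A.s0_lap ht hw))
  have i2 := A.integrable I ht (A.s0_gam ht (A.s0_mul hφ sZ) hw)
  have i3 := A.integrable I ht (A.s0_cmul 8 (A.s0_mul hφ (A.s0_pow 2 sZ)))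
  have k2 : ∫ x, (8 * (φ x * (q ^ 4 / (q ^ 4 + (w x - m) ^ 2)) ^ 2) -
      (φ x * (q ^ 4 / (q ^ 4 + (w x - m) ^ 2)) * H.lap t w x + H.gam t
        (fun y => φ y * (q ^ 4 / (q ^ 4 + (w y - m) ^ 2))) w x)) ∂H.vol t ≤
      ∫ x, S.indicator (fun _ => p + 2 * Γ * q) x ∂H.vol t := by
    refine integral_mono (i3.sub (i1.add i2)) ((integrable_const _).indicator hS) fun x => ?_
    simp only
    rw [A.gam_mul t ht hφ sZ hw, A.gam_compU ht cZ hw hw, dZ]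
    by_cases hx : x ∈ S
    swap
    · have g0 := (A.at_min ht hφ (x := x) (Eventually.of_forall fun y => by
        rw [φS x hx]; exact φ0 y)).2
      simp [hx, φS x hx, A.gam_eq_zero ht hφ hw g0]
    rw [indicator_of_mem hx]
    have g0 := A.gam_nonneg t ht hw x
    have a1 := h1 x hx
    have a2 := h2 x hx
    have a3 := A.gam_sq ht hφ hw x
    generalize w x - m = β at *
    have β0 : 0 ≤ β := by linarith
    have D0 : 0 < q ^ 4 + β ^ 2 := by positivity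
    obtain ⟨Z, hZ⟩ : ∃ Z, Z = q ^ 4 / (q ^ 4 + β ^ 2) := ⟨_, rfl⟩
    have Z0 : 0 < Z := by rw [hZ]; positivity
    have Z1 : Z ≤ 1 := by rw [hZ, div_le_one D0]; nlinarith [sq_nonneg β]
    have b1 : 2 * q ^ 4 * β / (q ^ 4 + β ^ 2) ^ 2 * H.gam t w w x ≤ 8 * Z * (1 - Z) := by
      refine (mul_le_mul_of_nonneg_left a2 (by positivity)).trans_eq ?_
      rw [hZ]; field_simp; ring
    have b2 : Z ^ 2 * β ≤ q ^ 2 := by
      have : Z * β ≤ q ^ 2 := by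
        rw [hZ, div_mul_eq_mul_div, div_le_iff₀ D0]
        nlinarith [mul_nonneg (sq_nonneg q) (sq_nonneg (q ^ 2 - β)), mul_nonneg q4.le β0]
      nlinarith [mul_nonneg Z0.le β0]
    have b3 : -(Z * H.gam t φ w x) ≤ 2 * Γ * q := by
      refine (neg_le_abs _).trans (abs_le_of_sq_le_sq' ?_ (by positivity) |> abs_le.2)
      have c1 : H.gam t φ w x ^ 2 ≤ Γ ^ 2 * (4 * β) :=
        a3.trans (mul_le_mul (φg x) a2 g0 (sq_nonneg _))
      nlinarith [mul_le_mul_of_nonneg_left c1 (sq_nonneg Z),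
        mul_le_mul_of_nonneg_left b2 (sq_nonneg Γ)]
    rw [← hZ, neg_div]
    have b4 := mul_le_mul_of_nonneg_left b1 (φ0 x)
    have b5 := mul_le_mul_of_nonneg_left a1 (mul_nonneg (φ0 x) Z0.le)
    have b6 : φ x * Z * p ≤ p := mul_le_of_le_one_left hp (by nlinarith [φ0 x, φ1 x])
    nlinarith
  rw [integral_sub i3 (i1.fun_add i2), integral_add i1 i2, k1, integral_const_mul,
    integral_indicator hS, setIntegral_const, smul_eq_mul] at k2
  linarith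

/-- the flux of a static cutoff through a regular region -/
theorem flux_reg (A : H.Alg) (I : H.Intg) (E : H.Evo) (hF : H.Flux) : ∃ C, 0 < C ∧
    ∀ {t s B δ Γ V ρ : ℝ} {φ : M → ℝ} {S : Set M}, H.St (t - 2 * s ^ 2) t → 0 < s → 0 ≤ B → 0 ≤ δ →
      δ ≤ 1 / 4 → 0 ≤ Γ → MeasurableSet S → H.Reg t s B δ S → H.S0 φ → (∀ x, 0 ≤ φ x) →
      (∀ x, φ x ≤ 1) → (∀ x ∉ S, φ x = 0) → (∀ x, H.gam t φ φ x ≤ (Γ / s) ^ 2) →
      (∀ r ∈ Icc (t - 2 * s ^ 2) t, (H.vol r).real S ≤ V * s ^ 4) → ρ ∈ Icc (t - 2 * s ^ 2) t →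
      ∫ x, φ x * H.N 0 t x ∂H.vol t ≤ ∫ x, φ x * H.N 0 ρ x ∂H.vol ρ + C * (Γ * B + 1) * V * δ := by
  obtain ⟨C, hC, hF⟩ := hF
  refine ⟨4 * C + 1, by positivity,
    fun {t s B δ Γ V ρ φ S} hs s0 B0 δ0 δ1 Γ0 mS reg sφ φ0 φ1 φS φg vS hρ => ?_⟩
  have tm : t ∈ Icc (t - 2 * s ^ 2) t := ⟨hs.2.1.le, le_rfl⟩
  have hT := hs.mem tm
  have hR := hs.mem hρ
  have V0 : 0 ≤ V := by
    have := (measureReal_nonneg).trans (vS t tm)
    exact nonneg_of_mul_nonneg_left this (by positivity)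
  have k1 := hF hs (A.sm_static sφ) (HasDt.static φ) ρ t hρ.1 hρ.2 le_rfl
  have k2 : ∀ r ∈ Icc (t - 2 * s ^ 2) t, ∫ x, (|(0 : ℝ)| * |H.Pf r x| + C * (√(H.gam r φ φ x) *
      √(H.N 0 r x) * √(H.Q 1 r x))) ∂H.vol r ≤ 2 * C * Γ * B * V * δ / s ^ 2 := fun r hr => by
    have := I.fin r (hs.mem hr)
    refine (int_le_vol' mS (m := C * (2 * (Γ / s) * (B / s ^ 2) * (δ / s ^ 3)))
      (fun x => by positivity) (fun x hx => ?_) fun x hx => ?_).trans
      ((mul_le_mul_of_nonneg_left (vS r hr) (by positivity)).trans_eq (by field_simp))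
    · have a1 := gam_cmp A E hs sφ (x := x) (k := δ / s ^ 2) (fun r hr => (reg r hr x hx).2.1)
        (by rw [sub_sub_cancel, show δ / s ^ 2 * (2 * s ^ 2) = 2 * δ by field_simp]; linarith) hr tm
      have a2 : √(H.gam r φ φ x) ≤ 2 * (Γ / s) :=
        Real.sqrt_le_iff.2 ⟨by positivity, by nlinarith [φg x]⟩
      rw [abs_zero, zero_mul, zero_add]
      gcongr
      exacts [(reg r hr x hx).1, (reg r hr x hx).2.2]
    · have g0 := (A.at_min (hs.mem hr) sφ (x := x) (Eventually.of_forall fun y => by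
        rw [φS x hx]; exact φ0 y)).2
      simp [g0]
  have k3 : ∫ r in ρ..t, ∫ x, (|(0 : ℝ)| * |H.Pf r x| + C * (√(H.gam r φ φ x) *
      √(H.N 0 r x) * √(H.Q 1 r x))) ∂H.vol r ≤ (t - ρ) * (2 * C * Γ * B * V * δ / s ^ 2) := by
    rw [← smul_eq_mul, ← intervalIntegral.integral_const, intervalIntegral.integral_of_le hρ.2,
      intervalIntegral.integral_of_le hρ.2]
    refine integral_mono_of_nonneg (Eventually.of_forall fun r => integral_nonneg fun x => by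
      positivity) (integrable_const _) ?_
    exact ae_restrict_of_forall_mem measurableSet_Ioc fun r hr => k2 r ⟨hρ.1.trans hr.1.le, hr.2⟩
  have k4 : (t - ρ) * (2 * C * Γ * B * V * δ / s ^ 2) ≤ 4 * C * Γ * B * V * δ :=
    (mul_le_mul_of_nonneg_right (show t - ρ ≤ 2 * s ^ 2 by linarith [hρ.1])
      (by positivity)).trans_eq (by field_simp; ring)
  have sP := A.sm_Pf hs
  have k5 : ∫ x, φ x * H.Pf ρ x ∂H.vol ρ ≤ ∫ x, φ x * H.N 0 ρ x ∂H.vol ρ :=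
    int_mono A I hR (A.s0_mul sφ (A.sm_s0 sP ρ hρ)) (A.s0_mul sφ (A.s0_N hR 0)) fun x =>
      mul_le_mul_of_nonneg_left (by have := E.R_sq ρ hR x; unfold Pf; linarith) (φ0 x)
  have k6 : ∫ x, φ x * H.N 0 t x ∂H.vol t ≤
      ∫ x, φ x * H.Pf t x ∂H.vol t + ∫ x, 4 * (φ x * H.Q 0 t x) ∂H.vol t := by
    rw [← int_add A I hT (A.s0_mul sφ (A.sm_s0 sP t tm)) (A.s0_cmul 4 (A.s0_mul sφ (A.s0_Q hT 0)))]
    refine int_mono A I hT (A.s0_mul sφ (A.s0_N hT 0)) (A.s0_add (A.s0_mul sφ (A.sm_s0 sP t tm))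
      (A.s0_cmul 4 (A.s0_mul sφ (A.s0_Q hT 0)))) fun x => ?_
    unfold Pf; nlinarith [mul_nonneg (φ0 x) (sq_nonneg (H.R t x))]
  have k7 : ∫ x, 4 * (φ x * H.Q 0 t x) ∂H.vol t ≤ V * δ := by
    have := I.fin t hT
    refine (int_le_vol' mS (m := δ / s ^ 4) (fun x => by
      have := E.Q_nonneg 0 t hT x; have := φ0 x; positivity) (fun x hx => ?_)
      fun x hx => by simp [φS x hx]).trans
      ((mul_le_mul_of_nonneg_left (vS t tm) (by positivity)).trans_eq (by field_simp))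
    have a1 := (Real.sqrt_le_iff.1 (reg t tm x hx).2.1).2
    have a2 : φ x * H.Q 0 t x ≤ (δ / s ^ 2) ^ 2 :=
      (mul_le_of_le_one_left (E.Q_nonneg 0 t hT x) (φ1 x)).trans a1
    have a3 : 4 * (δ / s ^ 2) ^ 2 = 4 * δ * (δ / s ^ 4) := by field_simp
    have a4 : 0 ≤ δ / s ^ 4 := by positivity
    nlinarith
  have k8 := (le_abs_self _).trans (k1.trans (k3.trans k4))
  nlinarith [mul_nonneg (mul_nonneg (mul_nonneg Γ0 B0) V0) δ0, mul_nonneg hC.le (mul_nonneg V0 δ0)]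

end Crest.Agent.N207.Ge

end
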