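import Crest.Agent.N207.G.EnE1
import Crest.Agent.N207.G.EnBad

/-!
# Row 207, block G (helper22): epsilon regularity from the entropy
-/

set_option autoImplicit false
set_option linter.dupNamespace false
set_option linter.unusedSectionVars false
open Set MeasureTheory Filter Topology
open scoped ContDiff

noncomputable section

namespace Crest.Agent.N207.Ge

open HC

variable {M : Type*} [TopologicalSpace M] [CompactSpace M] [MeasurableSpace M]
  [OpensMeasurableSpace M] {H : HC M}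

theorem reg_mono {t s B δ δ' : ℝ} {Ω Ω' : Set M} (h : H.Reg t s B δ Ω) (hs : 0 < s) (hδ : δ ≤ δ')
    (hΩ : Ω' ⊆ Ω) : H.Reg t s B δ' Ω' := fun σ hσ x hx =>
  ⟨(h σ hσ x (hΩ hx)).1, (h σ hσ x (hΩ hx)).2.1.trans (by gcongr),
    (h σ hσ x (hΩ hx)).2.2.trans (by gcongr)⟩

theorem one_le_Z {q β : ℝ} (hq : 0 < q) (hβ : 0 ≤ β) :
    1 ≤ 4 * (q ^ 4 / (q ^ 4 + β ^ 2)) ^ 2 + β / q ^ 2 := by
  rcases le_total β (q ^ 2) with h | h
  · have : 1 / 2 ≤ q ^ 4 / (q ^ 4 + β ^ 2) := by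
      rw [le_div_iff₀ (by positivity)]; nlinarith
    have : 0 ≤ β / q ^ 2 := by positivity
    nlinarith
  · have := (one_le_div (by positivity : 0 < q ^ 2)).2 h
    nlinarith [sq_nonneg (q ^ 4 / (q ^ 4 + β ^ 2))]

theorem choose_ce {P Q ε : ℝ} (R : ℝ) (hP : 0 ≤ P) (hQ : 0 ≤ Q) (hε : 0 < ε) :
    ∃ c e : ℝ, 0 < c ∧ 0 < e ∧ P * (e + Q * c) + (e ^ 2 + R * e) / c ^ 2 ≤ ε / 2 := by
  obtain ⟨c, hc⟩ : ∃ c, c = ε / (4 * (P * Q + 1)) := ⟨_, rfl⟩
  have c0 : 0 < c := by rw [hc]; positivity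
  have c1 : P * (Q * c) ≤ ε / 4 := by
    rw [hc, ← mul_assoc, mul_div_assoc', div_le_div_iff₀ (by positivity) (by positivity)]
    nlinarith
  have t : Tendsto (fun e : ℝ => P * e + (e ^ 2 + R * e) / c ^ 2) (𝓝[>] 0) (𝓝 0) := by
    have : ContinuousAt (fun e : ℝ => P * e + (e ^ 2 + R * e) / c ^ 2) 0 := by fun_prop
    simpa using this.tendsto.mono_left nhdsWithin_le_nhds
  obtain ⟨e, e1, e2⟩ := ((t.eventually (gt_mem_nhds (show (0 : ℝ) < ε / 4 by positivity))).and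
    self_mem_nhdsWithin).exists
  exact ⟨c, e, c0, e2, by nlinarith⟩

set_option maxHeartbeats 1000000 in
/-- a regular ball with a small drop of the entropy has small energy -/
theorem no_conc (h : H.Ok) (He : H.Hes) (hV : H.VolUp) (hF : H.Flux) (hS : H.GSmooth)
    {t0 B ε : ℝ} (h0 : 0 < t0) (hB : 0 ≤ B) (hε : 0 < ε) : ∃ η δ : ℝ, 0 < η ∧ 0 < δ ∧
      ∀ {a t ε' τ0 s : ℝ} {y : M} {v : ℝ → M → ℝ}, t0 ≤ a → H.CS a t y ε' τ0 v → 0 < s →
        s ≤ 1 / 2 → a ≤ t - 2 * s ^ 2 → ε' ≤ s ^ 2 → H.Reg t s B δ (H.B t y (5 * s)) →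
        H.drop t τ0 v s ≤ η → H.en t y s < ε := by
  have A := h.alg
  have I := h.int
  have E := h.evo
  have D := h.dist
  obtain ⟨V, hV0, hV⟩ := hV t0 h0
  obtain ⟨W, hW1, hW⟩ := int_cmp A I E
  obtain ⟨C, hC, hfl⟩ := flux_reg A I E hF
  have L0 := Sob.Lσ_pos
  obtain ⟨L, hL⟩ : ∃ L, L = 4 * √Sob.Lσ := ⟨_, rfl⟩
  have L1 : 0 < L := by rw [hL]; positivity
  have L2 : L ^ 2 = 16 * Sob.Lσ := by rw [hL, mul_pow, Real.sq_sqrt L0.le]; norm_num
  obtain ⟨c, e, c0, e0, hce⟩ := choose_ce (P := 16 * B ^ 2 * W * V) (Q := L)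
    (32 * B ^ 2 * W * V) (by positivity) L1.le hε
  obtain ⟨η, δ1, η0, δ0, δ4, hS⟩ := hS t0 h0 5 (by norm_num) 1 one_pos B hB (L ^ 2)
    (by positivity) (e ^ 2) (by positivity)
  obtain ⟨X, hX⟩ : ∃ X, X = C * (L * B + 1) * (16 * W * V) := ⟨_, rfl⟩
  have X0 : 0 < X := by rw [hX]; positivity
  refine ⟨η, min δ1 (ε / (4 * X)), η0, by positivity,
    fun {a t ε' τ0 s y v} ha cs s0 s1 has hε' reg dr => ?_⟩
  have s2 : 0 < s ^ 2 := by positivity
  have st : H.St (t - 2 * s ^ 2) t := cs.st.mono has (by linarith) le_rfl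
  have tm : t ∈ Icc (t - 2 * s ^ 2) t := ⟨st.2.1.le, le_rfl⟩
  have hT := st.mem tm
  obtain ⟨χ, sχ, χ0, χ1, χ2, χ3, χ4⟩ := exists_cut A D hT y (4 * s) s0
  have sup : ∀ x, χ x ≠ 0 → H.d t y x < 5 * s := fun x hx => by
    by_contra hn
    exact hx (χ3 x fun h' => hn (by have : H.d t y x < 4 * s + s := h'; linarith)).1
  obtain ⟨σ, -, t', ht', ρ, g, sρ, -, -, -, k1, k2⟩ := hS (r := 3 * s) (x0 := y) ha cs s0 s1 has hε'
    sχ (fun x => ⟨χ0 x, χ1 x⟩) (fun x hx => (sup x hx).le) (fun x => by rw [L2]; exact χ4 x)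
    (reg_mono reg s0 (min_le_left _ _) sup) dr fun x hx => χ2 x (by
      show H.d t y x < 4 * s; linarith)
  have hT' := st.mem ht'
  have k3 : ∀ x, H.d t y x < 3 * s →
      H.Pc 2 t ρ x ≤ e ^ 2 ∧ H.gam t ρ ρ x * H.Pc 2 t ρ x ≤ e ^ 2 * s ^ 2 := fun x hx =>
    k1 x fun w hw => χ2 w (by
      show H.d t y w < 4 * s; linarith [D.tri t hT y x w])
  have sψ := A.s0_gam hT sρ sρ
  obtain ⟨m, hm⟩ : ∃ m, 4 * m = -(H.gam t ρ ρ y - 2 * 2 * ρ y) - 4 * e * s ^ 2 :=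
    ⟨(-(H.gam t ρ ρ y - 2 * 2 * ρ y) - 4 * e * s ^ 2) / 4, by ring⟩
  have k4 : ∀ x ∈ H.B t y (s + s), H.gam t ρ ρ x ≤ 4 * (ρ x - m) ∧
      4 * (ρ x - m) ≤ H.gam t ρ ρ x + 8 * e * s ^ 2 := fun x hx => by
    have hx' : H.d t y x < s + s := hx
    have a1 := lip_ball A D hT (A.s0_sub sψ (A.s0_cmul (2 * 2) sρ)) (x := y) (y := x) (r := 3 * s)
      (L := 2 * e * s) (by positivity) (fun w hw => (He.kato t hT sρ 2 w).trans (by
        nlinarith [(k3 w hw).2])) (by linarith)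
    have a2 : 2 * e * s * H.d t y x ≤ 2 * e * s * (s + s) := by gcongr
    have a3 := abs_le.1 (a1.trans a2)
    constructor <;> nlinarith [a3.1, a3.2]
  obtain ⟨φ, sφ, φ0, φ1, φ2, φ3, φ4⟩ := exists_cut A D hT y s s0
  have oS := isOpen_B D hT y (s + s)
  have φg : ∀ x, H.gam t φ φ x ≤ (L / s) ^ 2 := fun x => by rw [div_pow, L2]; exact φ4 x
  have vt : (H.vol t).real (H.B t y (s + s)) ≤ 16 * V * s ^ 4 :=
    (hV t ⟨by linarith, hT.2⟩ y _ (by linarith)).trans_eq (by ring)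
  have vr : ∀ r ∈ Icc (t - 2 * s ^ 2) t, (H.vol r).real (H.B t y (s + s)) ≤ 16 * W * V * s ^ 4 :=
    fun r hr => ((hW t hT r (st.mem hr)).1 _).trans
      ((mul_le_mul_of_nonneg_left vt (by linarith)).trans_eq (by ring))
  have q0 : 0 < c * s := by positivity
  have k5 := small_set A I hT sρ sφ oS.measurableSet (m := m) (p := 2 * e) q0 (by positivity)
    (by positivity) φ0 φ1 (fun x hx => (φ3 x hx).1) φg (fun x hx => by
      have hx' : H.d t y x < s + s := hx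
      have a1 := lap_sub_sq E hT sρ 2 x
      have a2 := (k3 x (by linarith)).1
      have := (abs_le_of_sq_le_sq' (a := H.lap t ρ x - 4 * 2) (b := 2 * e) (by nlinarith)
        (by positivity)).1
      linarith) fun x hx => (k4 x hx).1
  obtain ⟨Z, hZ⟩ : ∃ Z : M → ℝ, Z = fun x => (c * s) ^ 4 / ((c * s) ^ 4 + (ρ x - m) ^ 2) := ⟨_, rfl⟩
  have sZ : H.S0 Z := by
    rw [hZ]
    exact A.s0_div (A.s0_const _) (A.s0_add (A.s0_const _) (A.s0_pow 2 (A.s0_sub sρ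
      (A.s0_const m)))) fun x => by positivity
  have sZ2 := A.s0_mul sφ (A.s0_pow 2 sZ)
  have k6 : ∫ x, φ x * Z x ^ 2 ∂H.vol t' ≤ W * (4 * (e + L * c) * V * s ^ 4) := by
    refine ((hW t hT t' hT').2 _ sZ2 fun x => mul_nonneg (φ0 x) (sq_nonneg _)).trans
      (mul_le_mul_of_nonneg_left ?_ (by linarith))
    have a1 : 2 * e + 2 * (L / s) * (c * s) = 2 * (e + L * c) := by field_simp
    rw [a1] at k5
    have a2 := mul_le_mul_of_nonneg_left vt (show 0 ≤ 2 * (e + L * c) by positivity)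
    rw [hZ]; linarith
  have sN := A.s0_N hT' 0
  have sG := A.s0_mul sN (A.s0_gam hT' sρ sρ)
  have r2 := reg_mono reg s0 le_rfl (B_mono2 t y (show s + s ≤ 5 * s by linarith))
  have d4 : min δ1 (ε / (4 * X)) ≤ 1 / 4 := (min_le_left _ _).trans δ4
  have k7 : ∫ x, φ x * H.N 0 t' x ∂H.vol t' ≤ ∫ x, (4 * (B / s ^ 2) ^ 2 * (φ x * Z x ^ 2) +
      (((c * s) ^ 2)⁻¹ * (φ x * (H.N 0 t' x * H.gam t' ρ ρ x)) +
        2 * e * s ^ 2 * (B / s ^ 2) ^ 2 / (c * s) ^ 2 * φ x)) ∂H.vol t' := by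
    refine int_mono A I hT' (A.s0_mul sφ sN) (A.s0_add (A.s0_cmul _ sZ2) (A.s0_add
      (A.s0_cmul _ (A.s0_mul sφ sG)) (A.s0_cmul _ sφ))) fun x => ?_
    by_cases hx : x ∈ H.B t y (s + s)
    swap
    · simp [(φ3 x hx).1]
    have n0 := E.N_nonneg 0 t' hT' x
    have n1 := (Real.sqrt_le_iff.1 (r2 t' ht' x hx).1).2
    have a1 := gam_cmp A E st sρ (x := x) (k := min δ1 (ε / (4 * X)) / s ^ 2)
      (fun r hr => (r2 r hr x hx).2.1) (by
        rw [sub_sub_cancel, div_mul_eq_mul_div, div_le_iff₀ s2]; nlinarith) tm ht'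
    have a2 := one_le_Z q0 (β := ρ x - m) (by linarith [(k4 x hx).1, A.gam_nonneg t hT sρ x])
    have a3 : (ρ x - m) / (c * s) ^ 2 ≤ (H.gam t' ρ ρ x + 2 * e * s ^ 2) / (c * s) ^ 2 := by
      gcongr; linarith [(k4 x hx).2]
    have a4 : 1 ≤ 4 * Z x ^ 2 + (H.gam t' ρ ρ x + 2 * e * s ^ 2) / (c * s) ^ 2 := by
      rw [hZ]; linarith
    have a5 := mul_le_mul_of_nonneg_left a4 (mul_nonneg (φ0 x) n0)
    have a6 := mul_le_mul_of_nonneg_left n1 (mul_nonneg (φ0 x) (show 0 ≤ 4 * Z x ^ 2 +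
      2 * e * s ^ 2 / (c * s) ^ 2 by positivity))
    refine (mul_one _).symm.trans_le (a5.trans ?_)
    simp only [div_eq_mul_inv] at a6 ⊢
    nlinarith
  rw [int_add A I hT' (A.s0_cmul _ sZ2) (A.s0_add (A.s0_cmul _ (A.s0_mul sφ sG))
    (A.s0_cmul _ sφ)), int_add A I hT' (A.s0_cmul _ (A.s0_mul sφ sG)) (A.s0_cmul _ sφ),
    integral_const_mul, integral_const_mul, integral_const_mul] at k7
  have k8 : ∫ x, φ x * (H.N 0 t' x * H.gam t' ρ ρ x) ∂H.vol t' ≤ e ^ 2 * s ^ 2 :=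
    (wt_le_setInt h hT' (isOpen_B D hT y (3 * s)) sφ sG φ1
      (fun x => mul_nonneg (E.N_nonneg 0 t' hT' x) (A.gam_nonneg t' hT' sρ x)) fun x hx =>
        B_mono2 t y (show s + s ≤ 3 * s by linarith) (by
          by_contra hn; exact hx (φ3 x hn).1)).trans k2
  have k9 : ∫ x, φ x ∂H.vol t' ≤ 16 * W * V * s ^ 4 := by
    have := I.fin t' hT'
    exact (int_le_vol' oS.measurableSet φ0 (fun x _ => φ1 x) fun x hx => (φ3 x hx).1).trans
      ((one_mul _).trans_le (vr t' ht'))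
  have k10 : ∫ x, φ x * H.N 0 t' x ∂H.vol t' ≤ ε / 2 := by
    refine k7.trans (le_trans ?_ hce)
    refine (add_le_add (mul_le_mul_of_nonneg_left k6 (by positivity)) (add_le_add
      (mul_le_mul_of_nonneg_left k8 (by positivity))
      (mul_le_mul_of_nonneg_left k9 (by positivity)))).trans_eq ?_
    field_simp; ring
  have k11 := hfl st s0 hB (by positivity) d4 L1.le oS.measurableSet r2 sφ φ0 φ1
    (fun x hx => (φ3 x hx).1) φg vr ht'
  have k12 := setInt_le_wt h hT (isOpen_B D hT y s) sφ (A.s0_N hT 0) φ0 (E.N_nonneg 0 t hT)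
    fun x hx => (φ2 x hx).ge
  have k13 : X * min δ1 (ε / (4 * X)) ≤ ε / 4 :=
    (mul_le_mul_of_nonneg_left (min_le_right _ _) X0.le).trans_eq (by field_simp)
  rw [← hX] at k11
  unfold en
  linarith

/-- epsilon regularity from the entropy -/
theorem ereg_ent (h : H.Ok) (He : H.Hes) (hV : H.VolUp) (hF : H.Flux) (hS : H.GSmooth)
    (hR : H.GRegE) {t0 ε : ℝ} (h0 : 0 < t0) (hε : 0 < ε) : ∃ η r1 : ℝ, 0 < η ∧ 0 < r1 ∧
      ∀ {a t R e : ℝ} {z : M}, t0 ≤ a → a ≤ t - 2 * R ^ 2 → t < H.T → 0 < R → R ≤ r1 → 0 < e →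
        (∀ (y : M) (ε' τ0 : ℝ) (v : ℝ → M → ℝ), H.d t z y ≤ 10 * R → ε' ≤ e → H.CS a t y ε' τ0 v →
          ∀ σ ∈ Icc (t - 2 * R ^ 2) t, -η ≤ H.Wv t τ0 v σ) → H.en t z R < ε := by
  have A := h.alg
  obtain ⟨ε0, B0, ε1, B1, hR⟩ := hR t0 h0
  have m0 : 0 < min ε ε0 := lt_min hε ε1
  obtain ⟨η, δ, η0, δ0, hN⟩ := no_conc h He hV hF hS (B := B0 / (1 / 2) ^ 2) h0 (by positivity) m0
  obtain ⟨β, β0, hR⟩ := hR (1 / 2) δ (by norm_num) δ0
  obtain ⟨V, V0, hV⟩ := hV t0 h0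
  refine ⟨η / 2, min β (1 / 2), by positivity, by positivity,
    fun {a t R e z} ha has hT R0 R1 e0 hW => ?_⟩
  have st : H.St a t := ⟨by linarith, by nlinarith, hT⟩
  have ht : t ∈ Ioo 0 H.T := ⟨st.1.trans st.2.1, hT⟩
  have ht0 : t ∈ Ico t0 H.T := ⟨by linarith [st.2.1], hT⟩
  have := h.int.fin t ht
  obtain ⟨K, hK⟩ := (isCompact_range (A.s0_cont (A.s0_N ht 0))).bddAbove
  have hK' : ∀ x, H.N 0 t x ≤ |K| := fun x => (hK ⟨x, rfl⟩).trans (le_abs_self _)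
  have K0 := abs_nonneg K
  by_contra hn
  obtain ⟨y, r, r0, r1, d1, p1, p2⟩ := pick_pt (d := H.d t) (Λ := 5) (z := z)
    (P := fun y r => min ε ε0 ≤ H.en t y r) (r1 := min 1 (min ε ε0 / (|K| * V + 1)))
    (h.dist.tri t ht) (h.dist.self t ht z).le R0 (by positivity) (fun y r r0 r1 => not_le.2 (by
      have a1 : H.en t y r ≤ |K| * (H.vol t).real (H.B t y r) := by
        have := setIntegral_mono_on (s := H.B t y r) (A.integrable h.int ht (A.s0_N ht 0)).integrableOn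
          (integrable_const |K|).integrableOn (isOpen_B h.dist ht y r).measurableSet fun x _ => hK' x
        rwa [setIntegral_const, smul_eq_mul, mul_comm] at this
      have a2 := mul_le_mul_of_nonneg_left (hV t ht0 y r r0) K0
      have a3 : r ^ 4 ≤ r := pow_le_of_le_one r0.le (r1.le.trans (min_le_left _ _)) (by norm_num)
      have a4 := (lt_div_iff₀ (by positivity)).1 (r1.trans_le (min_le_right _ _))
      nlinarith [mul_le_mul_of_nonneg_left a3 (mul_nonneg K0 V0.le)]))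
    ((min_le_left _ _).trans (not_lt.1 hn))
  have reg := hR t ht0 r (H.B t y (5 * r)) r0 (r1.trans (R1.trans (min_le_left _ _))) fun x hx => by
    rw [show 1 / 2 * r = r / 2 by ring]
    exact (not_le.1 (p2 x hx)).le.trans (min_le_right _ _)
  obtain ⟨τ0, v, cs⟩ := exists_cs h st y (ε := min e (min (r ^ 2) (η / 2))) (by positivity)
  have r2 : r ^ 2 ≤ R ^ 2 := by gcongr
  have r3 : 0 < r ^ 2 := by positivity
  refine (not_lt.2 p1) (hN ha cs r0 (r1.trans (R1.trans (min_le_right _ _))) (by linarith)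
    ((min_le_right _ _).trans (min_le_left _ _)) reg ?_)
  have w1 := hW y _ τ0 v (by linarith) (min_le_left _ _) cs (t - 2 * r ^ 2)
    ⟨by linarith, by linarith⟩
  have w2 := A.W_mono h.int h.evo cs.st cs.conj (A.conj_pos h.evo cs.st cs.conj cs.pos) cs.t0
    (show t - r ^ 2 ∈ Icc a t from ⟨by linarith, by linarith⟩) ⟨st.2.1.le, le_rfl⟩ (by linarith)
  have w3 := cs.hW.trans ((min_le_right _ _).trans (min_le_right _ _))
  simp only [add_sub_cancel_right] at w2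
  unfold drop Wv at *
  linarith

end Crest.Agent.N207.Ge

end
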