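import Crest.Agent.N207.G.EnE2

/-!
# Row 207, block G (helper22): the Gaussian integral of an almost conical function
-/

set_option autoImplicit false
set_option linter.dupNamespace false
set_option linter.unusedSectionVars false
open Set MeasureTheory Filter Topology
open scoped ContDiff

noncomputable section

namespace Crest.Agent.N207.Ge

open HC

variable {M : Type*} [TopologicalSpace M] [CompactSpace M] [MeasurableSpace M]
  [OpensMeasurableSpace M] {H : HC M}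

/-- `β² ∫ χ e^{-β b}` -/
def JJ (μ : Measure M) (χ b : M → ℝ) (β : ℝ) : ℝ := β ^ 2 * ∫ x, χ x * Real.exp (-(β * b x)) ∂μ

theorem s0_gau (A : H.Alg) {b : M → ℝ} (sb : H.S0 b) (β : ℝ) :
    H.S0 fun x => Real.exp (-(β * b x)) := A.s0_exp (A.s0_neg (A.s0_cmul β sb))

theorem gau_deriv {μ : Measure M} [IsFiniteMeasure μ] {χ b : M → ℝ} (cχ : Continuous χ)
    (cb : Continuous b) (β : ℝ) : HasDerivAt (fun β => ∫ x, χ x * Real.exp (-(β * b x)) ∂μ)
      (∫ x, χ x * (Real.exp (-(β * b x)) * -b x) ∂μ) β := by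
  obtain ⟨K, hK⟩ := (isCompact_range cb.abs).bddAbove
  obtain ⟨L, hL⟩ := (isCompact_range cχ.abs).bddAbove
  have k1 : ∀ x, |b x| ≤ K := fun x => hK ⟨x, rfl⟩
  have k2 : ∀ x, |χ x| ≤ L := fun x => hL ⟨x, rfl⟩
  refine (hasDerivAt_integral_of_dominated_loc_of_deriv_le (μ := μ) (s := Metric.ball β 1)
    (F := fun β x => χ x * Real.exp (-(β * b x)))
    (F' := fun β x => χ x * (Real.exp (-(β * b x)) * -b x))
    (bound := fun _ => L * (Real.exp ((|β| + 1) * K) * K)) (Metric.ball_mem_nhds _ one_pos)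
    (Eventually.of_forall fun β => (by fun_prop : Continuous _).aestronglyMeasurable)
    ((by fun_prop : Continuous _).integrable_of_hasCompactSupport
      (HasCompactSupport.of_compactSpace _))
    (by fun_prop : Continuous _).aestronglyMeasurable
    (Eventually.of_forall fun x y hy => ?_) (integrable_const _)
    (Eventually.of_forall fun x y _ => ?_)).2
  · have a1 : |y| ≤ |β| + 1 := by
      have := abs_sub_abs_le_abs_sub y β
      have : |y - β| < 1 := hy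
      linarith
    have a2 : -(y * b x) ≤ (|β| + 1) * K := (neg_le_abs _).trans (by
      rw [abs_mul]; exact mul_le_mul a1 (k1 x) (abs_nonneg _) (by positivity))
    rw [Real.norm_eq_abs, abs_mul, abs_mul, abs_neg, abs_of_pos (Real.exp_pos _)]
    exact mul_le_mul (k2 x) (mul_le_mul (Real.exp_le_exp.2 a2) (k1 x) (abs_nonneg _)
      (Real.exp_pos _).le) (by positivity) ((abs_nonneg _).trans (k2 x))
  · simpa using (((hasDerivAt_id y).mul_const (b x)).neg.exp).const_mul (χ x)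

/-- the error term -/
def Er (H : HC M) (t : ℝ) (χ b : M → ℝ) (β : ℝ) (x : M) : ℝ :=
  χ x * Real.exp (-(β * b x)) * (H.lap t b x - 8 - β * (H.gam t b b x - 4 * b x)) +
    Real.exp (-(β * b x)) * H.gam t χ b x

theorem JJ_deriv (A : H.Alg) (I : H.Intg) {t : ℝ} (ht : t ∈ Ioo 0 H.T) {χ b : M → ℝ}
    (sχ : H.S0 χ) (sb : H.S0 b) (β : ℝ) :
    HasDerivAt (JJ (H.vol t) χ b) (-(β / 4) * ∫ x, Er H t χ b β x ∂H.vol t) β := by
  have := I.fin t ht
  have d := (hasDerivAt_pow 2 β).mul (gau_deriv (μ := H.vol t) (A.s0_cont sχ) (A.s0_cont sb) β)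
  refine d.congr_deriv ?_
  have se := s0_gau A sb β
  have s1 := A.s0_mul sχ se
  have k1 := I.ibp t ht s1 sb
  have c : ContDiff ℝ ∞ fun y : ℝ => Real.exp (-(β * y)) := by fun_prop
  have e : ∀ x, Er H t χ b β x = χ x * Real.exp (-(β * b x)) * H.lap t b x +
      H.gam t (fun y => χ y * Real.exp (-(β * b y))) b x + (-8 * (χ x * Real.exp (-(β * b x))) +
        -(4 * β) * (χ x * (Real.exp (-(β * b x)) * -b x))) := fun x => by
    have d1 : deriv (fun y : ℝ => Real.exp (-(β * y))) (b x) = Real.exp (-(β * b x)) * -β := by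
      simpa using (((hasDerivAt_id (b x)).const_mul β).neg.exp).deriv
    rw [A.gam_mul t ht sχ se sb, A.gam_compU ht c sb sb, d1, Er]
    ring
  have s2 := A.s0_mul sχ (A.s0_mul se (A.s0_neg sb))
  simp only [e]
  rw [int_add A I ht (A.s0_add (A.s0_mul s1 (A.s0_lap ht sb)) (A.s0_gam ht s1 sb))
    (A.s0_add (A.s0_cmul _ s1) (A.s0_cmul _ s2)),
    int_add A I ht (A.s0_mul s1 (A.s0_lap ht sb)) (A.s0_gam ht s1 sb), k1,
    int_add A I ht (A.s0_cmul _ s1) (A.s0_cmul _ s2), integral_const_mul, integral_const_mul]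
  simp only [Nat.cast_ofNat, Nat.add_one_sub_one, pow_one]
  ring

/-- the static data of a good scale -/
structure CD (H : HC M) (t : ℝ) (z : M) (s θ A C κ e k V : ℝ) (b χ : M → ℝ) : Prop where
  ht : t ∈ Ioo 0 H.T
  s0 : 0 < s
  θ0 : 0 < θ
  θ1 : θ ≤ 1
  C1 : 1 ≤ C
  CA : 16 * C ≤ A
  κ0 : 0 < κ
  κ1 : κ ≤ 1 / 2
  e0 : 0 < e
  e1 : e ≤ 1
  k0 : 0 ≤ k
  vol : ∀ r > 0, (H.vol t).real (H.B t z r) ≤ V * r ^ 4
  sb : H.S0 b
  sχ : H.S0 χ
  χ01 : ∀ x, 0 ≤ χ x ∧ χ x ≤ 1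
  one : ∀ x ∈ H.An t z (2 * θ * s) (A / 2 * s), χ =ᶠ[𝓝 x] fun _ => 1
  zero : ∀ x ∉ H.An t z (θ * s) (A * s), χ =ᶠ[𝓝 x] fun _ => 0
  gi : ∀ x, H.d t z x ≤ A / 2 * s → H.gam t χ χ x ≤ (k / (θ * s)) ^ 2
  go : ∀ x, 2 * θ * s ≤ H.d t z x → H.gam t χ χ x ≤ (k / (A / 2 * s)) ^ 2
  hess : ∀ x ∈ H.An t z (θ * s) (A * s), H.Pc 2 t b x ≤ e ^ 2
  gam : ∀ x ∈ H.An t z (θ * s) (A * s), |H.gam t b b x - 4 * b x| ≤ e ^ 2 * s ^ 2
  val : ∀ x ∈ H.An t z (θ * s) (A * s),
    |√(b x + 2 * s ^ 2) - H.d t z x| ≤ C * s + κ * H.d t z x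

namespace CD

variable {t s θ A C κ e k V : ℝ} {z : M} {b χ : M → ℝ}

theorem es (c : CD H t z s θ A C κ e k V b χ) : e ^ 2 * s ^ 2 ≤ s ^ 2 :=
  mul_le_of_le_one_left (sq_nonneg _) (pow_le_one₀ c.e0.le c.e1)

theorem b_lo (Al : H.Alg) (c : CD H t z s θ A C κ e k V b χ) {x : M}
    (hx : x ∈ H.An t z (θ * s) (A * s)) : -(s ^ 2 / 4) ≤ b x := by
  linarith [(abs_le.1 (c.gam x hx)).2, Al.gam_nonneg t c.ht c.sb x, c.es]

theorem gam_le (Al : H.Alg) (c : CD H t z s θ A C κ e k V b χ) {x : M}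
    (hx : x ∈ H.An t z (θ * s) (A * s)) {g p : ℝ} (g0 : 0 ≤ g) (h1 : H.gam t χ χ x ≤ g ^ 2)
    (h2 : H.d t z x ≤ p * s) : |H.gam t χ b x| ≤ g * (2 * ((C + 2 * p) * s)) := by
  have a1 := c.b_lo Al hx
  have s2 := pow_pos c.s0 2
  have a2 := Real.sq_sqrt (show 0 ≤ b x + 2 * s ^ 2 by linarith)
  have d0 : 0 ≤ H.d t z x := le_trans (mul_pos c.θ0 c.s0).le hx.1
  have a3 : √(b x + 2 * s ^ 2) ≤ (C + 2 * p) * s := by
    nlinarith [(abs_le.1 (c.val x hx)).2, mul_le_mul_of_nonneg_right c.κ1 d0]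
  have a4 := pow_le_pow_left₀ (Real.sqrt_nonneg _) a3 2
  have a5 : H.gam t b b x ≤ (2 * ((C + 2 * p) * s)) ^ 2 := by
    linarith [(abs_le.1 (c.gam x hx)).2, c.es]
  refine abs_le.2 (abs_le_of_sq_le_sq' ((Al.gam_sq c.ht c.sχ c.sb x).trans ?_)
    (mul_nonneg g0 (by linarith [Real.sqrt_nonneg (b x + 2 * s ^ 2)])))
  rw [mul_pow]
  exact mul_le_mul h1 a5 (Al.gam_nonneg t c.ht c.sb x) (sq_nonneg _)

theorem er_le (h : H.Ok) (c : CD H t z s θ A C κ e k V b χ) {Λ β : ℝ}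
    (hβ : β ∈ Icc (1 / (Λ * s) ^ 2) (1 / s ^ 2)) (hΛ : 0 < Λ) (x : M) : |Er H t χ b β x| ≤
      (H.B t z (2 * A * s)).indicator
        (fun _ => 9 * e + 12 * k * Real.exp (-(A ^ 2 / (128 * Λ ^ 2)))) x +
      (H.B t z (3 * θ * s)).indicator (fun _ => 6 * k * (C + 4) / θ) x := by
  have Al := h.alg
  have s0 := c.s0; have θ0 := c.θ0; have C1 := c.C1; have e0 := c.e0; have k0 := c.k0
  have CA := c.CA
  have A0 : 0 < A := by linarith
  have s2 := pow_pos s0 2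
  have β0 : 0 < β := lt_of_lt_of_le (by positivity) hβ.1
  have β1 : β * s ^ 2 ≤ 1 := (le_div_iff₀ s2).1 hβ.2
  have p2 : 0 ≤ (H.B t z (3 * θ * s)).indicator (fun _ => 6 * k * (C + 4) / θ) x :=
    indicator_nonneg (fun _ _ => by positivity) x
  have g0 : ∀ p : ℝ, χ =ᶠ[𝓝 x] (fun _ => p) → H.gam t χ b x = 0 := fun p hp => by
    rw [(Al.local_eq c.ht c.sχ (Al.s0_const p) hp).2 b c.sb, Al.gam_const c.ht p c.sb]
  by_cases hx : x ∈ H.An t z (θ * s) (A * s)
  swap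
  · rw [Er, g0 0 (c.zero x hx), (c.zero x hx).self_of_nhds]
    simpa using add_nonneg (indicator_nonneg (fun _ _ => by positivity) x) p2
  have b0 := c.b_lo Al hx
  have x3 : Real.exp (-(β * b x)) ≤ 3 :=
    (Real.exp_le_exp.2 (by nlinarith)).trans Real.exp_one_lt_three.le
  have x0 := Real.exp_pos (-(β * b x))
  have a1 : |H.lap t b x - 8| ≤ 2 * e := abs_le.2 (abs_le_of_sq_le_sq' (by
    have := lap_sub_sq h.evo c.ht c.sb 2 x; have := c.hess x hx; nlinarith) (by positivity))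
  have a2 : |β * (H.gam t b b x - 4 * b x)| ≤ e := by
    rw [abs_mul, abs_of_pos β0]
    nlinarith [mul_le_mul_of_nonneg_left (c.gam x hx) β0.le, c.e1,
      mul_le_mul_of_nonneg_left β1 (sq_nonneg e)]
  have a3 : |χ x * Real.exp (-(β * b x)) *
      (H.lap t b x - 8 - β * (H.gam t b b x - 4 * b x))| ≤ 9 * e := by
    rw [abs_mul, abs_of_nonneg (mul_nonneg (c.χ01 x).1 x0.le)]
    have a0 : χ x * Real.exp (-(β * b x)) ≤ 3 := by nlinarith [c.χ01 x]
    exact (mul_le_mul a0 ((abs_sub _ _).trans (add_le_add a1 a2)) (abs_nonneg _)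
      (by norm_num)).trans_eq (by ring)
  rw [indicator_of_mem (show x ∈ H.B t z (2 * A * s) from
    lt_of_le_of_lt hx.2 (by nlinarith)), add_assoc]
  refine (abs_add_le _ _).trans (add_le_add a3 ?_)
  rw [abs_mul, abs_of_pos x0]
  have p1 : 0 ≤ 12 * k * Real.exp (-(A ^ 2 / (128 * Λ ^ 2))) := by positivity
  rcases lt_or_ge (H.d t z x) (2 * θ * s) with h1 | h1
  · have a4 := c.gam_le Al hx (p := 2) (by positivity) (c.gi x (by nlinarith [c.θ1]))
      (by nlinarith [c.θ1])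
    rw [indicator_of_mem (show x ∈ H.B t z (3 * θ * s) from
      lt_trans h1 (by nlinarith))]
    refine le_add_of_nonneg_of_le p1 ((mul_le_mul x3 a4 (abs_nonneg _) (by norm_num)).trans_eq ?_)
    field_simp; ring
  rcases le_or_gt (H.d t z x) (A / 2 * s) with h2 | h2
  · rw [g0 1 (c.one x ⟨h1, h2⟩)]
    simpa using add_nonneg (by simpa using p1) p2
  have a4 := c.gam_le Al hx (by positivity) (c.go x h1) hx.2
  have a5 : k / (A / 2 * s) * (2 * ((C + 2 * A) * s)) ≤ 12 * k := by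
    rw [div_mul_eq_mul_div, div_le_iff₀ (by positivity)]
    nlinarith [mul_nonneg k0 (mul_nonneg s0.le (show 0 ≤ A - C by linarith))]
  have a6 : A / 8 * s ≤ √(b x + 2 * s ^ 2) := by
    nlinarith [(abs_le.1 (c.val x hx)).1, mul_le_mul_of_nonneg_right c.κ1
      (show 0 ≤ H.d t z x by nlinarith)]
  have a7 : A ^ 2 / 128 * s ^ 2 ≤ b x := by
    have := (Real.le_sqrt (by positivity) (by linarith)).1 a6
    nlinarith [mul_le_mul_of_nonneg_right (show 256 ≤ A ^ 2 by nlinarith) s2.le]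
  have a8 : A ^ 2 / (128 * Λ ^ 2) ≤ β * b x :=
    le_trans (le_of_eq (by field_simp)) (mul_le_mul hβ.1 a7 (by positivity) β0.le)
  refine le_add_of_le_of_nonneg ?_ p2
  rw [mul_comm]
  exact mul_le_mul (a4.trans a5) (Real.exp_le_exp.2 (by linarith)) x0.le (by positivity)

theorem JJ_lip (h : H.Ok) (c : CD H t z s θ A C κ e k V b χ) {Λ β β' : ℝ} (hΛ : 0 < Λ)
    (hβ : β ∈ Icc (1 / (Λ * s) ^ 2) (1 / s ^ 2)) (hβ' : β' ∈ Icc (1 / (Λ * s) ^ 2) (1 / s ^ 2)) :
    |JJ (H.vol t) χ b β' - JJ (H.vol t) χ b β| ≤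
      4 * V * A ^ 4 * (9 * e + 12 * k * Real.exp (-(A ^ 2 / (128 * Λ ^ 2)))) +
        122 * k * (C + 4) * V * θ ^ 3 := by
  have := h.int.fin t c.ht
  have s0 := c.s0; have θ0 := c.θ0; have C1 := c.C1; have e0 := c.e0; have k0 := c.k0
  have A0 : 0 < A := by linarith [c.CA]
  have V0 : 0 ≤ V := by simpa using measureReal_nonneg.trans (c.vol 1 one_pos)
  obtain ⟨D, hD⟩ : ∃ D, D = 4 * V * A ^ 4 * (9 * e + 12 * k * Real.exp (-(A ^ 2 / (128 * Λ ^ 2)))) +
    122 * k * (C + 4) * V * θ ^ 3 := ⟨_, rfl⟩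
  have D0 : 0 ≤ D := by rw [hD]; positivity
  have m := fun r => (isOpen_B h.dist c.ht z r).measurableSet
  have k1 := (convex_Icc (1 / (Λ * s) ^ 2) (1 / s ^ 2)).norm_image_sub_le_of_norm_hasDerivWithin_le
    (C := D * s ^ 2) (fun γ _ => (JJ_deriv h.alg h.int c.ht c.sχ c.sb γ).hasDerivWithinAt)
    (fun γ hγ => by
      have γ0 : 0 < γ := lt_of_lt_of_le (by positivity) hγ.1
      have a1 := norm_integral_le_of_norm_le (μ := H.vol t) (f := Er H t χ b γ)
        (((integrable_const _).indicator (m _)).fun_add ((integrable_const _).indicator (m _)))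
        (Eventually.of_forall (c.er_le h hγ hΛ))
      rw [integral_add ((integrable_const _).indicator (m _)) ((integrable_const _).indicator (m _)),
        integral_indicator (m _), integral_indicator (m _), setIntegral_const, setIntegral_const,
        smul_eq_mul, smul_eq_mul] at a1
      have a2 := add_le_add (mul_le_mul_of_nonneg_right (c.vol (2 * A * s) (by positivity))
        (show 0 ≤ 9 * e + 12 * k * Real.exp (-(A ^ 2 / (128 * Λ ^ 2))) by positivity))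
        (mul_le_mul_of_nonneg_right (c.vol (3 * θ * s) (by positivity))
          (show 0 ≤ 6 * k * (C + 4) / θ by positivity))
      have a3 : V * (3 * θ * s) ^ 4 * (6 * k * (C + 4) / θ) =
        486 * (k * (C + 4) * V * θ ^ 3 * s ^ 4) := by field_simp; ring
      have a4 : 0 ≤ k * (C + 4) * V * θ ^ 3 * s ^ 4 := by positivity
      have a5 : ‖∫ x, Er H t χ b γ x ∂H.vol t‖ ≤ 4 * D * s ^ 4 := by
        rw [hD]; linarith
      rw [norm_mul, norm_neg, Real.norm_of_nonneg (by positivity)]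
      refine (mul_le_mul (div_le_div_of_nonneg_right hγ.2 (by norm_num)) a5 (norm_nonneg _)
        (by positivity)).trans_eq (by field_simp)) hβ hβ'
  have p : 0 < 1 / (Λ * s) ^ 2 := by positivity
  have k2 : ‖β' - β‖ ≤ 1 / s ^ 2 := abs_le.2 ⟨by linarith [hβ.2, hβ'.1], by linarith [hβ.1, hβ'.2]⟩
  rw [← hD]
  exact k1.trans ((mul_le_mul_of_nonneg_left k2 (by positivity)).trans_eq (by field_simp))

theorem JJ_lo (h : H.Ok) (c : CD H t z s θ A C κ e k V b χ) {Λ p : ℝ} (hΛ : 0 < Λ)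
    (hp : p ≤ ∫ x in H.An t z (2 * θ * s) (A / 2 * s),
      Real.exp (-((1 + κ) ^ 3 / (Λ * s) ^ 2 * H.d t z x ^ 2)) ∂H.vol t) :
    Real.exp (-((1 + 1 / κ) * C ^ 2 / Λ ^ 2)) * (p / (Λ * s) ^ 4) ≤
      JJ (H.vol t) χ b (1 / (Λ * s) ^ 2) := by
  have Al := h.alg
  have s0 := c.s0; have θ0 := c.θ0; have κ0 := c.κ0; have C1 := c.C1
  have A0 : 0 < A := by linarith [c.CA]
  have cd := h.dist.cont t c.ht z
  have k1 := setInt_le_int h c.ht (isClosed_An h c.ht z (2 * θ * s) (A / 2 * s)).measurableSet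
    (P := fun x => Real.exp (-((1 + 1 / κ) * C ^ 2 / Λ ^ 2)) *
      Real.exp (-((1 + κ) ^ 3 / (Λ * s) ^ 2 * H.d t z x ^ 2)))
    (Al.integrable_cont h.int c.ht (by fun_prop))
    (Al.s0_mul c.sχ (s0_gau Al c.sb (1 / (Λ * s) ^ 2)))
    (fun x => mul_nonneg (c.χ01 x).1 (Real.exp_pos _).le) fun x hx => by
      have hx' : x ∈ H.An t z (θ * s) (A * s) :=
        ⟨le_trans (by nlinarith) hx.1, le_trans hx.2 (by nlinarith)⟩
      have a1 : √(b x + 2 * s ^ 2) ≤ C * s + (1 + κ) * H.d t z x := by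
        linarith [(abs_le.1 (c.val x hx')).2]
      have a2 := Real.sq_sqrt (show 0 ≤ b x + 2 * s ^ 2 by nlinarith [c.b_lo Al hx'])
      have a3 := pow_le_pow_left₀ (Real.sqrt_nonneg _) a1 2
      have a4 : (C * s + (1 + κ) * H.d t z x) ^ 2 ≤
          (1 + 1 / κ) * (C * s) ^ 2 + (1 + κ) * ((1 + κ) * H.d t z x) ^ 2 := by
        generalize (1 + κ) * H.d t z x = y
        have : (1 + 1 / κ) * (C * s) ^ 2 + (1 + κ) * y ^ 2 - (C * s + y) ^ 2 =
          (C * s - κ * y) ^ 2 / κ := by field_simp; ring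
        have : 0 ≤ (C * s - κ * y) ^ 2 / κ := by positivity
        linarith
      have a5 : 1 / (Λ * s) ^ 2 * b x ≤ 1 / (Λ * s) ^ 2 *
          ((1 + 1 / κ) * (C * s) ^ 2 + (1 + κ) * ((1 + κ) * H.d t z x) ^ 2) := by
        gcongr; nlinarith
      simp only [(c.one x hx).self_of_nhds, one_mul]
      rw [← Real.exp_add, ← neg_add]
      exact Real.exp_le_exp.2 (neg_le_neg (a5.trans_eq (by field_simp)))
  rw [integral_const_mul] at k1
  have k2 := (mul_le_mul_of_nonneg_left hp (Real.exp_pos _).le).trans k1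
  unfold JJ
  refine le_trans (le_of_eq ?_) (mul_le_mul_of_nonneg_left k2 (sq_nonneg _))
  field_simp

end CD

end Crest.Agent.N207.Ge

end
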