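import Crest.Agent.N207.G.EnF1

/-!
# Row 207, block G (helper22): the Nash entropy on a Euclidean neck
-/

set_option autoImplicit false
set_option linter.dupNamespace false
set_option linter.unusedSectionVars false
open Set MeasureTheory Filter Topology
open scoped ContDiff

noncomputable section

namespace Crest.Agent.N207.Ge

open HC

variable {M : Type*} [TopologicalSpace M] [CompactSpace M] [MeasurableSpace M]
  [OpensMeasurableSpace M] {H : HC M}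

theorem exp_lip {x y E : ℝ} (hx : Real.exp (-x) ≤ E) :
    Real.exp (-x) ≤ Real.exp (-y) + E * |x - y| := by
  have h1 := Real.add_one_le_exp (x - y)
  have h2 : Real.exp (-y) = Real.exp (-x) * Real.exp (x - y) := by
    rw [← Real.exp_add]; congr 1; ring
  have h3 := Real.exp_pos (-x)
  nlinarith [mul_le_mul_of_nonneg_left h1 h3.le, neg_abs_le (x - y),
    mul_le_mul_of_nonneg_right hx (abs_nonneg (x - y))]

theorem exp_pot {τ γ : ℝ} (hτ : 0 < τ) (hγ : 4 * τ * γ = 1) {u : M → ℝ} {x : M} (hu : 0 < u x) :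
    (γ / Real.pi) ^ 2 * Real.exp (-pot τ u x) = u x := by
  have := Real.pi_pos
  have e : -pot τ u x = Real.log (u x) + Real.log ((4 * Real.pi * τ) ^ 2) := by
    rw [Real.log_pow, pot]; push_cast; ring
  rw [e, Real.exp_add, Real.exp_log hu, Real.exp_log (by positivity),
    show γ = 1 / (4 * τ) by field_simp; linarith]
  field_simp

theorem num_oh {η h o X Xh j1 j2 Y m : ℝ} (h0 : 0 < h) (h1 : h ≤ η / 6) (o0 : 0 < o)
    (o1 : o ≤ 1 / 4) (o2 : o ≤ h * η / 60) (X0 : 0 < X) (Xh0 : 0 ≤ Xh) (hX : Xh ≤ max 1 X)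
    (a1 : 1 - o ≤ j1) (a2 : j2 ≤ j1 + o) (a3 : X * j1 ≤ 1 + o)
    (a4 : Y ≤ (1 + o) * (Xh * X * j2 / (1 + h) ^ 2) + o) (a5 : 1 - o ≤ m) :
    2 - η ≤ (m - Y) / h := by
  have b1 : X ≤ 1 + 4 * o := by
    by_contra hn
    nlinarith [mul_le_mul_of_nonneg_left a1 X0.le]
  have b2 : Xh ≤ 1 + 4 * o := hX.trans (max_le (by linarith) b1)
  have b3 : X * j2 ≤ 1 + 4 * o := by nlinarith [mul_le_mul_of_nonneg_left a2 X0.le]
  have b4 : Xh * (X * j2) ≤ (1 + 4 * o) * (1 + 4 * o) :=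
    (mul_le_mul_of_nonneg_left b3 Xh0).trans (by gcongr)
  have b5 : (1 + o) * (Xh * (X * j2)) ≤ 1 + 28 * o := by
    nlinarith [mul_le_mul_of_nonneg_left b4 (show 0 ≤ 1 + o by linarith), mul_pos o0 o0]
  have b6 : (1 + 28 * o) / (1 + h) ^ 2 ≤ 1 - 2 * h + 3 * h ^ 2 + 28 * o := by
    rw [div_le_iff₀ (by positivity)]
    nlinarith [pow_pos h0 3, pow_pos h0 4, mul_pos o0 h0, mul_pos o0 (pow_pos h0 2)]
  have b7 : (1 + o) * (Xh * X * j2 / (1 + h) ^ 2) ≤ (1 + 28 * o) / (1 + h) ^ 2 := by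
    rw [← mul_div_assoc, mul_assoc Xh]; gcongr
  rw [le_div_iff₀ h0]
  nlinarith [mul_le_mul_of_nonneg_left h1 h0.le]

namespace CD

variable {t s θ A C κ e k V : ℝ} {z : M} {b χ : M → ℝ}

theorem pair_k (h : H.Ok) (c : CD H t z s θ A C κ e k V b χ) {σ γ μ W F q : ℝ} {f g : M → ℝ}
    (hσ : σ ∈ Ioo 0 H.T) (sf : H.S0 f) (sg : H.S0 g) (γ0 : 0 < γ) (γ1 : 4 * γ * s ^ 2 ≤ 1)
    (hf : ∀ x ∈ H.An t z (θ * s) (A * s), f x = γ * (b x - μ + g x)) (hμ : |μ| ≤ C * s ^ 2)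
    (l2 : ∫ x, g x ^ 2 ∂H.vol σ ≤ e ^ 2 * s ^ 8) (F0 : 0 ≤ F) (hF : ∀ x, -f x ≤ F)
    (W0 : 0 ≤ W) (w1 : ∀ p, H.S0 p → (∀ x, 0 ≤ p x) → ∫ x, p x ∂H.vol t ≤ W * ∫ x, p x ∂H.vol σ ∧
      ∫ x, p x ∂H.vol σ ≤ W * ∫ x, p x ∂H.vol t) (W2 : W ≤ 2) (q1 : 1 ≤ q) (q2 : q ≤ 2) :
    Real.exp (q * γ * μ) * (JJ (H.vol t) χ b (q * γ) / Real.pi ^ 2) / q ^ 2 ≤
      W * (∫ x, χ x * ((γ / Real.pi) ^ 2 * Real.exp (-(q * f x))) ∂H.vol σ +
        Real.exp (2 * F + C + 1) * (1 + 32 * V * A ^ 4) * e) ∧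
    ∫ x, χ x * ((γ / Real.pi) ^ 2 * Real.exp (-(q * f x))) ∂H.vol σ ≤
      W * (Real.exp (q * γ * μ) * (JJ (H.vol t) χ b (q * γ) / Real.pi ^ 2) / q ^ 2) +
        Real.exp (2 * F + C + 1) * (1 + 32 * V * A ^ 4) * e := by
  have Al := h.alg
  have I := h.int
  have := I.fin t c.ht
  have s0 := c.s0; have e0 := c.e0; have C1 := c.C1
  have A0 : 0 < A := by linarith [c.CA]
  have s2 := pow_pos s0 2
  have π3 := Real.pi_gt_three
  obtain ⟨E, hE⟩ : ∃ E, E = Real.exp (2 * F + C + 1) := ⟨_, rfl⟩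
  have E0 : 0 < E := hE ▸ Real.exp_pos _
  obtain ⟨P, hP⟩ : ∃ P, P = (γ / Real.pi) ^ 2 := ⟨_, rfl⟩
  have P0 : 0 < P := by rw [hP]; positivity
  have P1 : P * (q * γ) * s ^ 6 ≤ 1 := by
    have a1 : γ / Real.pi ≤ γ := div_le_self γ0.le (by linarith)
    have a2 : P ≤ γ ^ 2 := by rw [hP]; gcongr
    have a3 : (γ * s ^ 2) ^ 3 ≤ (1 / 4) ^ 3 := by gcongr; linarith
    calc _ ≤ γ ^ 2 * (2 * γ) * s ^ 6 := by gcongr
      _ ≤ 1 := by nlinarith
  rw [← hE, ← hP]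
  have sbm := Al.s0_sub c.sb (Al.s0_const μ)
  have s1 := Al.s0_mul c.sχ (Al.s0_cmul P (s0_gau Al sf q))
  have s3 := Al.s0_mul c.sχ (Al.s0_cmul P (s0_gau Al sbm (q * γ)))
  have s4 := Al.s0_add (Al.s0_cmul (E / (e * s ^ 8)) (Al.s0_pow 2 sg))
    (Al.s0_cmul (E * e / s ^ 4) c.sχ)
  have k0 : ∫ x, χ x ∂H.vol σ ≤ 32 * V * A ^ 4 * s ^ 4 := by
    have a1 := int_le_vol' (μ := H.vol t) (isOpen_B h.dist c.ht z (2 * A * s)).measurableSet
      (fun x => (c.χ01 x).1) (fun x _ => (c.χ01 x).2) fun x hx =>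
        (c.zero x fun h' => hx (lt_of_le_of_lt h'.2 (by nlinarith))).self_of_nhds
    have a2 := c.vol (2 * A * s) (by positivity)
    have a3 := (w1 χ c.sχ fun x => (c.χ01 x).1).2
    have a4 := mul_le_mul_of_nonneg_right W2 (integral_nonneg (μ := H.vol t) fun x => (c.χ01 x).1)
    nlinarith
  have k1 : ∫ x, (E / (e * s ^ 8) * g x ^ 2 + E * e / s ^ 4 * χ x) ∂H.vol σ ≤
      E * (1 + 32 * V * A ^ 4) * e := by
    rw [int_add Al I hσ (Al.s0_cmul _ (Al.s0_pow 2 sg)) (Al.s0_cmul _ c.sχ), integral_const_mul,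
      integral_const_mul]
    exact (add_le_add (mul_le_mul_of_nonneg_left l2 (by positivity))
      (mul_le_mul_of_nonneg_left k0 (by positivity))).trans_eq (by field_simp)
  have k2 : ∀ x, (χ x * (P * Real.exp (-(q * γ * (b x - μ)))) ≤ χ x * (P * Real.exp (-(q * f x))) +
      (E / (e * s ^ 8) * g x ^ 2 + E * e / s ^ 4 * χ x)) ∧
      χ x * (P * Real.exp (-(q * f x))) ≤ χ x * (P * Real.exp (-(q * γ * (b x - μ)))) +
        (E / (e * s ^ 8) * g x ^ 2 + E * e / s ^ 4 * χ x) := fun x => by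
    obtain ⟨χ0, χ1⟩ := c.χ01 x
    by_cases hx : x ∈ H.An t z (θ * s) (A * s)
    swap
    · simp only [(c.zero x hx).self_of_nhds, zero_mul, mul_zero, add_zero, zero_add, and_self]
      positivity
    have a1 : Real.exp (-(q * f x)) ≤ E := hE ▸ Real.exp_le_exp.2 (by nlinarith [hF x])
    have a2 : Real.exp (-(q * γ * (b x - μ))) ≤ E := hE ▸ Real.exp_le_exp.2 (by
      have b1 : -(b x - μ) ≤ (C + 1) * s ^ 2 := by linarith [c.b_lo Al hx, (abs_le.1 hμ).2]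
      have b2 := mul_le_mul_of_nonneg_left b1 (show 0 ≤ q * γ by positivity)
      have b3 : q * γ * s ^ 2 ≤ 1 := by nlinarith [mul_pos γ0 s2]
      nlinarith)
    have a3 : |q * f x - q * γ * (b x - μ)| = q * γ * |g x| := by
      rw [hf x hx, show q * (γ * (b x - μ + g x)) - q * γ * (b x - μ) = q * γ * g x by ring,
        abs_mul, abs_of_pos (by positivity)]
    have a4 : χ x * (P * (E * (q * γ * |g x|))) ≤
        E / (e * s ^ 8) * g x ^ 2 + E * e / s ^ 4 * χ x := by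
      have b1 : P * (q * γ) ≤ 1 / s ^ 6 := by rwa [le_div_iff₀ (by positivity)]
      have b2 : χ x * |g x| ≤ g x ^ 2 / (e * s ^ 2) + e * s ^ 2 * χ x := by
        rw [← sq_abs (g x), div_add' _ _ _ (by positivity), le_div_iff₀ (by positivity)]
        have : 0 < e * s ^ 2 := by positivity
        generalize e * s ^ 2 = y at *
        nlinarith [sq_nonneg (|g x| - y * χ x), abs_nonneg (g x), mul_nonneg (mul_nonneg χ0
          (sub_nonneg.2 χ1)) (sq_nonneg y), mul_nonneg χ0 (sq_nonneg y)]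
      calc _ = E * (P * (q * γ)) * (χ x * |g x|) := by ring
        _ ≤ E * (1 / s ^ 6) * (g x ^ 2 / (e * s ^ 2) + e * s ^ 2 * χ x) := by gcongr
        _ = _ := by field_simp
    have a5 := exp_lip (y := q * γ * (b x - μ)) a1
    have a6 := exp_lip (y := q * f x) a2
    rw [abs_sub_comm] at a6
    rw [a3] at a5 a6
    constructor
    · nlinarith [mul_le_mul_of_nonneg_left a6 (mul_nonneg χ0 P0.le)]
    · nlinarith [mul_le_mul_of_nonneg_left a5 (mul_nonneg χ0 P0.le)]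
  have k3 := int_mono Al I hσ s3 (Al.s0_add s1 s4) fun x => (k2 x).1
  have k4 := int_mono Al I hσ s1 (Al.s0_add s3 s4) fun x => (k2 x).2
  rw [int_add Al I hσ s1 s4] at k3
  rw [int_add Al I hσ s3 s4] at k4
  have k5 := w1 _ s3 fun x => mul_nonneg (c.χ01 x).1 (by positivity)
  have k6 : ∫ x, χ x * (P * Real.exp (-(q * γ * (b x - μ)))) ∂H.vol t =
      Real.exp (q * γ * μ) * (JJ (H.vol t) χ b (q * γ) / Real.pi ^ 2) / q ^ 2 := by
    have : ∀ x, χ x * (P * Real.exp (-(q * γ * (b x - μ)))) =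
        P * Real.exp (q * γ * μ) * (χ x * Real.exp (-(q * γ * b x))) := fun x => by
      rw [show -(q * γ * (b x - μ)) = q * γ * μ + -(q * γ * b x) by ring, Real.exp_add]; ring
    simp only [this]
    rw [integral_const_mul, JJ, hP]
    field_simp
  rw [k6] at k5
  exact ⟨k5.1.trans (mul_le_mul_of_nonneg_left (by linarith) W0), by linarith [k5.2]⟩

end CD

end Crest.Agent.N207.Ge

end
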