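import Crest.Agent.N207.G.EnFD
import Crest.Agent.N207.T.Lo2

/-!
# Row 207, block G (helper90): the Gaussian integral over a Euclidean pre-neck
-/

set_option autoImplicit false
set_option linter.unusedSectionVars false

open scoped ContDiff Manifold Topology
open Set MeasureTheory Filter Metric
open Crest.GeometryTopology.CoordMetric
open Crest.Agent.N207.Sk

noncomputable section

namespace Crest.Agent.N207.Gs

theorem gauss_int {c : ℝ} (hc : 0 < c) : Integrable fun y : E4 => Real.exp (-c * ‖y‖ ^ 2) := by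
  refine ((GaussianFourier.integrable_cexp_neg_mul_sq_norm_add (V := E4) (b := c) (by simpa using hc)
    0 0).norm).congr (Eventually.of_forall fun y => ?_)
  simp only [zero_mul, add_zero, Complex.norm_exp]
  congr 1
  simp [← Complex.ofReal_pow]

theorem gauss_val {c : ℝ} (hc : 0 < c) :
    ∫ y : E4, Real.exp (-c * ‖y‖ ^ 2) = (Real.pi / c) ^ 2 := by
  rw [GaussianFourier.integral_rexp_neg_mul_sq_norm hc, finrank_euclideanSpace_fin,
    ← Real.rpow_natCast]
  norm_num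

theorem gauss_ann {l c ι r1 r2 : ℝ} (hl : 0 < l) (hc : l ≤ c) (hι : 0 < ι) (h1 : 0 < r1)
    (h2 : 1 ≤ ι * (l * r2 ^ 2)) (h3 : 0 ≤ r2) :
    (Real.pi / c) ^ 2 - T.om * (2 * r1) ^ 4 - 8 * ι * (Real.pi / (l / 2)) ^ 2 ≤
      ∫ y in {y : E4 | 2 * r1 ≤ ‖y‖ ∧ ‖y‖ ≤ r2 / 2}, Real.exp (-c * ‖y‖ ^ 2) := by
  have mB : MeasurableSet {y : E4 | 2 * r1 ≤ ‖y‖ ∧ ‖y‖ ≤ r2 / 2} :=
    ((isClosed_le continuous_const continuous_norm).inter
      (isClosed_le continuous_norm continuous_const)).measurableSet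
  have c0 := hl.trans_le hc
  have i1 : Integrable ((ball (0 : E4) (2 * r1)).indicator (1 : E4 → ℝ)) :=
    (integrable_indicator_iff measurableSet_ball).2 (integrableOn_const measure_ball_lt_top.ne)
  have i2 := (gauss_int (half_pos hl)).const_mul (8 * ι)
  rw [← integral_indicator mB, ← gauss_val c0, ← gauss_val (half_pos hl), ← integral_const_mul,
    ← T.vol_ball 0 (by positivity), ← integral_indicator_one measurableSet_ball,
    ← integral_sub (gauss_int c0) i1]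
  refine (integral_sub ((gauss_int c0).sub i1) i2).symm.le.trans ?_
  refine integral_mono (((gauss_int c0).sub i1).sub i2) ((gauss_int c0).indicator mB) fun y => ?_
  have p1 := Real.exp_pos (-c * ‖y‖ ^ 2)
  have p2 : 0 ≤ 8 * ι * Real.exp (-(l / 2) * ‖y‖ ^ 2) := by positivity
  have p3 : 0 ≤ (ball (0 : E4) (2 * r1)).indicator (1 : E4 → ℝ) y :=
    indicator_nonneg (fun _ _ => zero_le_one) y
  simp only [Pi.sub_apply]
  by_cases k : y ∈ {y : E4 | 2 * r1 ≤ ‖y‖ ∧ ‖y‖ ≤ r2 / 2}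
  · rw [indicator_of_mem k]; linarith
  rw [indicator_of_notMem k]
  rcases not_and_or.1 k with k | k
  · rw [indicator_of_mem (mem_ball_zero_iff.2 (not_le.1 k))]
    have : Real.exp (-c * ‖y‖ ^ 2) ≤ 1 := Real.exp_le_one_iff.2 (by nlinarith [sq_nonneg ‖y‖])
    simp only [Pi.one_apply]; linarith
  · have q1 : (r2 / 2) ^ 2 ≤ ‖y‖ ^ 2 := pow_le_pow_left₀ (by positivity) (not_le.1 k).le 2
    have q2 : 1 ≤ 8 * ι * (l / 2 * ‖y‖ ^ 2) := by nlinarith [mul_pos hι hl]
    have q3 := Real.add_one_le_exp (l / 2 * ‖y‖ ^ 2)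
    have q4 : Real.exp (-c * ‖y‖ ^ 2) * Real.exp (l / 2 * ‖y‖ ^ 2) ≤
        Real.exp (-(l / 2) * ‖y‖ ^ 2) := by
      rw [← Real.exp_add]; exact Real.exp_le_exp.2 (by nlinarith [sq_nonneg ‖y‖])
    have q5 : 1 ≤ 8 * ι * Real.exp (l / 2 * ‖y‖ ^ 2) := by nlinarith
    nlinarith [mul_le_mul_of_nonneg_left q5 p1.le, mul_le_mul_of_nonneg_left q4 hι.le]

variable {M : Type*} [TopologicalSpace M] [ChartedSpace E4 M] [IsManifold 𝓘(ℝ, E4) ∞ M]
  [T3Space M] [ConnectedSpace M] [MeasurableSpace M] [BorelSpace M]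

theorem euc [CompactSpace M] : EUC M := by
  intro o' ho'
  obtain ⟨o, o0, o1, o2⟩ : ∃ o : ℝ, 0 < o ∧ o ≤ 1 ∧ o ≤ o' :=
    ⟨min 1 o', by positivity, min_le_left _ _, min_le_right _ _⟩
  obtain ⟨η0, hη0, hn⟩ := T.near_one (κ := o / 4) (by positivity)
  have om0 := T.om_pos
  obtain ⟨η, e0, e1, e2⟩ : ∃ η : ℝ, 0 < η ∧ η ≤ η0 ∧ η ≤ o / 16 :=
    ⟨min η0 (o / 16), by positivity, min_le_left _ _, min_le_right _ _⟩
  obtain ⟨ι, i0, i1⟩ : ∃ ι : ℝ, 0 < ι ∧ ι * (128 + 8 * T.om) = o :=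
    ⟨o / (128 + 8 * T.om), by positivity, by field_simp⟩
  refine ⟨η, ι, e0, i0, fun g z Ψ a b l r1 r2 ⟨hN, hJ⟩ ha h1 h2 hl h3 h4 h5 => ?_⟩
  have fin := V.isFinite g
  have cd : Continuous (g.d z) :=
    (continuous_const.dist continuous_id : Continuous fun q : Sl g => dist (α := Sl g) z q)
  set B := {y : E4 | 2 * r1 ≤ ‖y‖ ∧ ‖y‖ ≤ r2 / 2}
  have mB : MeasurableSet B := ((isClosed_le continuous_const continuous_norm).inter
    (isClosed_le continuous_norm continuous_const)).measurableSet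
  have sB : B ⊆ shell a b := fun y hy => ⟨by linarith [hy.1], by linarith [hy.1, hy.2]⟩
  have inj : InjOn Ψ B := fun x hx y hy e => by
    obtain ⟨γ, hγ, rfl⟩ := (hN.fib x (sB hx) y (sB hy)).1 e
    rw [Subgroup.mem_bot.1 hγ]; rfl
  obtain ⟨c, hc⟩ : ∃ c, c = l * (1 + η) ^ 2 := ⟨_, rfl⟩
  have c1 : l ≤ c := by rw [hc]; nlinarith [mul_pos hl e0, mul_pos hl (mul_pos e0 e0)]
  have fi : Integrable (fun x => Real.exp (-(l * g.d z x ^ 2))) g.vol :=
    (integrable_const (1 : ℝ)).mono' (by fun_prop) (Eventually.of_forall fun x => by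
      rw [Real.norm_of_nonneg (Real.exp_pos _).le]
      exact Real.exp_le_one_iff.2 (neg_nonpos.2 (by positivity)))
  have key : (1 - o / 4) * ∫ y in B, Real.exp (-c * ‖y‖ ^ 2) ≤
      ∫ x in {x | r1 ≤ g.d z x ∧ g.d z x ≤ r2}, Real.exp (-(l * g.d z x ^ 2)) ∂g.vol := by
    rw [← ENNReal.ofReal_le_ofReal_iff (integral_nonneg fun _ => (Real.exp_pos _).le),
      ← integral_const_mul, ofReal_integral_eq_lintegral_ofReal
        ((gauss_int (hl.trans_le c1)).integrableOn.const_mul _)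
        (Eventually.of_forall fun y => mul_nonneg (by linarith) (Real.exp_pos _).le),
      ofReal_integral_eq_lintegral_ofReal fi.integrableOn
        (Eventually.of_forall fun y => (Real.exp_pos _).le)]
    refine le_trans ?_ (lintegral_mono_set (s := Ψ '' B) ?_)
    · rw [V.lintegral_par hN.par g sB mB inj]
      refine setLIntegral_mono' mB fun y hy => ?_
      rw [← ENNReal.ofReal_mul (V.pdens_nonneg _ _ _)]
      have d1 := abs_le.1 (hN.sw y (sB hy))
      have d2 : g.d z (Ψ y) ^ 2 ≤ ((1 + η) * ‖y‖) ^ 2 :=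
        pow_le_pow_left₀ (by nlinarith [norm_nonneg y]) (by linarith) 2
      refine ENNReal.ofReal_le_ofReal (mul_le_mul (hn _ fun i j =>
        (T.JG_entry (hJ y (sB hy)) i j).trans e1).1 (Real.exp_le_exp.2 ?_) (Real.exp_pos _).le
        (V.pdens_nonneg _ _ _))
      rw [hc]; nlinarith
    · rintro _ ⟨y, hy, rfl⟩
      have d1 := abs_le.1 (hN.sw y (sB hy))
      have : η * ‖y‖ ≤ 1 / 2 * ‖y‖ := mul_le_mul_of_nonneg_right (by linarith) (norm_nonneg y)
      exact ⟨by linarith [hy.1], by linarith [hy.2]⟩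
  have ann := gauss_ann hl c1 i0 (by linarith : 0 < r1) h4 h5
  obtain ⟨P, hP⟩ : ∃ P, P = (Real.pi / l) ^ 2 := ⟨_, rfl⟩
  have P0 : 0 ≤ P := by rw [hP]; positivity
  have t1 : (1 - 4 * η) * P ≤ (Real.pi / c) ^ 2 := by
    have : (Real.pi / c) ^ 2 * (1 + η) ^ 4 = P := by rw [hP, hc]; field_simp
    rw [← this]
    have : (1 - 4 * η) * (1 + η) ^ 4 ≤ 1 := by
      nlinarith [mul_pos e0 e0, pow_pos e0 3, pow_pos e0 4, pow_pos e0 5]
    nlinarith [sq_nonneg (Real.pi / c)]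
  have t2 : (Real.pi / (l / 2)) ^ 2 = 4 * P := by rw [hP]; field_simp; norm_num
  have t3 : (2 * r1) ^ 4 ≤ 2 * ι * P := by
    have p : 9 ≤ P * l ^ 2 := by
      rw [hP, div_pow, div_mul_cancel₀ _ (by positivity)]; nlinarith [Real.pi_gt_three]
    have q : (l * r1 ^ 2) ^ 2 ≤ ι ^ 2 := pow_le_pow_left₀ (by positivity) h3 2
    have i2 : ι ≤ 1 := by nlinarith [mul_pos i0 om0]
    refine le_of_mul_le_mul_right ?_ (by positivity : 0 < l ^ 2)
    nlinarith
  rw [t2] at ann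
  have t4 : (1 - 3 * o / 4) * P ≤ ∫ y in B, Real.exp (-c * ‖y‖ ^ 2) := by
    refine le_trans ?_ ann
    have := mul_le_mul_of_nonneg_left t3 om0.le
    have u1 : (4 * η + 2 * ι * T.om + 32 * ι) * P ≤ 3 * o / 4 * P :=
      mul_le_mul_of_nonneg_right (by nlinarith) P0
    nlinarith
  rw [← hP]
  refine le_trans ?_ ((mul_le_mul_of_nonneg_left t4 (by linarith)).trans key)
  nlinarith [mul_nonneg (mul_pos o0 o0).le P0, mul_nonneg (sub_nonneg.2 o2) P0]

end Crest.Agent.N207.Gs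

end
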