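import Crest.Agent.N207.G.EnN

/-! Row 207, block G: the entropy of a neighbour, `η` independent of `A` (copy of helper78's proof). -/

set_option autoImplicit false
set_option linter.dupNamespace false
set_option linter.unusedSectionVars false
open Set MeasureTheory Filter Topology Real
open scoped ContDiff

noncomputable section

namespace Crest.Agent.N207

namespace HC

variable {M : Type*} [TopologicalSpace M] [CompactSpace M] [MeasurableSpace M]
  [OpensMeasurableSpace M] {H : HC M}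

/-- `GNbr` with `η` chosen before `A` -/
def GNbr' (H : HC M) : Prop :=
  ∀ t0 > 0, ∀ η' > (0 : ℝ), ∃ η : ℝ, 0 < η ∧ ∀ A ≥ (1 : ℝ), ∃ θ : ℝ, 0 < θ ∧ θ ≤ 1 ∧
    ∀ {a t ε τ0 s : ℝ} {z : M} {v : ℝ → M → ℝ}, t0 ≤ a → H.CS a t z ε τ0 v → 0 < s → s ≤ 1 →
      ε ≤ θ * s ^ 2 → ∀ σ ∈ Icc (t - 2 * s ^ 2) (t - s ^ 2), a ≤ σ → ∀ Ω : Set M,
      MeasurableSet Ω → Ω ⊆ H.B t z (A * s) → 1 - η ≤ ∫ x in Ω, v σ x ∂H.vol σ →
      2 - η ≤ ∫ x in Ω, pot (τ0 + t - σ) (v σ) x * v σ x ∂H.vol σ →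
      ∀ {ε' τ0' : ℝ} {z' : M} {v' : ℝ → M → ℝ}, H.CS a t z' ε' τ0' v' → ε' ≤ θ * s ^ 2 →
        H.d t z z' ≤ θ * s → ∀ σ' ∈ Icc (t - s ^ 2 / 2) t, -η' ≤ H.Wv t τ0' v' σ'

theorem gNbr' (h : H.Ok) : H.GNbr' := fun t0 h0 η' hη' => by
  have A := h.alg
  have I := h.int
  obtain ⟨Ck, hCk, hk⟩ := h.kerC t0 h0
  obtain ⟨Cv, hCv, hv⟩ := volUp h t0 h0
  obtain ⟨K, hK⟩ := h.evo.R_bd
  have hK' : ∀ t ∈ Ioo 0 H.T, ∀ x, |H.R t x| ≤ |K| := fun t ht x =>
    (hK t ht x).trans (le_abs_self _)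
  have := pi_pos
  set e := min 1 (η' / 10) with he
  have e0 : 0 < e := by positivity
  have e1 : e ≤ 1 := min_le_left _ _
  have e2 : e ≤ η' / 10 := min_le_right _ _
  set C0 := log ((8 * π) ^ 2 * Ck + 1) with hC0
  have C00 : 0 ≤ C0 := log_nonneg (by nlinarith [sq_nonneg (8 * π)])
  refine ⟨e / (4 * (2 + C0)), by positivity, fun A' hA => ?_⟩
  set V := exp (|K| * 2) * (Cv * A' ^ 4) with hV
  have V0 : 0 < V := by positivity
  set μ := min 1 (e / (4 * V)) with hμ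
  have μ0 : 0 < μ := by positivity
  have μ1 : μ ≤ 1 := min_le_left _ _
  have μ2 : μ * V ≤ e / 4 := by
    have := mul_le_mul_of_nonneg_right (min_le_right 1 (e / (4 * V))) V0.le
    refine this.trans_eq ?_
    field_simp
  set m := C0 - log μ + 1 with hm
  have lμ : log μ ≤ 0 := log_nonpos μ0.le μ1
  have m0 : 1 ≤ m := by linarith
  refine ⟨e / (28 * m), by positivity, ?_,
    fun {a t ε τ0 s z v} ha c s0 s1 hε σ hσ haσ Ω mΩ sΩ h1 h2 {ε' τ0' z' v'} c' hε' hd σ' hσ' => ?_⟩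
  · rw [div_le_one (by positivity)]; linarith
  set θ := e / (28 * m) with hθ
  have θ0 : 0 < θ := by positivity
  have θm : m * θ = e / 28 := by rw [hθ]; field_simp
  have θ1 : θ ≤ e / 28 := θm ▸ le_mul_of_one_le_left θ0.le m0
  have s2 : 0 < s ^ 2 := by positivity
  have s3 : s ^ 2 ≤ 1 := pow_le_one₀ s0.le s1
  have m1 : σ ∈ Icc a t := ⟨haσ, by linarith [hσ.2]⟩
  have tm : t ∈ Icc a t := ⟨c.st.2.1.le, le_rfl⟩
  have hσm := c.st.mem m1
  have pv := A.conj_pos h.evo c.st c.conj c.pos σ m1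
  have pv' := A.conj_pos h.evo c'.st c'.conj c'.pos σ m1
  have mv := (A.conj_mass I c.st c.conj m1 tm).trans c.mass
  have mv' := (A.conj_mass I c'.st c'.conj m1 tm).trans c'.mass
  have sv := A.sm_s0 c.conj.1 σ m1
  have sv' := A.sm_s0 c'.conj.1 σ m1
  have t0' := c'.t0
  have t1' := c'.t1
  have hh : s ^ 2 ≤ t - σ := by linarith [hσ.2]
  have h0' : 0 < t - σ := by linarith
  have τ1 : τ0' + t - σ ≤ (1 + θ) * (t - σ) := by
    have := mul_le_mul_of_nonneg_left hh θ0.le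
    linarith
  have τ0p : 0 < τ0' + t - σ := by linarith
  set κ := (4 * π * (τ0' + t - σ)) ^ 2 with hκ
  have κ0 : 0 < κ := by positivity
  have pw : ∀ x, 0 < κ * v' σ x + μ := fun x => by have := pv' x; positivity
  have ub : ∀ x, log (κ * v' σ x + μ) ≤ C0 := fun x => by
    refine log_le_log (pw x) (add_le_add ?_ μ1)
    have k := hk ha c'.st c'.conj (fun x => (c'.pos x).le) σ ⟨haσ, by linarith⟩ x
    rw [c'.mass, mul_one] at k
    have k2 : κ ≤ (8 * π) ^ 2 * (t - σ) ^ 2 := by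
      rw [hκ, ← mul_pow]
      refine pow_le_pow_left₀ (by positivity) ?_ 2
      have := τ1.trans (mul_le_mul_of_nonneg_right (show 1 + θ ≤ 2 by linarith) h0'.le)
      calc _ ≤ 4 * π * (2 * (t - σ)) := by gcongr
        _ = _ := by ring
    refine (mul_le_mul k2 k (pv' x).le (by positivity)).trans_eq ?_
    field_simp
  have g := gibbs A I hσm (τ := τ0 + t - σ) (by linarith [c.t0]) κ0 μ0 C00 sv sv' pv pv' mv mv'
    ub mΩ h1 h2
  have sF : H.S0 fun x => -log (κ * v' σ x + μ) :=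
    A.s0_neg (A.s0_log (A.s0_add (A.s0_cmul κ sv') (A.s0_const μ)) pw)
  have pn := pair_near h c c' s0 s1 θ0 hε hε' hd haσ hσ.2 sF (m := m) (by linarith) fun x => by
    have k1 := ub x
    have k2 : log μ ≤ log (κ * v' σ x + μ) :=
      log_le_log μ0 (by linarith [mul_pos κ0 (pv' x)])
    rw [abs_le]; constructor <;> linarith
  have cmp : ∫ x, -log (κ * v' σ x + μ) * v' σ x ∂H.vol σ ≤
      ∫ x, pot (τ0' + t - σ) (v' σ) x * v' σ x ∂H.vol σ := by
    refine integral_mono (A.integrable I hσm (A.s0_mul sF sv'))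
      (A.integrable I hσm (A.s0_mul (A.s0_pot sv' pv' _) sv')) fun x => ?_
    refine mul_le_mul_of_nonneg_right ?_ (pv' x).le
    have k := log_le_log (mul_pos κ0 (pv' x)) (show κ * v' σ x ≤ κ * v' σ x + μ by linarith)
    rw [log_mul κ0.ne' (pv' x).ne', hκ, log_pow] at k
    simp only [pot]
    push_cast at k
    linarith
  have vol : (H.vol σ).real Ω ≤ V * s ^ 4 := by
    have ht := c.st.mem tm
    have := I.fin t ht
    have k1 := vol_real_le I hK' ht hσm Ω
    have k2 : (H.vol t).real Ω ≤ Cv * (A' * s) ^ 4 := (measureReal_mono sΩ).trans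
      (hv t ⟨ha.trans tm.1, ht.2⟩ z _ (by positivity))
    have k3 : exp (|K| * |σ - t|) ≤ exp (|K| * 2) := exp_le_exp.2 (mul_le_mul_of_nonneg_left
      (abs_le.2 ⟨by linarith [hσ.1], by linarith⟩) (abs_nonneg _))
    refine k1.trans ((mul_le_mul k3 k2 measureReal_nonneg (exp_pos _).le).trans_eq ?_)
    rw [hV]; ring
  have rat : (κ + μ * (H.vol σ).real Ω) / (4 * π * (τ0 + t - σ)) ^ 2 ≤ 1 + e / 4 + e / 4 := by
    have p : 0 < τ0 + t - σ := by linarith [c.t0]
    rw [div_le_iff₀ (by positivity)]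
    have q0 : t - σ ≤ τ0 + t - σ := by linarith [c.t0]
    have q1 : κ ≤ (1 + e / 4) * (4 * π * (τ0 + t - σ)) ^ 2 := by
      have r1 : κ ≤ ((1 + θ) * (4 * π * (τ0 + t - σ))) ^ 2 := by
        rw [hκ]
        refine pow_le_pow_left₀ (by positivity) ?_ 2
        have := τ1.trans (mul_le_mul_of_nonneg_left q0 (by positivity))
        calc _ ≤ 4 * π * ((1 + θ) * (τ0 + t - σ)) := by gcongr
          _ = _ := by ring
      rw [mul_pow] at r1
      have r2 : θ * θ ≤ θ := mul_le_of_le_one_left θ0.le (by linarith)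
      exact r1.trans (mul_le_mul_of_nonneg_right (by linarith [sq (1 + θ), add_mul_self_eq 1 θ])
        (by positivity))
    have q2 : s ^ 4 ≤ (4 * π * (τ0 + t - σ)) ^ 2 := by
      rw [show s ^ 4 = (s ^ 2) ^ 2 by ring]
      refine pow_le_pow_left₀ s2.le ((hh.trans q0).trans (le_mul_of_one_le_left p.le ?_)) 2
      linarith [pi_gt_three]
    have q3 : μ * (H.vol σ).real Ω ≤ e / 4 * (4 * π * (τ0 + t - σ)) ^ 2 := by
      refine (mul_le_mul_of_nonneg_left vol μ0.le).trans ?_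
      rw [← mul_assoc]
      exact mul_le_mul μ2 q2 (by positivity) (by positivity)
    linarith
  have ee : (2 + C0) * (e / (4 * (2 + C0))) = e / 4 := by field_simp
  have hN : -e ≤ H.Na σ (τ0' + t - σ) (v' σ) := by
    unfold Na
    linarith
  have := W_of_Na h c' s0 e0 (hε'.trans (mul_le_mul_of_nonneg_right (by linarith) s2.le)) e1 s1
    haσ hσ hσ' hN
  linarith

end HC

end Crest.Agent.N207

end
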