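import Crest.Agent.N207.G.EnF2
import Crest.Agent.N207.G.EnN2

/-!
# Row 207, block G (helper22): no concentration inside a Euclidean neck (scalar part)
-/

set_option autoImplicit false
set_option linter.dupNamespace false
set_option linter.unusedSectionVars false
open Set MeasureTheory Filter Topology
open scoped ContDiff

noncomputable section

namespace Crest.Agent.N207.Ge

open HC

variable {M : Type*} [TopologicalSpace M] [CompactSpace M] [MeasurableSpace M]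
  [OpensMeasurableSpace M] {H : HC M}

theorem exists_bigA {Λ o : ℝ} (hΛ : 0 < Λ) (ho : 0 < o) (X A0 : ℝ) :
    ∃ A, A0 ≤ A ∧ X * A ^ 4 * Real.exp (-(A ^ 2 / (128 * Λ ^ 2))) ≤ o := by
  have t1 : Tendsto (fun A : ℝ => A ^ 2 / (128 * Λ ^ 2)) atTop atTop :=
    (tendsto_pow_atTop two_ne_zero).atTop_div_const (by positivity)
  have t2 := ((Real.tendsto_pow_mul_exp_neg_atTop_nhds_zero 2).comp t1).const_mul
    (X * (128 * Λ ^ 2) ^ 2)
  rw [mul_zero] at t2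
  obtain ⟨A, a1, a2⟩ := ((eventually_ge_atTop A0).and (t2.eventually (gt_mem_nhds ho))).exists
  exact ⟨A, a1, le_trans (le_of_eq (by simp only [Function.comp]; field_simp)) a2.le⟩

theorem num_lo {o y κ : ℝ} (o1 : o ≤ 1 / 4) (hy : y ≤ o / 8) (κ0 : 0 < κ) (κ1 : κ ≤ o / 48) :
    1 - o / 2 ≤ Real.exp (-y) * ((1 - o / 8) / (1 + κ) ^ 6) := by
  have a1 := Real.add_one_le_exp (-y)
  have a2 := one_add_mul_le_pow (a := -κ) (by linarith) 6
  have a3 : (1 + -κ) ^ 6 * (1 + κ) ^ 6 ≤ 1 := by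
    rw [← mul_pow]; exact pow_le_one₀ (by nlinarith) (by nlinarith)
  have a4 : 1 - o / 8 ≤ 1 / (1 + κ) ^ 6 := by
    rw [le_div_iff₀ (by positivity)]
    refine le_trans (mul_le_mul_of_nonneg_right ?_ (by positivity)) a3
    push_cast at a2; linarith
  have a5 : (1 - o / 8) * ((1 - o / 8) * (1 - o / 8)) ≤
      Real.exp (-y) * ((1 - o / 8) * (1 / (1 + κ) ^ 6)) := by
    exact mul_le_mul (by linarith) (mul_le_mul_of_nonneg_left a4 (by linarith))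
      (mul_nonneg (by linarith) (by linarith)) (Real.exp_pos _).le
  rw [mul_one_div] at a5
  nlinarith [mul_nonneg (show 0 ≤ o by linarith) (show 0 ≤ o by linarith)]

theorem mass_lo (h : H.Ok) {t σ r R r' m p : ℝ} {z : M} {u : M → ℝ} (ht : t ∈ Ioo 0 H.T)
    (hσ : σ ∈ Ioo 0 H.T) (su : H.S0 u) (pu : ∀ x, 0 < u x) (mu : ∫ x, u x ∂H.vol σ = 1)
    (ku : ∀ x, u x ≤ m) (m0 : 0 ≤ m) (tl : ∫ y in {y | r' ≤ H.d t z y}, u y ∂H.vol σ ≤ p)
    (hr : r' ≤ R) :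
    1 - (H.vol σ).real (H.B t z r) * m - p ≤ ∫ x in H.An t z r R, u x ∂H.vol σ := by
  have := h.int.fin σ hσ
  have mΩ := (isClosed_An h ht z r R).measurableSet
  have iv := h.alg.integrable h.int hσ su
  have a1 := integral_add_compl mΩ iv
  have mB := (isOpen_B h.dist ht z r).measurableSet
  have mS : MeasurableSet {y | r' ≤ H.d t z y} :=
    (isClosed_le continuous_const (h.dist.cont t ht z)).measurableSet
  have a3 : ∫ x in (H.An t z r R)ᶜ, u x ∂H.vol σ ≤ ∫ x, ((H.B t z r).indicator (fun _ => m) x +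
      {y | r' ≤ H.d t z y}.indicator u x) ∂H.vol σ := by
    rw [← integral_indicator mΩ.compl]
    refine integral_mono (iv.indicator mΩ.compl) (((integrable_const _).indicator mB).add
      (iv.indicator mS)) fun x => ?_
    have b1 : 0 ≤ (H.B t z r).indicator (fun _ => m) x := indicator_nonneg (fun _ _ => m0) x
    have b2 : 0 ≤ {y | r' ≤ H.d t z y}.indicator u x := indicator_nonneg (fun y _ => (pu y).le) x
    by_cases hx : x ∈ H.An t z r R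
    · simpa [hx] using add_nonneg b1 b2
    simp only [indicator_of_mem (mem_compl hx)]
    rcases lt_or_ge (H.d t z x) r with h1 | h1
    · rw [indicator_of_mem (show x ∈ H.B t z r from h1)]
      exact le_add_of_le_of_nonneg (ku x) b2
    · rw [indicator_of_mem (show x ∈ {y | r' ≤ H.d t z y} from
        hr.trans (not_le.1 fun h2 => hx ⟨h1, h2⟩).le)]
      exact le_add_of_nonneg_left b1
  rw [integral_add ((integrable_const _).indicator mB) (iv.indicator mS), integral_indicator mB,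
    integral_indicator mS, setIntegral_const, smul_eq_mul] at a3
  linarith

theorem CD.nash {t s θ A C κ e k V : ℝ} {z : M} {b χ : M → ℝ} (h : H.Ok)
    (c : CD H t z s θ A C κ e k V b χ) {σ τ μ F Λ o p η : ℝ} {u g : M → ℝ} (hσ : σ ∈ Ioo 0 H.T)
    (sv : H.S0 u) (pv : ∀ x, 0 < u x) (mv : ∫ x, u x ∂H.vol σ = 1) (sg : H.S0 g) (τ1 : s ^ 2 ≤ τ)
    (τ3 : τ ≤ 3 * s ^ 2)
    (eq : ∀ x ∈ H.An t z (θ * s) (A * s), 4 * τ * pot τ u x = b x - μ + g x) (hμ : |μ| ≤ C * s ^ 2)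
    (l2 : ∫ x, g x ^ 2 ∂H.vol σ ≤ e ^ 2 * s ^ 8) (F0 : 0 ≤ F) (fF : ∀ x, -pot τ u x ≤ F)
    (w1 : ∀ f, H.S0 f → (∀ x, 0 ≤ f x) → ∫ x, f x ∂H.vol t ≤ (1 + o / 4) * ∫ x, f x ∂H.vol σ ∧
      ∫ x, f x ∂H.vol σ ≤ (1 + o / 4) * ∫ x, f x ∂H.vol t) (p0 : 0 < p) (p1 : p ≤ 1)
    (p2 : p ≤ η / 6) (o0 : 0 < o) (o1 : o ≤ 1 / 4) (o2 : o ≤ p * η / 60) (Λ4 : 4 ≤ Λ)
    (hY : Real.exp (2 * F + C + 1) * (1 + 32 * V * A ^ 4) * e ≤ o / 4)
    (hJ : 4 * V * A ^ 4 * (9 * e + 12 * k * Real.exp (-(A ^ 2 / (128 * Λ ^ 2)))) +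
      122 * k * (C + 4) * V * θ ^ 3 ≤ o / 2)
    (k4 : 1 - o / 2 ≤ JJ (H.vol t) χ b (1 / (Λ * s) ^ 2) / Real.pi ^ 2)
    (k5 : 1 - o ≤ ∫ x in H.An t z (2 * θ * s) (A / 2 * s), u x ∂H.vol σ) :
    2 - η ≤ ∫ x in H.An t z (2 * θ * s) (A / 2 * s), pot τ u x * u x ∂H.vol σ := by
  have Al := h.alg
  have I := h.int
  have π3 := Real.pi_gt_three
  have s0 := c.s0
  have s2 := pow_pos s0 2
  have Λ0 : 0 < Λ := by linarith
  have τ0' : 0 < τ := by linarith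
  obtain ⟨γ, hγ⟩ : ∃ γ, γ = 1 / (4 * τ) := ⟨_, rfl⟩
  have γ0 : 0 < γ := by rw [hγ]; positivity
  have γ1 : 4 * τ * γ = 1 := by rw [hγ]; field_simp
  have γ2 : 4 * γ * s ^ 2 ≤ 1 := by nlinarith
  have m0 : 1 / (Λ * s) ^ 2 ≤ γ := by
    rw [hγ]; refine one_div_le_one_div_of_le (by positivity) ?_
    nlinarith [mul_le_mul_of_nonneg_right (show 16 ≤ Λ ^ 2 by nlinarith) s2.le]
  have m1 : (1 + p) * γ ≤ 1 / s ^ 2 := by
    rw [le_div_iff₀ s2]; nlinarith [mul_pos γ0 s2]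
  have m2 : γ ≤ (1 + p) * γ := by nlinarith
  have π1 : 1 ≤ Real.pi ^ 2 := by nlinarith
  have ep := fun x => exp_pot τ0' γ1 (pv x)
  have sf := Al.s0_pot sv pv τ
  have pk := fun q => c.pair_k h (q := q) hσ sf sg γ0 γ2 (fun x hx => by
    rw [← eq x hx]; linear_combination (-pot τ u x) * γ1) hμ l2 F0 fF (by linarith) w1 (by linarith)
  have k1 := (pk 1 le_rfl one_le_two).1
  have k2 := (pk (1 + p) (by linarith) (by linarith)).2
  simp only [one_mul, ep, one_pow, div_one] at k1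
  have jl : ∀ x ∈ Icc (1 / (Λ * s) ^ 2) (1 / s ^ 2), ∀ y ∈ Icc (1 / (Λ * s) ^ 2) (1 / s ^ 2),
      JJ (H.vol t) χ b y / Real.pi ^ 2 ≤ JJ (H.vol t) χ b x / Real.pi ^ 2 + o / 2 :=
    fun x hx y hy => by
      rw [← sub_le_iff_le_add', ← sub_div]
      exact (div_le_div_of_nonneg_right ((abs_le.1 (c.JJ_lip h Λ0 hx hy)).2.trans hJ)
        (by positivity)).trans (div_le_self (by positivity) π1)
  have mΩ := (isClosed_An h c.ht z (2 * θ * s) (A / 2 * s)).measurableSet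
  have iv := Al.integrable I hσ sv
  have se := Al.s0_cmul ((γ / Real.pi) ^ 2) (s0_gau Al sf (1 + p))
  have k6 := setInt_le_int h hσ mΩ (Al.integrable I hσ se) (Al.s0_mul c.sχ se)
    (fun x => mul_nonneg (c.χ01 x).1 (by positivity)) fun x hx => by
      simp only [(c.one x hx).self_of_nhds, one_mul, le_refl]
  have k7 : ∫ x, χ x * u x ∂H.vol σ ≤ 1 := mv ▸ int_mono Al I hσ (Al.s0_mul c.sχ sv) sv fun x =>
    mul_le_of_le_one_left (pv x).le (c.χ01 x).2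
  have j0 : 0 ≤ JJ (H.vol t) χ b ((1 + p) * γ) / Real.pi ^ 2 := div_nonneg (mul_nonneg
    (sq_nonneg _) (integral_nonneg fun x => mul_nonneg (c.χ01 x).1 (Real.exp_pos _).le))
    (sq_nonneg _)
  have j1 : (1 + o / 4) * (1 + o / 4) ≤ 1 + o := by nlinarith
  have k8 := num_oh (X := Real.exp (γ * μ)) (Xh := Real.exp (p * (γ * μ)))
    (j1 := JJ (H.vol t) χ b γ / Real.pi ^ 2) (j2 := JJ (H.vol t) χ b ((1 + p) * γ) / Real.pi ^ 2)
    p0 p2 o0 o1 o2 (Real.exp_pos _) (Real.exp_pos _).le (by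
      rcases le_total (γ * μ) 0 with h1 | h1
      · exact le_max_of_le_left (Real.exp_le_one_iff.2 (mul_nonpos_of_nonneg_of_nonpos p0.le h1))
      · exact le_max_of_le_right (Real.exp_le_exp.2 (mul_le_of_le_one_left h1 p1)))
    (by linarith [jl γ ⟨m0, m2.trans m1⟩ _ ⟨le_rfl, m0.trans (m2.trans m1)⟩])
    (by linarith [jl γ ⟨m0, m2.trans m1⟩ _ ⟨m0.trans m2, m1⟩])
    (k1.trans ((mul_le_mul_of_nonneg_left (add_le_add k7 hY) (by linarith)).trans j1))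
    (k6.trans (k2.trans (by
      rw [← Real.exp_add, show p * (γ * μ) + γ * μ = (1 + p) * γ * μ by ring]
      exact add_le_add (mul_le_mul_of_nonneg_right (by linarith) (by positivity))
        (by linarith)))) k5
  refine k8.trans ?_
  rw [← integral_sub iv.integrableOn (Al.integrable I hσ se).integrableOn, ← integral_div]
  refine setIntegral_mono ((iv.sub (Al.integrable I hσ se)).div_const p).integrableOn
    (Al.integrable I hσ (Al.s0_mul sf sv)).integrableOn fun x => ?_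
  have a1 : (γ / Real.pi) ^ 2 * Real.exp (-((1 + p) * pot τ u x)) =
      u x * Real.exp (-(p * pot τ u x)) := by
    rw [← ep x, mul_assoc, ← Real.exp_add]; congr 2; ring
  simp only [a1]
  rw [div_le_iff₀ p0]
  linarith [mul_le_mul_of_nonneg_left (Real.add_one_le_exp (-(p * pot τ u x))) (pv x).le]

theorem CD.lo {t s θ A C o e k V Λ ι : ℝ} {z : M} {b χ : M → ℝ} (h : H.Ok)
    (c : CD H t z s θ A C (o / 48) e k V b χ) (o1 : o ≤ 1 / 4) (Λ4 : 4 ≤ Λ)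
    (Λy : (1 + 1 / (o / 48)) * C ^ 2 / Λ ^ 2 ≤ o / 8) (θ2 : θ ≤ ι / 16) (hA : 4 * Λ ^ 2 ≤ A * ι)
    (eu : ∀ l > (0 : ℝ), l * (2 * θ * s) ^ 2 ≤ ι → 1 ≤ ι * (l * (A / 2 * s) ^ 2) →
      (1 - o / 8) * (Real.pi / l) ^ 2 ≤ ∫ x in H.An t z (2 * θ * s) (A / 2 * s),
        Real.exp (-(l * H.d t z x ^ 2)) ∂H.vol t) :
    1 - o / 2 ≤ JJ (H.vol t) χ b (1 / (Λ * s) ^ 2) / Real.pi ^ 2 := by
  have o0 : 0 < o := by linarith [c.κ0]
  have s0 := c.s0; have θ0 := c.θ0; have π0 := Real.pi_pos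
  have Λ0 : 0 < Λ := by linarith
  have A1 : 1 ≤ A := by linarith [c.CA, c.C1]
  have ι0 : 0 < ι := by linarith
  have κ3 : (1 + o / 48) ^ 3 ≤ (3 / 2) ^ 3 := by gcongr; linarith
  have κ4 : 1 ≤ (1 + o / 48) ^ 3 := one_le_pow₀ (by linarith)
  have k3 := c.JJ_lo h Λ0 (eu ((1 + o / 48) ^ 3 / (Λ * s) ^ 2) (by positivity) (by
    rw [show (1 + o / 48) ^ 3 / (Λ * s) ^ 2 * (2 * θ * s) ^ 2 = (1 + o / 48) ^ 3 * 4 * θ ^ 2 / Λ ^ 2
      by field_simp; ring]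
    refine (div_le_self (by positivity) (by nlinarith)).trans ?_
    nlinarith [mul_le_of_le_one_left θ0.le c.θ1, mul_le_mul_of_nonneg_right κ3 (sq_nonneg θ)]) (by
    rw [show ι * ((1 + o / 48) ^ 3 / (Λ * s) ^ 2 * (A / 2 * s) ^ 2) =
      (1 + o / 48) ^ 3 * (A ^ 2 * ι) / (4 * Λ ^ 2) by field_simp; ring, le_div_iff₀ (by positivity)]
    have a2 := mul_le_mul_of_nonneg_right (show A ≤ A ^ 2 by nlinarith) ι0.le
    linarith [mul_le_mul_of_nonneg_right κ4 (show 0 ≤ A ^ 2 * ι by positivity)]))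
  refine (num_lo o1 Λy (κ := o / 48) (by positivity) le_rfl).trans ?_
  rw [le_div_iff₀ (by positivity)]
  exact le_trans (le_of_eq (by field_simp)) k3

set_option maxHeartbeats 1000000 in
/-- the mass and the Nash entropy on a Euclidean neck -/
theorem nash_neck (h : H.Ok) (Co : H.COut) (GG : H.GGood) (GC : H.GCut) {t0 η : ℝ} (h0 : 0 < t0)
    (hη : 0 < η) : ∃ o, 0 < o ∧ ∀ ι > (0 : ℝ), ∃ θ A C : ℝ, 0 < θ ∧ θ ≤ 1 ∧ 1 ≤ C ∧ 1 ≤ A ∧
      ∀ B ≥ (0 : ℝ), ∃ β : ℝ, 0 < β ∧ β ≤ 1 / 4 ∧ ∀ {a t ε τ0 s : ℝ} {z : M} {v : ℝ → M → ℝ},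
        t0 ≤ a → H.CS a t z ε τ0 v → 0 < s → s ≤ β → ε ≤ β * s ^ 2 → a ≤ t - 2 * s ^ 2 →
        H.Reg t s B β (H.An t z (θ / C * s) (C * A * s)) → H.drop t τ0 v s ≤ β →
        (∀ l > (0 : ℝ), l * (2 * θ * s) ^ 2 ≤ ι → 1 ≤ ι * (l * (A / 2 * s) ^ 2) →
          (1 - o) * (Real.pi / l) ^ 2 ≤ ∫ x in H.An t z (2 * θ * s) (A / 2 * s),
            Real.exp (-(l * H.d t z x ^ 2)) ∂H.vol t) →
        ∃ σ ∈ Icc (t - 2 * s ^ 2) (t - s ^ 2),
          1 - η ≤ ∫ x in H.An t z (2 * θ * s) (A / 2 * s), v σ x ∂H.vol σ ∧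
          2 - η ≤ ∫ x in H.An t z (2 * θ * s) (A / 2 * s),
            pot (τ0 + t - σ) (v σ) x * v σ x ∂H.vol σ := by
  have Al := h.alg
  have I := h.int
  have π3 := Real.pi_gt_three
  obtain ⟨V, V0, hV⟩ := Co.up t0 h0
  obtain ⟨Ck, Ck0, hk⟩ := Co.kerC t0 h0
  obtain ⟨K, K1, GC⟩ := GC
  obtain ⟨R, hR⟩ := h.evo.R_bd
  have hR' : ∀ t ∈ Ioo 0 H.T, ∀ x, |H.R t x| ≤ |R| := fun t ht x =>
    (hR t ht x).trans (le_abs_self _)
  have R0 := abs_nonneg R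
  obtain ⟨p, hp⟩ : ∃ p, p = min 1 (η / 6) := ⟨_, rfl⟩
  have p0 : 0 < p := by rw [hp]; positivity
  have p1 : p ≤ 1 := hp ▸ min_le_left _ _
  obtain ⟨o, ho⟩ : ∃ o, o = min (1 / 4) (p * η / 60) := ⟨_, rfl⟩
  have o0 : 0 < o := by rw [ho]; positivity
  have o1 : o ≤ 1 / 4 := ho ▸ min_le_left _ _
  have o2 : o ≤ p * η / 60 := ho ▸ min_le_right _ _
  obtain ⟨At, At1, hT⟩ := gTight h Co t0 h0 (o / 4) (by positivity)
  obtain ⟨C, C1, GG⟩ := GG t0 h0 (o / 48) (by positivity)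
  obtain ⟨Λ, hΛ⟩ : ∃ Λ, Λ = 4 + 8 * ((1 + 1 / (o / 48)) * C ^ 2) / o := ⟨_, rfl⟩
  have y0 : 0 < (1 + 1 / (o / 48)) * C ^ 2 := by positivity
  have Λ4 : 4 ≤ Λ := by rw [hΛ]; exact le_add_of_nonneg_right (by positivity)
  have Λ0 : 0 < Λ := by linarith
  have Λy : (1 + 1 / (o / 48)) * C ^ 2 / Λ ^ 2 ≤ o / 8 := by
    have : 8 * ((1 + 1 / (o / 48)) * C ^ 2) ≤ Λ * o := by
      rw [← div_le_iff₀ o0]; linarith
    rw [div_le_iff₀ (by positivity)]
    nlinarith [mul_le_mul_of_nonneg_right (show Λ ≤ Λ ^ 2 by nlinarith) o0.le]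
  have k0 := Real.sqrt_nonneg K
  refine ⟨o / 8, by positivity, fun ι ι0 => ?_⟩
  obtain ⟨A, A1, A2⟩ := exists_bigA (o := o / 8) Λ0 (by positivity) (48 * V * √K)
    (16 * C + 4 * At + 4 * Λ ^ 2 / ι)
  have q0 : 0 < 4 * Λ ^ 2 / ι := by positivity
  have A0 : 0 < A := by linarith
  obtain ⟨X, hX⟩ : ∃ X, X = 64 * Ck * V + 8 * (122 * √K * (C + 4) * V) := ⟨_, rfl⟩
  have X1 : 0 < 64 * Ck * V := by positivity
  have X2 : 0 ≤ 8 * (122 * √K * (C + 4) * V) := by positivity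
  obtain ⟨θ, hθ⟩ : ∃ θ, θ = min 1 (min (ι / 16) (o / X)) := ⟨_, rfl⟩
  have θ0 : 0 < θ := by rw [hθ, hX]; positivity
  have θ1 : θ ≤ 1 := hθ ▸ min_le_left _ _
  have θ2 : θ ≤ ι / 16 := hθ ▸ (min_le_right _ _).trans (min_le_left _ _)
  have θ3 : θ * X ≤ o := (le_div_iff₀ (by linarith)).1
    (hθ ▸ (min_le_right _ _).trans (min_le_right _ _))
  have θ4 : ∀ n, θ ^ (n + 1) ≤ θ := fun n => pow_le_of_le_one θ0.le θ1 n.succ_ne_zero
  refine ⟨θ, A, C, θ0, θ1, C1, by linarith, fun B B0 => ?_⟩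
  obtain ⟨F, hF⟩ : ∃ F, F = Real.log (1 + Ck * (8 * Real.pi) ^ 2) := ⟨_, rfl⟩
  have F0 : 0 ≤ F := hF ▸ Real.log_nonneg (le_add_of_nonneg_right (by positivity))
  obtain ⟨Y, hY⟩ : ∃ Y, Y = Real.exp (2 * F + C + 1) * (1 + 32 * V * A ^ 4) := ⟨_, rfl⟩
  have Y0 : 0 < Y := by rw [hY]; positivity
  obtain ⟨e, he⟩ : ∃ e, e = min 1 (o / (4 * Y + 288 * V * A ^ 4)) := ⟨_, rfl⟩
  have e0 : 0 < e := by rw [he]; positivity
  have e2 : e * (4 * Y + 288 * V * A ^ 4) ≤ o :=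
    (le_div_iff₀ (by positivity)).1 (he ▸ min_le_right _ _)
  have e3 : 0 < V * A ^ 4 * e := by positivity
  have n1 : Real.exp (2 * F + C + 1) * (1 + 32 * V * A ^ 4) * e ≤ o / 4 := by
    rw [← hY]; linarith
  rw [hX] at θ3
  have n4 : 32 * Ck * V * θ ^ 4 ≤ o / 2 := by
    linarith [mul_le_mul_of_nonneg_left (show θ ^ 4 ≤ θ from θ4 3) X1.le, mul_nonneg θ0.le X2]
  have n2 : 4 * V * A ^ 4 * (9 * e + 12 * √K * Real.exp (-(A ^ 2 / (128 * Λ ^ 2)))) +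
      122 * √K * (C + 4) * V * θ ^ 3 ≤ o / 2 := by
    linarith [mul_le_mul_of_nonneg_left (show θ ^ 3 ≤ θ from θ4 2) X2, mul_pos e0 Y0,
      mul_pos θ0 X1]
  have n3 := (div_le_iff₀ ι0).1 (show 4 * Λ ^ 2 / ι ≤ A by linarith)
  have n5 : o ≤ η := by linarith [mul_le_of_le_one_left hη.le p1]
  obtain ⟨β, β0, β1, GG⟩ := GG θ A B (e ^ 2) θ0 θ1 (by linarith) B0 (by positivity)
  have l0 : 0 < Real.log (1 + o / 4) := Real.log_pos (by linarith)
  refine ⟨min β (min (o / 4) (Real.log (1 + o / 4) / (2 * |R| + 1))), by positivity,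
    (min_le_left _ _).trans β1, fun {a t ε τ0 s z v} ha cs s0 s1 hε has reg dr eu => ?_⟩
  simp only [le_min_iff] at s1 dr
  obtain ⟨s1, s3, s4⟩ := s1
  have s2 := pow_pos s0 2
  have s5 : s ^ 2 ≤ s := pow_le_of_le_one s0.le (by linarith) two_ne_zero
  have ε1 := hε.trans (mul_le_mul_of_nonneg_right (min_le_left _ _) s2.le)
  have ε2 : ε ≤ s ^ 2 := ε1.trans (mul_le_of_le_one_left s2.le (by linarith))
  obtain ⟨σ, μ, b, g, pc, hμ, val, -⟩ := GG False ha cs s0 s1 ε1 has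
    (reg_mono reg s0 (min_le_left _ _) fun x hx => ⟨hx.1.resolve_left id, hx.2⟩) dr.1
  obtain ⟨σ1, σ2⟩ := pc.σ1
  have tm : t ∈ Icc a t := ⟨cs.st.2.1.le, le_rfl⟩
  have σm : σ ∈ Ico a t := ⟨by linarith, by linarith⟩
  have σm' := Ico_subset_Icc_self σm
  have ht := cs.st.mem tm
  have hσ := cs.st.mem σm'
  have vt := hV t ⟨by linarith [tm.1], ht.2⟩ z
  obtain ⟨χ, sχ, χ01, χ1, χ0, χg⟩ := GC t ht z (θ * s) (2 * θ * s) (A / 2 * s) (A * s)
    (by linarith [mul_pos θ0 s0]) (mul_le_mul_of_nonneg_right (by linarith) s0.le)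
    (by linarith [mul_pos A0 s0])
  have c : CD H t z s θ A C (o / 48) e √K V b χ :=
    ⟨ht, s0, θ0, θ1, C1, by linarith, by positivity, by linarith, e0, he ▸ min_le_left _ _, k0, vt,
      pc.sb, sχ, χ01, χ1, fun x hx => χ0 x (by
        by_contra hn; push Not at hn; exact hx ⟨hn.1.le, hn.2.le⟩),
      fun x hx => ((χg x).1 hx).trans_eq (by
        rw [div_pow, Real.sq_sqrt (by linarith)]; congr 2; ring),
      fun x hx => ((χg x).2 hx).trans_eq (by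
        rw [div_pow, Real.sq_sqrt (by linarith)]; congr 2; ring), pc.hess, pc.gam, val⟩
  have τ1 : s ^ 2 ≤ τ0 + t - σ := by linarith [cs.t0]
  have τ2 : τ0 + t - σ ≤ 2 * (t - σ) := by linarith [cs.t1]
  have τ0' : 0 < τ0 + t - σ := by linarith
  have pv := Al.conj_pos h.evo cs.st cs.conj cs.pos σ σm'
  have sv := Al.sm_s0 cs.conj.1 σ σm'
  have mv : ∫ x, v σ x ∂H.vol σ = 1 := (Al.conj_mass I cs.st cs.conj σm' tm).trans cs.mass
  have kv : ∀ x, v σ x ≤ Ck / (t - σ) ^ 2 := fun x => by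
    simpa [cs.mass] using hk ha cs.st cs.conj (fun x => (cs.pos x).le) σ σm x
  have fF : ∀ x, -pot (τ0 + t - σ) (v σ) x ≤ F := fun x => by
    rw [hF, Real.le_log_iff_exp_le (by positivity)]
    have a1 : Real.exp (-pot (τ0 + t - σ) (v σ) x) = v σ x * (4 * Real.pi * (τ0 + t - σ)) ^ 2 := by
      rw [← exp_pot τ0' (γ := 1 / (4 * (τ0 + t - σ))) (by field_simp) (pv x)]; field_simp
    have a2 : 0 < t - σ := by linarith
    have a3 : v σ x * (4 * Real.pi * (τ0 + t - σ)) ^ 2 ≤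
        Ck / (t - σ) ^ 2 * (4 * Real.pi * (2 * (t - σ))) ^ 2 := by
      have := pv x; gcongr; exact kv x
    rw [a1]
    exact a3.trans ((le_of_eq (by field_simp; ring)).trans (le_add_of_nonneg_left zero_le_one))
  have w0 : ∀ r r', |r - r'| ≤ 2 * s ^ 2 → Real.exp (|R| * |r - r'|) ≤ 1 + o / 4 := fun r r' hr => by
    rw [← Real.le_log_iff_exp_le (by linarith)]
    have := (le_div_iff₀ (by positivity)).1 s4
    linarith [mul_le_mul_of_nonneg_left hr R0, mul_le_mul_of_nonneg_left s5 R0]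
  have w2 := w0 t σ (abs_le.2 ⟨by linarith, by linarith⟩)
  have w3 := w0 σ t (abs_le.2 ⟨by linarith, by linarith⟩)
  have k5 : 1 - o ≤ ∫ x in H.An t z (2 * θ * s) (A / 2 * s), v σ x ∂H.vol σ := by
    have q1 : s ≤ √(t - σ) := Real.le_sqrt_of_sq_le (by linarith)
    have q2 : √(t - σ) ≤ 2 * s := Real.sqrt_le_iff.2 ⟨by positivity, by linarith⟩
    have a1 := mass_lo h (r := 2 * θ * s) (R := A / 2 * s) (m := Ck / s ^ 4) ht hσ sv pv mv
      (fun x => (kv x).trans (by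
        rw [show s ^ 4 = (s ^ 2) ^ 2 by ring]; gcongr; linarith)) (by positivity)
      (hT ha cs σ σm (by linarith)) (by
        linarith [mul_le_mul_of_nonneg_left q2 (show 0 ≤ At by linarith),
          mul_le_mul_of_nonneg_right (show 4 * At ≤ A by linarith) s0.le])
    have a4 : (H.vol σ).real (H.B t z (2 * θ * s)) ≤ 2 * (V * (2 * θ * s) ^ 4) :=
      (vol_real_le2 I hR' ht hσ _).trans (mul_le_mul (by linarith) (vt _ (by positivity))
        measureReal_nonneg (by norm_num))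
    have a5 : (H.vol σ).real (H.B t z (2 * θ * s)) * (Ck / s ^ 4) ≤ 32 * Ck * V * θ ^ 4 :=
      (mul_le_mul_of_nonneg_right a4 (by positivity)).trans_eq (by field_simp; ring)
    linarith
  exact ⟨σ, ⟨σ1, σ2⟩, by linarith, c.nash h hσ sv pv mv pc.sg τ1 (by linarith [cs.t1]) pc.eq hμ
    pc.l2 F0 fF (fun f sf f0 => ⟨(int_cmp0 Al I hR' hσ ht (Al.integrable I hσ sf) f0).trans
      (mul_le_mul_of_nonneg_right w2 (integral_nonneg f0)),
      (int_cmp0 Al I hR' ht hσ (Al.integrable I ht sf) f0).trans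
        (mul_le_mul_of_nonneg_right w3 (integral_nonneg f0))⟩) p0 p1 (hp ▸ min_le_right _ _) o0 o1
    o2 Λ4 n1 n2 (c.lo h o1 Λ4 Λy θ2 n3 eu) k5⟩

end Crest.Agent.N207.Ge

end
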