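import Crest.Agent.N207.G.Df

/-!
# Row 207, block G (helper22): the Gaussian integral over a Euclidean pre-neck (statement)
-/

set_option autoImplicit false
set_option linter.unusedSectionVars false

open scoped ContDiff Manifold Topology
open Set MeasureTheory Filter
open Crest.GeometryTopology.CoordMetric
open Crest.Agent.N207.Sk

noncomputable section

namespace Crest.Agent.N207.Gs

variable (M : Type*) [TopologicalSpace M] [ChartedSpace E4 M] [IsManifold 𝓘(ℝ, E4) ∞ M]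
  [T3Space M] [ConnectedSpace M] [MeasurableSpace M] [BorelSpace M]

/-- the Gaussian integral over an annulus inside a pre-neck with trivial group -/
def EUC : Prop :=
  ∀ o : ℝ, 0 < o → ∃ η ι : ℝ, 0 < η ∧ 0 < ι ∧ ∀ (g : Met 4 M) (z : M) (Ψ : E4 → M)
    (a b l r1 r2 : ℝ), PJ g z ⊥ Ψ a b η 2 η → 0 < a → 2 * a ≤ r1 → 2 * r2 ≤ b → 0 < l →
      l * r1 ^ 2 ≤ ι → 1 ≤ ι * (l * r2 ^ 2) → 0 ≤ r2 →
      (1 - o) * (Real.pi / l) ^ 2 ≤
        ∫ x in {x | r1 ≤ g.d z x ∧ g.d z x ≤ r2}, Real.exp (-(l * g.d z x ^ 2)) ∂g.vol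

end Crest.Agent.N207.Gs

end
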