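import Crest.Agent.N207.G.EnS2

/-!
# Row 207, block G, entropy half (helper23): a good scale
-/

set_option autoImplicit false
set_option linter.dupNamespace false
set_option linter.unusedSectionVars false
open Set MeasureTheory Filter Topology
open scoped ContDiff

noncomputable section

namespace Crest.Agent.N207.Ge

open HC

variable {M : Type*} [TopologicalSpace M] [CompactSpace M] [MeasurableSpace M]
  [OpensMeasurableSpace M] {H : HC M}

theorem reg_scale {t s s' B δ δ' : ℝ} {Ω Ω' : Set M} (h : H.Reg t s B δ Ω) (h0 : 0 < s')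
    (h1 : s' ≤ s) (hB : 0 ≤ B) (hδ : δ ≤ δ') (hδ' : 0 ≤ δ') (hΩ : Ω' ⊆ Ω) :
    H.Reg t s' B δ' Ω' := fun σ hσ x hx => by
  obtain ⟨k1, k2, k3⟩ := h σ ⟨by nlinarith [hσ.1], hσ.2⟩ x (hΩ hx)
  exact ⟨k1.trans (by gcongr), k2.trans (by gcongr), k3.trans (by gcongr)⟩

theorem pc_mono {t τ0 s θ A δ θ' A' δ' σ μ : ℝ} {z : M} {v : ℝ → M → ℝ} {b g : M → ℝ}
    (h : H.PC t z τ0 v s θ A δ σ μ b g) (hs : 0 ≤ s) (h1 : θ ≤ θ') (h2 : A' ≤ A) (h3 : δ ≤ δ') :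
    H.PC t z τ0 v s θ' A' δ' σ μ b g :=
  have k : H.An t z (θ' * s) (A' * s) ⊆ H.An t z (θ * s) (A * s) := fun _ hx =>
    ⟨le_trans (by gcongr) hx.1, hx.2.trans (by gcongr)⟩
  ⟨h.σ1, h.sb, h.sg, fun x hx => h.eq x (k hx), h.l2.trans (by gcongr),
    fun x hx => (h.hess x (k hx)).trans h3, fun x hx => (h.gam x (k hx)).trans (by gcongr)⟩

theorem d_nn (D : H.Dist) {t : ℝ} (ht : t ∈ Ioo 0 H.T) (x y : M) : 0 ≤ H.d t x y := by
  have := D.tri t ht x y x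
  rw [D.self t ht, D.symm t ht y x] at this
  linarith

set_option maxHeartbeats 1000000 in
theorem gGood (h : H.Ok) (C : H.COut) (He : H.Hes) (hCut : H.GCut) (hOsc : H.GOsc)
    (hSand : H.GSand) : H.GGood := by
  intro t0 h0 κ hκ
  have Al := h.alg
  have E := h.evo
  have D := h.dist
  obtain ⟨C1, hC1, hS⟩ := hSand t0 h0 κ hκ
  obtain ⟨q, Λ, βo, q0, q1, hΛ, hβo, hO⟩ := hOsc t0 h0
  obtain ⟨Kc, hKc, hC⟩ := hCut
  have q8 : 0 < 8 / q := by positivity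
  obtain ⟨Cc, hCc⟩ : ∃ Cc, Cc = C1 + 8 / q + (34 + 2 * Λ) := ⟨_, rfl⟩
  refine ⟨Cc, by linarith, fun θ A B δ θ0 θ1 hA hB hδ => ?_⟩
  obtain ⟨βs, hβs, hS⟩ := hS (θ / 2) (by positivity) (by linarith)
  obtain ⟨A1, hA1⟩ : ∃ A1, A1 = 16 * A + Λ := ⟨_, rfl⟩
  have A10 : 1 ≤ A1 := by linarith
  obtain ⟨Ao, hAo⟩ : ∃ Ao, Ao = A1 * 2 / θ := ⟨_, rfl⟩
  have Ao1 : Λ ≤ Ao := by
    have : Λ * θ ≤ Λ * 1 := by gcongr
    rw [hAo, le_div_iff₀ θ0]; linarith
  obtain ⟨δ2, hδ2, d1, d2⟩ : ∃ δ2, 0 < δ2 ∧ δ2 ≤ δ ∧ δ2 ≤ βs :=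
    ⟨_, lt_min hδ hβs, min_le_left _ _, min_le_right _ _⟩
  have AΛ : 0 < Ao + Λ := by linarith
  obtain ⟨γ, hγ⟩ : ∃ γ, γ = δ2 / (Ao + Λ) := ⟨_, rfl⟩
  have γ0 : 0 < γ := hγ ▸ div_pos hδ2 AΛ
  have qθ : 0 < q * θ := by positivity
  have qθ1 : q * θ ≤ 1 / 4 * θ := by gcongr
  obtain ⟨δ3, hδ3, d3, d4⟩ : ∃ δ3, 0 < δ3 ∧ δ3 ≤ δ2 ∧ δ3 ≤ γ ^ 2 :=
    ⟨_, lt_min hδ2 (by positivity), min_le_left _ _, min_le_right _ _⟩
  obtain ⟨η, δ1, η0, δ10, δ11, hsm⟩ := gSmooth h C He t0 h0 (2 * A1 + 2) (by linarith) (q * θ / 8)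
    (by positivity) B hB (Kc * 64 / (q * θ) ^ 2) (by positivity) δ3 hδ3
  obtain ⟨β, β0, β1, β2, β3, β4⟩ : ∃ β, 0 < β ∧ β ≤ η ∧ β ≤ δ1 ∧ β ≤ βs ∧ β ≤ βo * θ / 2 :=
    ⟨min (min η δ1) (min βs (βo * θ / 2)), by positivity, (min_le_left _ _).trans (min_le_left _ _),
      (min_le_left _ _).trans (min_le_right _ _), (min_le_right _ _).trans (min_le_left _ _),
      (min_le_right _ _).trans (min_le_right _ _)⟩
  refine ⟨β, β0, β2.trans δ11, ?_⟩
  intro a t ε τ0 s z v p ha cs hs s1 hε hw reg hd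
  have s2 : 0 < s ^ 2 := by positivity
  have s4 : s ≤ 1 / 4 := s1.trans (β2.trans δ11)
  have ht := cs.st.mem (right_mem_Icc.2 cs.st.2.1.le)
  have st : H.St (t - 2 * s ^ 2) t := cs.st.mono hw (by linarith) le_rfl
  obtain ⟨w, hwd⟩ : ∃ w, w = q * θ / 8 * s := ⟨_, rfl⟩
  have w0 : 0 < w := by rw [hwd]; positivity
  have θs : θ * s ≤ 1 * s := by gcongr
  have w1 : w ≤ 1 / 4 * θ / 8 * s := by rw [hwd]; gcongr
  have As : s ≤ A * s := le_mul_of_one_le_left hs.le hA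
  have Ls : s ≤ Λ * s := le_mul_of_one_le_left hs.le hΛ
  have eA : A1 * s = 16 * (A * s) + Λ * s := by rw [hA1]; ring
  obtain ⟨r2, r, e1, e2, e3, e4⟩ : ∃ r2 r : ℝ, r2 ≤ 2 * w ∧ (¬p → r2 = 2 * w) ∧ (p → r = A * s) ∧
      ∀ y, H.d t z y < r + w → y ∈ H.An t z r2 ((2 * A1 + 1) * s) := by
    by_cases hp : p
    · exact ⟨0, A * s, by positivity, fun h => (h hp).elim, fun _ => rfl,
        fun y hy => ⟨d_nn D ht z y, by linarith⟩⟩
    · exact ⟨2 * w, -w, le_rfl, fun _ => rfl, fun h => (hp h).elim,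
        fun y hy => absurd (d_nn D ht z y) (by linarith)⟩
  obtain ⟨χ, sχ, χ01, χ1, χ0, χg⟩ := hC t ht z (r2 - w) r2 ((2 * A1 + 1) * s) ((2 * A1 + 2) * s)
    (by linarith) (by linarith) (by linarith)
  have supp : ∀ x, χ x ≠ 0 → r2 - w < H.d t z x ∧ H.d t z x < (2 * A1 + 2) * s := fun x hx => by
    by_contra hh
    rw [not_and_or, not_lt, not_lt] at hh
    exact hx (χ0 x hh).eq_of_nhds
  have in1 : θ / Cc * s ≤ w := by
    have k : θ / Cc ≤ θ / (8 / q) := by gcongr; linarith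
    have k2 : θ / (8 / q) = q * θ / 8 := by field_simp
    rw [hwd, ← k2]; gcongr
  have out1 : (2 * A1 + 2) * s ≤ Cc * A * s := by
    have k1 : (34 + 2 * Λ) * (A * s) ≤ Cc * (A * s) := by gcongr; linarith
    have k2 : Λ * s ≤ Λ * (A * s) := by gcongr
    linarith
  have one : ∀ x ∈ H.An t z (4 * w) (2 * A1 * s), ∀ y, H.d t x y < w → χ y = 1 := fun x hx y hy => by
    have k1 := D.tri t ht z x y
    have k2 := D.tri t ht z y x
    rw [D.symm t ht y x] at k2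
    exact (χ1 y ⟨by linarith [hx.1], by linarith [hx.2]⟩).eq_of_nhds
  have εs : β * s ^ 2 ≤ 1 * s ^ 2 := by gcongr; linarith
  obtain ⟨σ, hσ, t', ht', ρ, g, sρ, sg, k1, k2, k3, k4⟩ := hsm (r := r) (x0 := z) ha cs hs
    (by linarith) hw (by linarith) sχ χ01 (fun x hx => (supp x hx).2.le) (fun x => by
      have e : Kc * 64 / (q * θ) ^ 2 / s ^ 2 = Kc / w ^ 2 := by rw [hwd]; field_simp; norm_num
      rw [e]
      rcases le_total (H.d t z x) ((2 * A1 + 1) * s) with hx | hx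
      · simpa using (χg x).1 hx
      · refine ((χg x).2 (by linarith)).trans ?_
        rw [show (2 * A1 + 2) * s - (2 * A1 + 1) * s = s by ring]
        gcongr; linarith)
    (reg_scale reg hs le_rfl hB β2 δ10.le fun x hx => ⟨by
      by_cases hp : p
      · exact Or.inl hp
      · have := (supp x hx).1
        rw [e2 hp] at this
        exact Or.inr (by linarith), (supp x hx).2.le.trans out1⟩)
    (hd.trans β1) fun y hy => (χ1 y (e4 y (hwd ▸ hy))).eq_of_nhds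
  rw [← hwd] at k3
  have e5 : q * (θ / 2 * s) = 4 * w := by rw [hwd]; ring
  have e6 : Ao * (θ / 2 * s) = A1 * s := by rw [hAo]; field_simp
  have n1 : βo * θ ≤ βo * 1 := by gcongr
  have n2 : β * s ^ 2 ≤ βo * (θ / 2 * s) :=
    calc β * s ^ 2 = β * s * s := by ring
      _ ≤ βo * θ / 2 * s * 1 := by gcongr; linarith
      _ = _ := by ring
  have n3 : (θ / 2 * s) ^ 2 ≤ s ^ 2 := by gcongr; linarith
  have n4 : Λ * (θ / 2 * s) ≤ Ao * (θ / 2 * s) := by gcongr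
  obtain ⟨m, hm⟩ := hO (s := θ / 2 * s) (A := Ao) (B := B) (γ := 2 * γ * s)
    (h := fun y => H.gam t ρ ρ y - 2 * 2 * ρ y) ha cs (by positivity) (by linarith)
    (by linarith) (by linarith) Ao1
    (reg_scale reg (by positivity) (by linarith) hB (β2.trans δ11) (by norm_num) fun x hx =>
      ⟨Or.inr (by linarith [hx.1]), by linarith [hx.2]⟩)
    (Al.s0_sub (Al.s0_gam ht sρ sρ) (Al.s0_cmul _ sρ)) (by positivity) fun x hx => by
      have k5 := (k3 x (one x ⟨by linarith [hx.1], by linarith [hx.2]⟩)).2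
      have k6 := He.kato t ht sρ 2 x
      have k7 : δ3 * s ^ 2 ≤ γ ^ 2 * s ^ 2 := by gcongr
      linarith
  have sub : H.An t z (θ / 2 * s) (16 * A * s) ⊆ H.An t z (4 * w) (2 * A1 * s) := fun x hx =>
    ⟨by linarith [hx.1], by linarith [hx.2]⟩
  have P : H.PC t z τ0 v s (θ / 2) (16 * A) δ2 σ (m / 4) (fun y => 1 * ρ y + m / 4) g := by
    refine ⟨hσ, s0_aff Al sρ _ _, sg, fun x hx => ?_, k2.trans ?_, fun x hx => ?_, fun x hx => ?_⟩
    · rw [k1 x (one x (sub hx) x (by rw [D.self t ht]; exact w0))]; ring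
    · gcongr
    · rw [Pc_add_const Al E ht sρ]
      exact (k3 x (one x (sub hx))).1.trans d3
    · rw [gam_aff2 Al ht sρ]
      have k5 := hm x ⟨hx.1, by linarith [hx.2]⟩
      have e7 : (Ao + Λ) * (2 * γ * s) * (θ / 2 * s) = θ * (δ2 * s ^ 2) := by
        rw [hγ]; field_simp
      have k6 : θ * (δ2 * s ^ 2) ≤ 1 * (δ2 * s ^ 2) := by gcongr
      rw [e7] at k5
      rw [show 1 ^ 2 * H.gam t ρ ρ x - 4 * (1 * ρ x + m / 4) = H.gam t ρ ρ x - 2 * 2 * ρ x - m by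
        ring]
      linarith
  obtain ⟨m1, m2⟩ := hS ha cs hs (s1.trans β3) (hε.trans (by gcongr)) hw (by linarith)
    (pc_mono P hs.le le_rfl le_rfl d2)
  have cc : C1 ≤ Cc := by linarith
  refine ⟨σ, m / 4, _, g, pc_mono P hs.le (by linarith) (by linarith) d1,
    m1.trans (by gcongr), fun x hx => (m2 x ⟨by linarith [hx.1], by linarith [hx.2]⟩).trans
      (by gcongr), fun hp => ⟨t', ht', ?_⟩⟩
  simp only [gam_aff2 Al (st.mem ht') sρ]
  simp only [one_pow, one_mul]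
  rw [← e3 hp]
  refine k4.trans ?_
  gcongr
  exact d3.trans d1

end Crest.Agent.N207.Ge

end
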