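import Crest.Agent.N207.C.VolUp
import Crest.Agent.N207.G.Hes

/-! Row 207, block G: the entropy of a neighbour (`GNbr`). -/

set_option autoImplicit false
set_option linter.dupNamespace false
set_option linter.unusedSectionVars false
open Set MeasureTheory Filter Topology Real
open scoped ContDiff

noncomputable section

namespace Crest.Agent.N207

namespace HC

variable {M : Type*} [TopologicalSpace M] [CompactSpace M] [MeasurableSpace M]
  [OpensMeasurableSpace M] {H : HC M}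

/-- reverse Bernstein estimate `2 (t - a) |∇u|² + u² ≤ m²` -/
theorem revBern (A : H.Alg) (E : H.Evo) {a b : ℝ} {u : ℝ → M → ℝ} (hs : H.St a b)
    (hu : H.Heat a b u) {m : ℝ} (hm : ∀ x, |u a x| ≤ m) : ∀ t ∈ Icc a b, ∀ x,
      2 * (t - a) * H.gam t (u t) (u t) x + u t x ^ 2 ≤ m ^ 2 := by
  have s1 : H.Sm a b fun t (_ : M) => 2 * (t - a) := A.sm_timeU (by fun_prop)
  have d1 : HasDt a b (fun t (_ : M) => 2 * (t - a)) fun _ _ => 2 :=
    HasDt.time (c' := fun _ => 2) fun t _ => by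
      simpa using ((hasDerivAt_id t).sub_const a).const_mul 2
  have sg := A.sm_gam hs hu.1 hu.1
  have := A.sub_le hs (A.sm_add (A.sm_mul s1 sg) (A.sm_pow 2 hu.1))
    ((d1.mul (E.dt_gam hs hu.1 hu.2)).add
      (A.heat_comp hs hu (φ := fun y => y ^ 2) (by fun_prop))) (m := m ^ 2) (c := 0)
    (fun x => by simpa using sq_le_sq' (abs_le.1 (hm x)).1 (abs_le.1 (hm x)).2) fun t ht x => by
      have ht' := Ioc_subset_Icc_self ht
      have hm' := hs.mem ht'
      have su := A.sm_s0 hu.1 t ht'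
      have h1 := E.hh_nonneg t hm' su x
      have d2 : deriv (deriv fun y : ℝ => y ^ 2) (u t x) = 2 := by
        have : (deriv fun y : ℝ => y ^ 2) = fun y => 2 * y := by funext y; simp
        rw [this]; simp
      rw [A.lap_add t hm' (A.s0_cmul _ (A.s0_gam hm' su su)) (A.s0_pow 2 su),
        A.lap_cmul hm' _ (A.s0_gam hm' su su), d2]
      simp only [sub_self, A.gam_const' hm' 0 su]
      nlinarith [mul_nonneg (sub_nonneg.2 ht'.1) h1]
  simpa using this

/-- a function with bounded gradient is Lipschitz -/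
theorem lip_of_gam (A : H.Alg) (D : H.Dist) {t : ℝ} (ht : t ∈ Ioo 0 H.T) {u : M → ℝ}
    (hu : H.S0 u) {L : ℝ} (hL : 0 < L) (h : ∀ z, H.gam t u u z ≤ L ^ 2) (x y : M) :
    |u y - u x| ≤ L * H.d t x y := by
  have := A.lip_glob D ht (A.s0_cmul L⁻¹ hu) (fun z => by
    rw [A.gam_cmul ht _ hu (A.s0_cmul _ hu), A.gam_cmul' ht _ hu hu, ← mul_assoc, ← sq, inv_pow,
      inv_mul_le_iff₀ (by positivity), mul_one]
    exact h z) x y
  rwa [← mul_sub, abs_mul, abs_of_pos (inv_pos.2 hL), inv_mul_le_iff₀ hL] at this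

/-- pairing of a bounded Lipschitz function with a concentrated density -/
theorem pair_conc (A : H.Alg) (I : H.Intg) (D : H.Dist) {t : ℝ} (ht : t ∈ Ioo 0 H.T) {z : M}
    {u w : M → ℝ} (hu : H.S0 u) (hw : H.S0 w) (hp : ∀ y, 0 ≤ w y) (hm : ∫ y, w y ∂H.vol t = 1)
    {ε m L : ℝ} (hε : 0 ≤ ε) (hL : 0 ≤ L) (hb : ∀ y, |u y| ≤ m)
    (hl : ∀ y, |u y - u z| ≤ L * H.d t z y) (ho : ∫ y in {y | ε ≤ H.d t z y}, w y ∂H.vol t ≤ ε) :
    |∫ y, u y * w y ∂H.vol t - u z| ≤ L * ε + 2 * m * ε := by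
  have ms : MeasurableSet {y | ε ≤ H.d t z y} :=
    (isClosed_le continuous_const (D.cont t ht z)).measurableSet
  have iw := A.integrable I ht hw
  have m0 : 0 ≤ m := (abs_nonneg _).trans (hb z)
  have e : ∫ y, u y * w y ∂H.vol t - u z = ∫ y, (u y - u z) * w y ∂H.vol t := by
    simp only [sub_mul]
    rw [integral_sub (A.integrable I ht (A.s0_mul hu hw)) (iw.const_mul _), integral_const_mul, hm,
      mul_one]
  have : ∫ y, |(u y - u z) * w y| ∂H.vol t ≤
      ∫ y, (L * ε * w y + 2 * m * {y | ε ≤ H.d t z y}.indicator w y) ∂H.vol t := by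
    refine integral_mono (A.integrable I ht (A.s0_mul (A.s0_sub hu (A.s0_const _)) hw)).abs
      ((iw.const_mul _).add ((iw.indicator ms).const_mul _)) fun y => ?_
    simp only [abs_mul, abs_of_nonneg (hp y)]
    by_cases hy : ε ≤ H.d t z y
    · have : {y | ε ≤ H.d t z y}.indicator w y = w y := indicator_of_mem (by exact hy) _
      simp only [this]
      have k : |u y - u z| ≤ 2 * m := (abs_sub _ _).trans (by linarith [hb y, hb z])
      nlinarith [mul_le_mul_of_nonneg_right k (hp y), mul_nonneg (mul_nonneg hL hε) (hp y)]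
    · have : {y | ε ≤ H.d t z y}.indicator w y = 0 := indicator_of_notMem (by exact hy) _
      simp only [this]
      have k := (hl y).trans (mul_le_mul_of_nonneg_left (not_le.1 hy).le hL)
      nlinarith [mul_le_mul_of_nonneg_right k (hp y)]
  rw [integral_add (iw.const_mul _) ((iw.indicator ms).const_mul _), integral_const_mul,
    integral_const_mul, hm, integral_indicator ms] at this
  rw [e]
  refine abs_integral_le_integral_abs.trans (this.trans ?_)
  nlinarith [mul_le_mul_of_nonneg_left ho m0]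

/-- comparison of volumes at two times -/
theorem vol_real_le (I : H.Intg) {K : ℝ} (hK : ∀ t ∈ Ioo 0 H.T, ∀ x, |H.R t x| ≤ K) {s t : ℝ}
    (hs : s ∈ Ioo 0 H.T) (ht : t ∈ Ioo 0 H.T) (S : Set M) :
    (H.vol t).real S ≤ exp (K * |t - s|) * (H.vol s).real S := by
  have := I.fin s hs
  have h := I.vol_le hK s hs t ht S
  rw [Measure.smul_apply, smul_eq_mul] at h
  have := ENNReal.toReal_mono (ENNReal.mul_ne_top ENNReal.ofReal_ne_top (measure_ne_top _ _)) h
  rwa [ENNReal.toReal_mul, ENNReal.toReal_ofReal (exp_pos _).le] at this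

/-- Gibbs inequality with the truncated potential of a second density -/
theorem gibbs (A : H.Alg) (I : H.Intg) {σ τ κ μ C0 η : ℝ} (hσ : σ ∈ Ioo 0 H.T) (hτ : 0 < τ)
    (hκ : 0 < κ) (hμ : 0 < μ) (hC : 0 ≤ C0) {v v' : M → ℝ} (sv : H.S0 v) (sv' : H.S0 v')
    (pv : ∀ x, 0 < v x) (pv' : ∀ x, 0 < v' x) (mv : ∫ x, v x ∂H.vol σ = 1)
    (mv' : ∫ x, v' x ∂H.vol σ = 1) (hb : ∀ x, log (κ * v' x + μ) ≤ C0) {Ω : Set M}
    (hΩ : MeasurableSet Ω) (h1 : 1 - η ≤ ∫ x in Ω, v x ∂H.vol σ)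
    (h2 : 2 - η ≤ ∫ x in Ω, pot τ v x * v x ∂H.vol σ) :
    3 - (2 + C0) * η - (κ + μ * (H.vol σ).real Ω) / (4 * π * τ) ^ 2 ≤
      ∫ x, -log (κ * v' x + μ) * v x ∂H.vol σ := by
  have := I.fin σ hσ
  have := pi_pos
  have pw : ∀ x, 0 < κ * v' x + μ := fun x => by have := pv' x; positivity
  have sw := A.s0_add (A.s0_cmul κ sv') (A.s0_const μ)
  have ia := A.integrable I hσ (A.s0_mul (A.s0_neg (A.s0_log sw pw)) sv)
  have iv := A.integrable I hσ sv
  have iv' := A.integrable I hσ sv'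
  have ip := A.integrable I hσ (A.s0_mul (A.s0_pot sv pv τ) sv)
  have iw := A.integrable I hσ sw
  rw [← integral_add_compl hΩ ia]
  have c1 : ∫ x in Ωᶜ, v x ∂H.vol σ ≤ η := by
    have := integral_add_compl hΩ iv
    linarith
  have k1 : -C0 * η ≤ ∫ x in Ωᶜ, -log (κ * v' x + μ) * v x ∂H.vol σ := by
    refine le_trans ?_ (setIntegral_mono (iv.const_mul (-C0)).integrableOn ia.integrableOn
      fun x => mul_le_mul_of_nonneg_right (neg_le_neg (hb x)) (pv x).le)
    rw [integral_const_mul]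
    nlinarith
  have j1 : IntegrableOn (fun x => pot τ v x * v x + v x) Ω (H.vol σ) := (ip.add iv).integrableOn
  have j2 : IntegrableOn (fun x => (κ * v' x + μ) / (4 * π * τ) ^ 2) Ω (H.vol σ) :=
    (iw.div_const _).integrableOn
  have k2 : ∫ x in Ω, (pot τ v x * v x + v x - (κ * v' x + μ) / (4 * π * τ) ^ 2) ∂H.vol σ ≤
      ∫ x in Ω, -log (κ * v' x + μ) * v x ∂H.vol σ := by
    refine setIntegral_mono (j1.sub j2) ia.integrableOn fun x => ?_
    have q := Sob.mul_log_ge (a := v x) (b := (κ * v' x + μ) / (4 * π * τ) ^ 2) (pv x).le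
      (div_pos (pw x) (by positivity))
    rw [log_div (pw x).ne' (by positivity), log_pow] at q
    simp only [pot]
    push_cast at q
    nlinarith
  rw [integral_sub j1 j2, integral_add ip.integrableOn iv.integrableOn, integral_div,
    integral_add (iv'.const_mul _).integrableOn (integrable_const _).integrableOn,
    integral_const_mul, setIntegral_const, smul_eq_mul] at k2
  have k3 : ∫ x in Ω, v' x ∂H.vol σ ≤ 1 :=
    mv' ▸ setIntegral_le_integral iv' (Eventually.of_forall fun x => (pv' x).le)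
  have k4 : (κ * ∫ x in Ω, v' x ∂H.vol σ + (H.vol σ).real Ω * μ) / (4 * π * τ) ^ 2 ≤
      (κ + μ * (H.vol σ).real Ω) / (4 * π * τ) ^ 2 :=
    div_le_div_of_nonneg_right (by nlinarith) (by positivity)
  linarith

/-- the pairing of a bounded function with two solutions from nearby bumps -/
theorem pair_near (h : H.Ok) {a t ε ε' τ0 τ0' s θ m σ : ℝ} {z z' : M} {v v' : ℝ → M → ℝ}
    (c : H.CS a t z ε τ0 v) (c' : H.CS a t z' ε' τ0' v') (s0 : 0 < s) (s1 : s ≤ 1) (hθ : 0 < θ)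
    (hε : ε ≤ θ * s ^ 2) (hε' : ε' ≤ θ * s ^ 2) (hd : H.d t z z' ≤ θ * s) (ha : a ≤ σ)
    (hσ : σ ≤ t - s ^ 2) {F : M → ℝ} (sF : H.S0 F) (m0 : 0 < m) (hF : ∀ x, |F x| ≤ m) :
    ∫ x, F x * v σ x ∂H.vol σ - 7 * m * θ ≤ ∫ x, F x * v' σ x ∂H.vol σ := by
  have A := h.alg
  have s2 : 0 < s ^ 2 := by positivity
  have hs : H.St σ t := c.st.mono ha (by linarith) le_rfl
  have sm : σ ∈ Icc σ t := ⟨le_rfl, hs.2.1.le⟩
  have tm : t ∈ Icc σ t := ⟨hs.2.1.le, le_rfl⟩
  have ht := hs.mem tm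
  obtain ⟨u, hu, rfl⟩ := h.solv.heat hs sF
  have hv := A.conj_mono c.conj ha le_rfl
  have hv' := A.conj_mono c'.conj ha le_rfl
  rw [A.dual h.int hs hu hv sm tm, A.dual h.int hs hu hv' sm tm]
  have su := A.sm_s0 hu.1 t tm
  have rb := revBern A h.evo hs hu hF t tm
  have b1 : ∀ y, |u t y| ≤ m := fun y => abs_le_of_sq_le_sq' (by
    have := rb y
    have := mul_nonneg (sub_pos.2 hs.2.1).le (A.gam_nonneg t ht su y)
    nlinarith) m0.le |> abs_le.2
  have b2 := lip_of_gam A h.dist ht su (L := m / s) (by positivity) fun y => by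
    have := rb y
    have g := A.gam_nonneg t ht su y
    rw [div_pow, le_div_iff₀ s2]
    nlinarith [sq_nonneg (u t y), mul_le_mul_of_nonneg_right (show s ^ 2 ≤ t - σ by linarith) g]
  have e0 : 0 < ε := c.t0.trans c.t1
  have e0' : 0 < ε' := c'.t0.trans c'.t1
  have k1 := pair_conc A h.int h.dist ht su (A.sm_s0 hv.1 t tm) (fun y => (c.pos y).le) c.mass
    e0.le (by positivity) b1 (b2 z) c.conc
  have k2 := pair_conc A h.int h.dist ht su (A.sm_s0 hv'.1 t tm) (fun y => (c'.pos y).le) c'.mass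
    e0'.le (by positivity) b1 (b2 z') c'.conc
  have k3 := (b2 z z').trans (mul_le_mul_of_nonneg_left hd (by positivity))
  have q : ∀ e : ℝ, e ≤ θ * s ^ 2 → m / s * e + 2 * m * e ≤ 3 * (m * θ) := fun e he => by
    have q1 : m / s * e ≤ m / s * (θ * s ^ 2) := mul_le_mul_of_nonneg_left he (by positivity)
    have q2 : m / s * (θ * s ^ 2) = m * θ * s := by field_simp
    have q3 : m * θ * s ≤ m * θ := mul_le_of_le_one_right (by positivity) s1
    have q4 : m * e ≤ m * (θ * s ^ 2) := mul_le_mul_of_nonneg_left he m0.le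
    have q5 : m * (θ * s ^ 2) ≤ m * θ := by
      rw [← mul_assoc]; exact mul_le_of_le_one_right (by positivity) (by nlinarith)
    linarith
  have q2 : m / s * (θ * s) = m * θ := by field_simp
  have := q ε hε
  have := q ε' hε'
  have := abs_le.1 k1
  have := abs_le.1 k2
  have := abs_le.1 k3
  linarith

/-- from the Nash entropy at an earlier time to `W` -/
theorem W_of_Na (h : H.Ok) {a t ε τ0 s η σ σ' : ℝ} {z : M} {v : ℝ → M → ℝ}
    (c : H.CS a t z ε τ0 v) (s0 : 0 < s) (η0 : 0 < η) (hε : ε ≤ η * s ^ 2) (η1 : η ≤ 1) (s1 : s ≤ 1)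
    (ha : a ≤ σ) (hσ : σ ∈ Icc (t - 2 * s ^ 2) (t - s ^ 2)) (hσ' : σ' ∈ Icc (t - s ^ 2 / 2) t)
    (hN : -η ≤ H.Na σ (τ0 + t - σ) (v σ)) : -(10 * η) ≤ H.Wv t τ0 v σ' := by
  have A := h.alg
  have s2 : 0 < s ^ 2 := by positivity
  have pv := A.conj_pos h.evo c.st c.conj c.pos
  have m1 : σ ∈ Icc a t := ⟨ha, by linarith [hσ.2]⟩
  have m2 : σ' ∈ Icc a t := ⟨by linarith [hσ.2, hσ'.1], hσ'.2⟩
  have k1 := (A.Na_bounds h.int h.evo c.st c.conj pv c.t0 c.mass m1 m2
    (by linarith [hσ.2, hσ'.1])).2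
  have k2 := A.Na_le h.int h.evo c.st c.conj pv c.t0 c.mass c.hW (abs_le.1 c.hN).2 σ' m2
  have t0 := c.t0
  have t1 := c.t1
  have e1 : ε ≤ s ^ 2 := hε.trans (mul_le_of_le_one_left s2.le η1)
  have e2 : ε ≤ η := hε.trans (mul_le_of_le_one_right η0.le (by nlinarith))
  have k3 : -(3 * s ^ 2 * η) ≤ (τ0 + t - σ) * H.Na σ (τ0 + t - σ) (v σ) := by
    have := mul_le_mul_of_nonneg_left hN (show 0 ≤ τ0 + t - σ by linarith [m1.2])
    nlinarith [mul_le_mul_of_nonneg_right (show τ0 + t - σ ≤ 3 * s ^ 2 by linarith [hσ.1]) η0.le]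
  have k4 : (τ0 + t - σ') * H.Na σ' (τ0 + t - σ') (v σ') ≤ 2 * s ^ 2 * η := by
    have := mul_le_mul_of_nonneg_left (k2.trans e2) (show 0 ≤ τ0 + t - σ' by linarith [m2.2])
    nlinarith [mul_le_mul_of_nonneg_right (show τ0 + t - σ' ≤ 2 * s ^ 2 by linarith [hσ'.1]) η0.le]
  by_contra hn
  have hn' : H.W σ' (τ0 + t - σ') (v σ') < -(10 * η) := not_le.1 hn
  have k5 : s ^ 2 / 2 ≤ σ' - σ := by linarith [hσ.2, hσ'.1]
  nlinarith [mul_lt_mul_of_pos_left hn' (show 0 < σ' - σ by linarith),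
    mul_le_mul_of_nonneg_right k5 η0.le]

theorem gNbr (h : H.Ok) : H.GNbr := fun t0 h0 A' hA η' hη' => by
  have A := h.alg
  have I := h.int
  obtain ⟨Ck, hCk, hk⟩ := h.kerC t0 h0
  obtain ⟨Cv, hCv, hv⟩ := volUp h t0 h0
  obtain ⟨K, hK⟩ := h.evo.R_bd
  have hK' : ∀ t ∈ Ioo 0 H.T, ∀ x, |H.R t x| ≤ |K| := fun t ht x =>
    (hK t ht x).trans (le_abs_self _)
  have := pi_pos
  set e := min 1 (η' / 10) with he
  have e0 : 0 < e := by positivity
  have e1 : e ≤ 1 := min_le_left _ _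
  have e2 : e ≤ η' / 10 := min_le_right _ _
  set C0 := log ((8 * π) ^ 2 * Ck + 1) with hC0
  have C00 : 0 ≤ C0 := log_nonneg (by nlinarith [sq_nonneg (8 * π)])
  set V := exp (|K| * 2) * (Cv * A' ^ 4) with hV
  have V0 : 0 < V := by positivity
  set μ := min 1 (e / (4 * V)) with hμ
  have μ0 : 0 < μ := by positivity
  have μ1 : μ ≤ 1 := min_le_left _ _
  have μ2 : μ * V ≤ e / 4 := by
    have := mul_le_mul_of_nonneg_right (min_le_right 1 (e / (4 * V))) V0.le
    refine this.trans_eq ?_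
    field_simp
  set m := C0 - log μ + 1 with hm
  have lμ : log μ ≤ 0 := log_nonpos μ0.le μ1
  have m0 : 1 ≤ m := by linarith
  refine ⟨e / (4 * (2 + C0)), e / (28 * m), by positivity, by positivity, ?_,
    fun {a t ε τ0 s z v} ha c s0 s1 hε σ hσ haσ Ω mΩ sΩ h1 h2 {ε' τ0' z' v'} c' hε' hd σ' hσ' => ?_⟩
  · rw [div_le_one (by positivity)]; linarith
  set θ := e / (28 * m) with hθ
  have θ0 : 0 < θ := by positivity
  have θm : m * θ = e / 28 := by rw [hθ]; field_simp
  have θ1 : θ ≤ e / 28 := θm ▸ le_mul_of_one_le_left θ0.le m0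
  have s2 : 0 < s ^ 2 := by positivity
  have s3 : s ^ 2 ≤ 1 := pow_le_one₀ s0.le s1
  have m1 : σ ∈ Icc a t := ⟨haσ, by linarith [hσ.2]⟩
  have tm : t ∈ Icc a t := ⟨c.st.2.1.le, le_rfl⟩
  have hσm := c.st.mem m1
  have pv := A.conj_pos h.evo c.st c.conj c.pos σ m1
  have pv' := A.conj_pos h.evo c'.st c'.conj c'.pos σ m1
  have mv := (A.conj_mass I c.st c.conj m1 tm).trans c.mass
  have mv' := (A.conj_mass I c'.st c'.conj m1 tm).trans c'.mass
  have sv := A.sm_s0 c.conj.1 σ m1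
  have sv' := A.sm_s0 c'.conj.1 σ m1
  have t0' := c'.t0
  have t1' := c'.t1
  have hh : s ^ 2 ≤ t - σ := by linarith [hσ.2]
  have h0' : 0 < t - σ := by linarith
  have τ1 : τ0' + t - σ ≤ (1 + θ) * (t - σ) := by
    have := mul_le_mul_of_nonneg_left hh θ0.le
    linarith
  have τ0p : 0 < τ0' + t - σ := by linarith
  set κ := (4 * π * (τ0' + t - σ)) ^ 2 with hκ
  have κ0 : 0 < κ := by positivity
  have pw : ∀ x, 0 < κ * v' σ x + μ := fun x => by have := pv' x; positivity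
  have ub : ∀ x, log (κ * v' σ x + μ) ≤ C0 := fun x => by
    refine log_le_log (pw x) (add_le_add ?_ μ1)
    have k := hk ha c'.st c'.conj (fun x => (c'.pos x).le) σ ⟨haσ, by linarith⟩ x
    rw [c'.mass, mul_one] at k
    have k2 : κ ≤ (8 * π) ^ 2 * (t - σ) ^ 2 := by
      rw [hκ, ← mul_pow]
      refine pow_le_pow_left₀ (by positivity) ?_ 2
      have := τ1.trans (mul_le_mul_of_nonneg_right (show 1 + θ ≤ 2 by linarith) h0'.le)
      calc _ ≤ 4 * π * (2 * (t - σ)) := by gcongr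
        _ = _ := by ring
    refine (mul_le_mul k2 k (pv' x).le (by positivity)).trans_eq ?_
    field_simp
  have g := gibbs A I hσm (τ := τ0 + t - σ) (by linarith [c.t0]) κ0 μ0 C00 sv sv' pv pv' mv mv'
    ub mΩ h1 h2
  have sF : H.S0 fun x => -log (κ * v' σ x + μ) :=
    A.s0_neg (A.s0_log (A.s0_add (A.s0_cmul κ sv') (A.s0_const μ)) pw)
  have pn := pair_near h c c' s0 s1 θ0 hε hε' hd haσ hσ.2 sF (m := m) (by linarith) fun x => by
    have k1 := ub x
    have k2 : log μ ≤ log (κ * v' σ x + μ) :=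
      log_le_log μ0 (by linarith [mul_pos κ0 (pv' x)])
    rw [abs_le]; constructor <;> linarith
  have cmp : ∫ x, -log (κ * v' σ x + μ) * v' σ x ∂H.vol σ ≤
      ∫ x, pot (τ0' + t - σ) (v' σ) x * v' σ x ∂H.vol σ := by
    refine integral_mono (A.integrable I hσm (A.s0_mul sF sv'))
      (A.integrable I hσm (A.s0_mul (A.s0_pot sv' pv' _) sv')) fun x => ?_
    refine mul_le_mul_of_nonneg_right ?_ (pv' x).le
    have k := log_le_log (mul_pos κ0 (pv' x)) (show κ * v' σ x ≤ κ * v' σ x + μ by linarith)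
    rw [log_mul κ0.ne' (pv' x).ne', hκ, log_pow] at k
    simp only [pot]
    push_cast at k
    linarith
  have vol : (H.vol σ).real Ω ≤ V * s ^ 4 := by
    have ht := c.st.mem tm
    have := I.fin t ht
    have k1 := vol_real_le I hK' ht hσm Ω
    have k2 : (H.vol t).real Ω ≤ Cv * (A' * s) ^ 4 := (measureReal_mono sΩ).trans
      (hv t ⟨ha.trans tm.1, ht.2⟩ z _ (by positivity))
    have k3 : exp (|K| * |σ - t|) ≤ exp (|K| * 2) := exp_le_exp.2 (mul_le_mul_of_nonneg_left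
      (abs_le.2 ⟨by linarith [hσ.1], by linarith⟩) (abs_nonneg _))
    refine k1.trans ((mul_le_mul k3 k2 measureReal_nonneg (exp_pos _).le).trans_eq ?_)
    rw [hV]; ring
  have rat : (κ + μ * (H.vol σ).real Ω) / (4 * π * (τ0 + t - σ)) ^ 2 ≤ 1 + e / 4 + e / 4 := by
    have p : 0 < τ0 + t - σ := by linarith [c.t0]
    rw [div_le_iff₀ (by positivity)]
    have q0 : t - σ ≤ τ0 + t - σ := by linarith [c.t0]
    have q1 : κ ≤ (1 + e / 4) * (4 * π * (τ0 + t - σ)) ^ 2 := by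
      have r1 : κ ≤ ((1 + θ) * (4 * π * (τ0 + t - σ))) ^ 2 := by
        rw [hκ]
        refine pow_le_pow_left₀ (by positivity) ?_ 2
        have := τ1.trans (mul_le_mul_of_nonneg_left q0 (by positivity))
        calc _ ≤ 4 * π * ((1 + θ) * (τ0 + t - σ)) := by gcongr
          _ = _ := by ring
      rw [mul_pow] at r1
      have r2 : θ * θ ≤ θ := mul_le_of_le_one_left θ0.le (by linarith)
      exact r1.trans (mul_le_mul_of_nonneg_right (by linarith [sq (1 + θ), add_mul_self_eq 1 θ])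
        (by positivity))
    have q2 : s ^ 4 ≤ (4 * π * (τ0 + t - σ)) ^ 2 := by
      rw [show s ^ 4 = (s ^ 2) ^ 2 by ring]
      refine pow_le_pow_left₀ s2.le ((hh.trans q0).trans (le_mul_of_one_le_left p.le ?_)) 2
      linarith [pi_gt_three]
    have q3 : μ * (H.vol σ).real Ω ≤ e / 4 * (4 * π * (τ0 + t - σ)) ^ 2 := by
      refine (mul_le_mul_of_nonneg_left vol μ0.le).trans ?_
      rw [← mul_assoc]
      exact mul_le_mul μ2 q2 (by positivity) (by positivity)
    linarith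
  have ee : (2 + C0) * (e / (4 * (2 + C0))) = e / 4 := by field_simp
  have hN : -e ≤ H.Na σ (τ0' + t - σ) (v' σ) := by
    unfold Na
    linarith
  have := W_of_Na h c' s0 e0 (hε'.trans (mul_le_mul_of_nonneg_right (by linarith) s2.le)) e1 s1
    haσ hσ hσ' hN
  linarith

end HC

end Crest.Agent.N207

end
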