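import Crest.Agent.N207.G.EnS
import Crest.Agent.N207.C.DistUp

/-!
# Row 207, block G, entropy half (helper49): annular cutoffs and the separation lemma
-/

set_option autoImplicit false
set_option linter.dupNamespace false
set_option linter.unusedSectionVars false
open Set MeasureTheory Filter Topology
open scoped ContDiff

noncomputable section

namespace Crest.Agent.N207.Ge

open HC

variable {M : Type*} [TopologicalSpace M] [CompactSpace M] [MeasurableSpace M]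
  [OpensMeasurableSpace M] {H : HC M}

/-- a step function of a smooth function -/
theorem cut1 (A : H.Alg) : ∃ K : ℝ, 1 ≤ K ∧ ∀ {U : M → ℝ}, H.S0 U → ∀ c D : ℝ, 0 < D →
    ∃ β, H.S0 β ∧ (∀ x, 0 ≤ β x ∧ β x ≤ 1) ∧ (∀ x, U x < c + D / 4 → β =ᶠ[𝓝 x] fun _ => 1) ∧
      (∀ x, c + 3 * D / 4 < U x → β =ᶠ[𝓝 x] fun _ => 0) ∧
      ∀ t ∈ Ioo 0 H.T, ∀ x, H.gam t β β x ≤ K / D ^ 2 * H.gam t U U x := by
  obtain ⟨K, hK, k1, -⟩ := E.zeta_bounds
  refine ⟨4 * K ^ 2 + 1, by nlinarith, fun {U} hU c D hD =>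
    ⟨fun x => E.zeta (2 / D * U x + (1 / 2 - 2 * c / D)), A.s0_compU E.zeta_cd (s0_aff A hU _ _),
      fun x => ⟨E.zeta_nonneg _, E.zeta_le_one _⟩, fun x hx => ?_, fun x hx => ?_,
      fun t ht x => ?_⟩⟩
  · filter_upwards [(isOpen_lt (A.s0_cont hU) continuous_const).mem_nhds hx] with y hy
    refine E.zeta_one ?_
    have : 2 / D * U y + (1 / 2 - 2 * c / D) = 1 / 2 + 2 * (U y - c) / D := by ring
    have h2 : 2 * (U y - c) / D ≤ 1 / 2 := by rw [div_le_iff₀ hD]; linarith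
    linarith
  · filter_upwards [(isOpen_lt continuous_const (A.s0_cont hU)).mem_nhds hx] with y hy
    refine E.zeta_zero ?_
    have : 2 / D * U y + (1 / 2 - 2 * c / D) = 1 / 2 + 2 * (U y - c) / D := by ring
    have h2 : 3 / 2 ≤ 2 * (U y - c) / D := by rw [le_div_iff₀ hD]; linarith
    linarith
  · rw [gam_psi2 A ht hU E.zeta_cd]
    refine mul_le_mul_of_nonneg_right ?_ (A.gam_nonneg t ht hU x)
    have h1 : deriv E.zeta (2 / D * U x + (1 / 2 - 2 * c / D)) ^ 2 ≤ K ^ 2 := by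
      rw [← sq_abs]; gcongr; exact k1 _
    calc _ ≤ K ^ 2 * (2 / D) ^ 2 := by gcongr
      _ = 4 * K ^ 2 / D ^ 2 := by ring
      _ ≤ _ := by gcongr; linarith

theorem gCut (h : H.Ok) : H.GCut := by
  have A := h.alg
  obtain ⟨K, hK, hc⟩ := cut1 A
  refine ⟨K, hK, fun t ht z r1 r2 r3 r4 h12 h23 h34 => ?_⟩
  have p1 := sub_pos.2 h12
  have p2 := sub_pos.2 h34
  obtain ⟨U, hU, g1, g2⟩ := h.dist.approx t ht z (min (r2 - r1) (r4 - r3) / 8) (by positivity)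
  have m1 := min_le_left (r2 - r1) (r4 - r3)
  have m2 := min_le_right (r2 - r1) (r4 - r3)
  obtain ⟨α, sα, α0, α1, α2, α3⟩ := hc hU r1 _ p1
  obtain ⟨β, sβ, β0, β1, β2, β3⟩ := hc hU r3 _ p2
  have sa := s0_aff A sα (-1) 1
  have a1 : ∀ x, r2 ≤ H.d t z x → α =ᶠ[𝓝 x] fun _ => 0 := fun x hx =>
    α2 x (by linarith [(abs_le.1 (g2 x)).1])
  have b1 : ∀ x, H.d t z x ≤ r3 → β =ᶠ[𝓝 x] fun _ => 1 := fun x hx =>
    β1 x (by linarith [(abs_le.1 (g2 x)).2])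
  refine ⟨fun x => (-1 * α x + 1) * β x, A.s0_mul sa sβ, fun x => ?_, fun x hx => ?_,
    fun x hx => ?_, fun x => ⟨fun hx => ?_, fun hx => ?_⟩⟩
  · have := α0 x; have := β0 x
    constructor <;> nlinarith
  · filter_upwards [a1 x hx.1, b1 x hx.2] with y h1 h2
    rw [h1, h2]; norm_num
  · rcases hx with hx | hx
    · filter_upwards [α1 x (by linarith [(abs_le.1 (g2 x)).2])] with y h1
      rw [h1]; norm_num
    · filter_upwards [β2 x (by linarith [(abs_le.1 (g2 x)).1])] with y h1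
      rw [h1]; norm_num
  · have e : (fun x => (-1 * α x + 1) * β x) =ᶠ[𝓝 x] fun x => -1 * α x + 1 := by
      filter_upwards [b1 x hx] with y h1
      rw [h1, mul_one]
    rw [gam_local A ht (A.s0_mul sa sβ) sa (A.s0_mul sa sβ) sa e e, gam_aff2 A ht sα]
    have := (α3 t ht x).trans (mul_le_of_le_one_right (by positivity) (g1 x))
    linarith
  · have e : (fun x => (-1 * α x + 1) * β x) =ᶠ[𝓝 x] β := by
      filter_upwards [a1 x hx] with y h1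
      rw [h1]; norm_num
    rw [gam_local A ht (A.s0_mul sa sβ) sβ (A.s0_mul sa sβ) sβ e e]
    exact (β3 t ht x).trans (mul_le_of_le_one_right (by positivity) (g1 x))

theorem gam_ev_zero (A : H.Alg) {t : ℝ} (ht : t ∈ Ioo 0 H.T) {F : M → ℝ} (hF : H.S0 F) {x : M}
    {c : ℝ} (e : F =ᶠ[𝓝 x] fun _ => c) : H.gam t F F x = 0 := by
  rw [gam_local A ht hF (A.s0_const c) hF (A.s0_const c) e e, A.gam_const ht c (A.s0_const c)]

/-- a cut off function cannot separate two balls -/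
theorem noSep (h : H.Ok) (C : H.COut) {t0 K : ℝ} (h0 : 0 < t0) (hK : 0 < K) :
    ∃ θ Λ β : ℝ, 0 < θ ∧ θ ≤ 1 / 16 ∧ 16 ≤ Λ ∧ 0 < β ∧
    ∀ {a t ε τ0 s B : ℝ} {z : M} {v : ℝ → M → ℝ} {F : M → ℝ}, t0 ≤ a → H.CS a t z ε τ0 v →
      0 < s → s ≤ β → ε ≤ β * s → a ≤ t - 2 * s ^ 2 →
      H.Reg t s B (1 / 4) (H.An t z (θ * s) (Λ * s)) → H.S0 F → (∀ x, 0 ≤ F x ∧ F x ≤ 1) →
      (∀ x ∉ H.An t z (θ * s) (Λ * s), F =ᶠ[𝓝 x] fun _ => 0) →
      (∀ x ∈ H.An t z (θ * s) (Λ * s), H.gam t F F x ≤ K / (θ * s) ^ 2 + K / (Λ * s) ^ 2 ∧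
        (2 * θ * s ≤ H.d t z x → H.gam t F F x ≤ K / (Λ * s) ^ 2)) →
      ∀ y1 y2 : M, H.d t z y1 ≤ 4 * s → H.d t z y2 ≤ 4 * s → (∀ x ∈ H.B t y1 (s / 8), F x = 1) →
        (∀ x ∈ H.B t y2 (s / 8), F x = 0) → False := by
  have A := h.alg
  obtain ⟨β, β0, β1, hS⟩ := gSep h C t0 h0
  obtain ⟨Cu, hCu, hu⟩ := cs_up C h0
  obtain ⟨W, hW, hw⟩ := vol_cmp h.int h.evo
  obtain ⟨Cv, hCv, hV⟩ := C.up t0 h0
  obtain ⟨Q, hQ⟩ : ∃ Q, Q = 64 * K * Cu * W * Cv := ⟨_, rfl⟩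
  have Q0 : 0 < Q := by rw [hQ]; positivity
  obtain ⟨θ, θ0, θ1, θ2⟩ : ∃ θ : ℝ, 0 < θ ∧ θ ≤ 1 / 16 ∧ Q * θ ≤ β / 4 :=
    ⟨min (1 / 16) (β / 4 / Q), by positivity, min_le_left _ _, by
      rw [← le_div_iff₀' Q0]; exact min_le_right _ _⟩
  obtain ⟨Λ, Λ1, Λ2⟩ : ∃ Λ : ℝ, 16 ≤ Λ ∧ 16 * K / β ≤ Λ := ⟨_, le_max_left _ _, le_max_right _ _⟩
  refine ⟨θ, Λ, β, θ0, θ1, Λ1, β0,
    fun {a t ε τ0 s B z v F} ha c s0 s1 l1 l2 hR sF F01 F0 gF y1 y2 d1 d2 f1 f2 => ?_⟩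
  have s2 : 0 < s ^ 2 := by positivity
  have hσ : t - s ^ 2 ∈ Icc (t - 2 * s ^ 2) (t - s ^ 2) := ⟨by linarith, le_rfl⟩
  have k := hS ha c s0 s1 l1 _ hσ (by linarith) sF F01 y1 y2 d1 d2 f1 f2
  have hm : t - s ^ 2 ∈ Icc a t := ⟨by linarith, by linarith⟩
  have hT := c.st.mem (right_mem_Icc.2 c.st.2.1.le)
  have hs := c.st.mem hm
  have st : H.St (t - 2 * s ^ 2) t := c.st.mono l2 (by linarith) le_rfl
  have vp := cs_pos h c _ hm
  have iv := A.integrable h.int hs (cs_s0 h c hm)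
  have := h.int.fin _ hs
  have mB := h.dist.meas_B hT z (2 * θ * s)
  have k1 : ∫ x, H.gam (t - s ^ 2) F F x * v (t - s ^ 2) x ∂H.vol (t - s ^ 2) ≤
      ∫ x, (4 * (K / (Λ * s) ^ 2) * v (t - s ^ 2) x + (H.B t z (2 * θ * s)).indicator
        (fun _ => 4 * (K / (θ * s) ^ 2) * (Cu / s ^ 4)) x) ∂H.vol (t - s ^ 2) := by
    refine integral_mono (A.integrable h.int hs (A.s0_mul (A.s0_gam hs sF sF) (cs_s0 h c hm)))
      ((iv.const_mul _).add ((integrable_const _).indicator mB)) fun x => ?_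
    have pv := vp x
    have i0 : 0 ≤ (H.B t z (2 * θ * s)).indicator
        (fun _ => 4 * (K / (θ * s) ^ 2) * (Cu / s ^ 4)) x :=
      indicator_nonneg (fun _ _ => by positivity) x
    by_cases hx : x ∈ H.An t z (θ * s) (Λ * s)
    swap
    · simp only [gam_ev_zero A hs sF (F0 x hx), zero_mul]
      positivity
    have g := gam_cmp A h.evo st sF (fun r hr => (hR r hr x hx).2.1)
      (le_of_eq (by field_simp; ring)) (s := t - s ^ 2) ⟨by linarith, by linarith⟩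
      (right_mem_Icc.2 st.2.1.le)
    by_cases hb : x ∈ H.B t z (2 * θ * s)
    · simp only [indicator_of_mem hb]
      have g2 := hu ha c s0 _ le_rfl hm.1 x
      have g3 : 4 * (K / (θ * s) ^ 2) * v (t - s ^ 2) x ≤ 4 * (K / (θ * s) ^ 2) * (Cu / s ^ 4) := by
        gcongr
      nlinarith [(gF x hx).1]
    · nlinarith [(gF x hx).2 (not_lt.1 hb)]
  rw [integral_add (iv.const_mul _) ((integrable_const _).indicator mB), integral_const_mul,
    cs_mass h c hm, integral_indicator mB, setIntegral_const, smul_eq_mul] at k1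
  have k2 := (hw t hT _ hs (H.B t z (2 * θ * s))).trans (mul_le_mul_of_nonneg_left
    (hV t ⟨ha.trans c.st.2.1.le, hT.2⟩ z (2 * θ * s) (by positivity)) hW.le)
  have k3 := mul_le_mul_of_nonneg_right k2
    (show 0 ≤ 4 * (K / (θ * s) ^ 2) * (Cu / s ^ 4) by positivity)
  have k4 := mul_le_mul_of_nonneg_left (k1.trans (add_le_add le_rfl k3)) s2.le
  have Λ0 : 0 < Λ := by linarith
  have e : s ^ 2 * (4 * (K / (Λ * s) ^ 2) * 1 + W * (Cv * (2 * θ * s) ^ 4) *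
      (4 * (K / (θ * s) ^ 2) * (Cu / s ^ 4))) = 4 * K / Λ ^ 2 + Q * θ * θ := by
    rw [hQ]; field_simp; ring
  have k5 : 4 * K / Λ ^ 2 ≤ β / 4 := by
    rw [div_le_iff₀ β0] at Λ2
    rw [div_le_iff₀ (by positivity)]
    nlinarith [mul_pos β0 Λ0]
  have k6 : Q * θ * θ ≤ β / 4 := by nlinarith
  linarith

theorem ball_an (D : H.Dist) {t : ℝ} (ht : t ∈ Ioo 0 H.T) {z x w : M} {r : ℝ}
    (hw : H.d t x w < r) : H.d t z x - r < H.d t z w ∧ H.d t z w < H.d t z x + r := by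
  have h1 := D.tri t ht z x w
  have h2 := D.tri t ht z w x
  rw [D.symm t ht w x] at h2
  constructor <;> linarith

/-- from the long annulus to the short one -/
theorem an_red (h : H.Ok) {t s : ℝ} (ht : t ∈ Ioo 0 H.T) (hs : 0 < s) {z x : M}
    (hx : s ≤ H.d t z x) : ∃ y, s / 2 ≤ H.d t z y ∧ H.d t z y ≤ 4 * s ∧
      H.d t x y < H.d t z x - s / 2 := by
  obtain ⟨y, h1, h2⟩ := mid h.alg h.dist ht (x := z) (y := x) (a := s) (b := H.d t z x - s / 2) hs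
    (by linarith) (by linarith)
  exact ⟨y, by linarith [(ball_an h.dist ht (z := z) h2).1], by linarith, h2⟩

end Crest.Agent.N207.Ge

end
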