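import Crest.Agent.N207.G.EnO1
import Crest.Agent.N207.AI.HcDef

/-!
# Row 207, block G, entropy half (helper49): oscillation on annuli, one end
-/

set_option autoImplicit false
set_option linter.dupNamespace false
set_option linter.unusedSectionVars false
open Set MeasureTheory Filter Topology
open scoped ContDiff Manifold

noncomputable section

namespace Crest.Agent.N207.Ge

open HC

section

variable {M : Type*} [TopologicalSpace M] [CompactSpace M] [MeasurableSpace M]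
  [OpensMeasurableSpace M] {H : HC M}

/-- the cutoff of the annulus `θ s ≤ d ≤ Λ s` -/
theorem an_cut (h : H.Ok) : ∃ K : ℝ, 1 ≤ K ∧ ∀ t ∈ Ioo 0 H.T, ∀ (z : M) (θ Λ s : ℝ), 0 < θ →
    θ ≤ 1 / 16 → 16 ≤ Λ → 0 < s → ∃ χ, H.S0 χ ∧ (∀ x, 0 ≤ χ x ∧ χ x ≤ 1) ∧
      (∀ y, s / 2 ≤ H.d t z y → H.d t z y ≤ 4 * s → ∀ x ∈ H.B t y (s / 8), χ x = 1) ∧
      (∀ x, H.d t z x ≤ θ * s ∨ Λ * s ≤ H.d t z x → χ =ᶠ[𝓝 x] fun _ => 0) ∧
      ∀ x, H.gam t χ χ x ≤ K / (θ * s) ^ 2 + K / (Λ * s) ^ 2 ∧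
        (2 * θ * s ≤ H.d t z x → H.gam t χ χ x ≤ K / (Λ * s) ^ 2) := by
  obtain ⟨K, hK, hc⟩ := gCut h
  refine ⟨4 * K, by linarith, fun t ht z θ Λ s θ0 θ1 Λ1 s0 => ?_⟩
  obtain ⟨χ, sχ, χ0, χ1, χ2, χ3⟩ := hc t ht z (θ * s) (2 * θ * s) (Λ * s / 2) (Λ * s)
    (by nlinarith) (by nlinarith) (by nlinarith)
  have Λ0 : 0 < Λ := by linarith
  have k : ∀ x, 2 * θ * s ≤ H.d t z x → H.gam t χ χ x ≤ 4 * K / (Λ * s) ^ 2 := fun x hx =>
    ((χ3 x).2 hx).trans (le_of_eq (by field_simp; ring))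
  refine ⟨χ, sχ, χ0, fun y h1 h2 x hx => ?_, χ2, fun x => ⟨?_, k x⟩⟩
  · obtain ⟨a1, a2⟩ := ball_an h.dist ht (z := z) (show H.d t y x < s / 8 from hx)
    exact (χ1 x ⟨by nlinarith, by nlinarith⟩).eq_of_nhds
  · rcases le_total (2 * θ * s) (H.d t z x) with hx | hx
    · exact (k x hx).trans (le_add_of_nonneg_left (by positivity))
    · refine (((χ3 x).1 (by nlinarith)).trans ?_).trans (le_add_of_nonneg_right (by positivity))
      rw [show 2 * θ * s - θ * s = θ * s by ring]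
      gcongr; linarith

theorem not_an {t r R : ℝ} {z x : M} (hx : x ∉ H.An t z r R) :
    H.d t z x ≤ r ∨ R ≤ H.d t z x := by
  by_contra hn
  push Not at hn
  exact hx ⟨hn.1.le, hn.2.le⟩

theorem gOsc (h : H.Ok) (C : H.COut) : H.GOsc := fun t0 h0 => by
  have Al := h.alg
  obtain ⟨K1, hK1, hc⟩ := an_cut h
  obtain ⟨K2, hK2, hb⟩ := cut1 Al
  obtain ⟨θ, Λ, β, θ0, θ1, Λ1, β0, hS⟩ := noSep h C h0 (K := 2 * K1 + 8 * K2) (by linarith)
  refine ⟨θ, Λ, β, θ0, by linarith, by linarith, β0,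
    fun {a t ε τ0 s A B γ z v u} ha c s0 s1 l1 l2 hA hR su γ0 gu => ?_⟩
  have hT := c.st.mem (right_mem_Icc.2 c.st.2.1.le)
  have Λ0 : 0 < Λ := by linarith
  obtain ⟨χ, sχ, χ0, χ1, χ2, χ3⟩ := hc t hT z θ Λ s θ0 θ1 Λ1 s0
  have lip : ∀ y, s / 2 ≤ H.d t z y → H.d t z y ≤ 4 * s → ∀ x ∈ H.B t y (s / 8),
      |u x - u y| ≤ γ * s / 8 := fun y h1 h2 x hx => by
    have hx' : H.d t y x < s / 8 := hx
    refine (lip_ball Al h.dist hT su γ0 (fun w hw => gu w ?_) hx').trans (by nlinarith)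
    obtain ⟨a1, a2⟩ := ball_an h.dist hT (z := z) hw
    exact ⟨by nlinarith, by nlinarith⟩
  have p0 : 0 < γ * s := by positivity
  have p1 : 16 * (γ * s) ≤ Λ * (γ * s) := by gcongr
  have k : ∀ y1 y2, s / 2 ≤ H.d t z y1 → H.d t z y1 ≤ 4 * s → s / 2 ≤ H.d t z y2 →
      H.d t z y2 ≤ 4 * s → u y1 - u y2 ≤ Λ * (γ * s) / 2 := fun y1 y2 a1 a2 b1 b2 => by
    by_contra hn
    obtain ⟨b, sb, b0, c1, c2, c3⟩ := hb su (u y2) (Λ * (γ * s) / 2) (by positivity)
    refine hS ha c s0 s1 l1 l2 hR (Al.s0_mul sχ sb) (fun x => ?_) (fun x hx => ?_)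
      (fun x hx => ?_) y2 y1 b2 a2 (fun x hx => ?_) fun x hx => ?_
    · have := χ0 x; have := b0 x
      constructor <;> nlinarith
    · filter_upwards [χ2 x (not_an hx)] with y hy
      rw [hy, zero_mul]
    · have g := gam_mul_le Al hT sχ sb x
      have g1 : H.gam t b b x ≤ 4 * K2 / (Λ * s) ^ 2 := by
        refine (c3 t hT x).trans ((mul_le_mul_of_nonneg_left
          (gu x ⟨hx.1, hx.2.trans (by nlinarith)⟩) (by positivity)).trans (le_of_eq ?_))
        field_simp; ring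
      have g2 := Al.gam_nonneg t hT sb x
      have g3 := Al.gam_nonneg t hT sχ x
      have q1 : χ x ^ 2 ≤ 1 := by nlinarith [χ0 x]
      have q2 : b x ^ 2 ≤ 1 := by nlinarith [b0 x]
      have g4 : H.gam t (fun y => χ y * b y) (fun y => χ y * b y) x ≤
          2 * (4 * K2 / (Λ * s) ^ 2) + 2 * H.gam t χ χ x := by nlinarith
      have e1 : (2 * K1 + 8 * K2) / (Λ * s) ^ 2 =
          2 * (4 * K2 / (Λ * s) ^ 2) + 2 * (K1 / (Λ * s) ^ 2) := by ring
      have e2 : 2 * (K1 / (θ * s) ^ 2) ≤ (2 * K1 + 8 * K2) / (θ * s) ^ 2 := by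
        rw [← mul_div_assoc]; gcongr; linarith
      exact ⟨by linarith [(χ3 x).1], fun hd => by linarith [(χ3 x).2 hd]⟩
    · rw [χ1 y2 b1 b2 x hx, (c1 x (by linarith [(abs_le.1 (lip y2 b1 b2 x hx)).2])).eq_of_nhds,
        one_mul]
    · rw [(c2 x (by linarith [(abs_le.1 (lip y1 a1 a2 x hx)).1])).eq_of_nhds, mul_zero]
  by_cases hne : ∃ y0, s / 2 ≤ H.d t z y0 ∧ H.d t z y0 ≤ 4 * s
  swap
  · refine ⟨0, fun x hx => absurd ?_ hne⟩
    obtain ⟨y, h1, h2, -⟩ := an_red h hT s0 hx.1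
    exact ⟨y, h1, h2⟩
  obtain ⟨y0, a1, a2⟩ := hne
  refine ⟨u y0, fun x hx => ?_⟩
  obtain ⟨y, h1, h2, h3⟩ := an_red h hT s0 hx.1
  have hx2 := hx.2
  have k1 := abs_le.1 (lip_ball Al h.dist hT su γ0 (fun w hw => gu w (by
    obtain ⟨a1, a2⟩ := ball_an h.dist hT (z := z) hw
    exact ⟨by nlinarith, by nlinarith⟩)) h3)
  have k2 : γ * H.d t x y ≤ γ * (A * s) := by gcongr; linarith
  have k3 := k y y0 h1 h2 a1 a2
  have k4 := k y0 y a1 a2 h1 h2
  rw [abs_le]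
  constructor <;> nlinarith

theorem cc_ball (D : H.Dist) {t : ℝ} (ht : t ∈ Ioo 0 H.T) {O : Set M} {x w : M} {r : ℝ}
    (hO : ∀ w, H.d t x w < r → w ∈ O) (hw : H.d t x w < r) :
    connectedComponentIn O x = connectedComponentIn O w := by
  obtain ⟨K, hK, h1, h2, h3⟩ := D.conn t ht hw
  exact connectedComponentIn_eq (hK.subset_connectedComponentIn h1 (fun y hy => hO y (h3 y hy)) h2)

theorem gOne (h : H.Ok) (C : H.COut) (L : H.Loc0) : H.GOne := fun t0 h0 => by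
  classical
  have Al := h.alg
  obtain ⟨K, hK, hc⟩ := an_cut h
  obtain ⟨θ, Λ, β, θ0, θ1, Λ1, β0, hS⟩ := noSep h C h0 (K := K) (by linarith)
  refine ⟨θ, Λ, β, θ0, by linarith, by linarith, β0,
    fun {a t ε τ0 s A B z v} ha c s0 s1 l1 l2 hA hR => ?_⟩
  have hT := c.st.mem (right_mem_Icc.2 c.st.2.1.le)
  obtain ⟨χ, sχ, χ0, χ1, χ2, χ3⟩ := hc t hT z θ Λ s θ0 θ1 Λ1 s0
  set O : Set M := {x | θ * s < H.d t z x ∧ H.d t z x < 2 * A * s} with hO
  have sm : ∀ y, s / 2 ≤ H.d t z y → H.d t z y ≤ 4 * s → ∀ x ∈ H.B t y (s / 8),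
      connectedComponentIn O y = connectedComponentIn O x := fun y h1 h2 x hx =>
    cc_ball h.dist hT (fun w hw => by
      obtain ⟨a1, a2⟩ := ball_an h.dist hT (z := z) hw
      exact ⟨by nlinarith, by nlinarith⟩) hx
  have loc : ∀ x ∈ O, ∀ᶠ w in 𝓝 x, connectedComponentIn O x = connectedComponentIn O w := by
    intro x hx
    have r0 : 0 < min (H.d t z x - θ * s) (2 * A * s - H.d t z x) :=
      lt_min (sub_pos.2 hx.1) (sub_pos.2 hx.2)
    filter_upwards [(isOpen_B h.dist hT x _).mem_nhds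
      (show H.d t x x < _ by rw [h.dist.self t hT]; exact r0)] with w hw
    refine cc_ball h.dist hT (fun w hw => ?_) hw
    obtain ⟨a1, a2⟩ := ball_an h.dist hT (z := z) hw
    exact ⟨by linarith [min_le_left (H.d t z x - θ * s) (2 * A * s - H.d t z x)],
      by linarith [min_le_right (H.d t z x - θ * s) (2 * A * s - H.d t z x)]⟩
  have k : ∀ y1 y2, s / 2 ≤ H.d t z y1 → H.d t z y1 ≤ 4 * s → s / 2 ≤ H.d t z y2 →
      H.d t z y2 ≤ 4 * s → connectedComponentIn O y1 = connectedComponentIn O y2 :=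
    fun y1 y2 a1 a2 b1 b2 => by
    by_contra hn
    set F : M → ℝ := fun x =>
      if connectedComponentIn O x = connectedComponentIn O y2 then χ x else 0 with hF
    have z0 : ∀ x, (χ =ᶠ[𝓝 x] fun _ => 0) → F =ᶠ[𝓝 x] fun _ => 0 := fun x hx =>
      hx.mono fun y hy => by simp only [hF, hy, ite_self]
    have alt : ∀ x, F =ᶠ[𝓝 x] χ ∨ F =ᶠ[𝓝 x] fun _ => 0 := fun x => by
      by_cases hx : x ∈ O
      · by_cases hy : connectedComponentIn O x = connectedComponentIn O y2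
        · exact Or.inl ((loc x hx).mono fun w hw => if_pos (hw ▸ hy))
        · exact Or.inr ((loc x hx).mono fun w hw => if_neg (hw ▸ hy))
      · refine Or.inr (z0 x (χ2 x ?_))
        by_contra hn
        push Not at hn
        exact hx ⟨hn.1, hn.2.trans_le (by nlinarith)⟩
    have sF : H.S0 F := L F fun x => (alt x).elim (fun e => ⟨χ, sχ, e⟩)
      fun e => ⟨_, Al.s0_const 0, e⟩
    refine hS ha c s0 s1 l1 l2 hR sF (fun x => ?_) (fun x hx => z0 x (χ2 x (not_an hx)))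
      (fun x _ => ?_) y2 y1 b2 a2 (fun x hx => ?_) fun x hx => if_neg (sm y1 a1 a2 x hx ▸ hn)
    · simp only [hF]
      split_ifs
      exacts [χ0 x, ⟨le_rfl, zero_le_one⟩]
    · rcases alt x with e | e
      · rw [gam_local Al hT sF sχ sF sχ e e]; exact χ3 x
      · rw [gam_ev_zero Al hT sF e]
        exact ⟨by positivity, fun _ => by positivity⟩
    · exact (if_pos (sm y2 b1 b2 x hx).symm).trans (χ1 y2 b1 b2 x hx)
  by_cases hne : ∃ y0, s / 2 ≤ H.d t z y0 ∧ H.d t z y0 ≤ 4 * s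
  swap
  · refine ⟨∅, isPreconnected_empty, fun x hx => absurd ?_ hne, empty_subset _⟩
    obtain ⟨y, h1, h2, -⟩ := an_red h hT s0 hx.1
    exact ⟨y, h1, h2⟩
  obtain ⟨y0, a1, a2⟩ := hne
  refine ⟨connectedComponentIn O y0, isPreconnected_connectedComponentIn, fun x hx => ?_,
    fun x hx => ?_⟩
  · obtain ⟨y, h1, h2, h3⟩ := an_red h hT s0 hx.1
    have hx1 := hx.1
    have hx2 := hx.2
    have k1 := cc_ball h.dist hT (O := O) (fun w hw => by
      obtain ⟨a1, a2⟩ := ball_an h.dist hT (z := z) hw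
      exact ⟨by nlinarith, by nlinarith⟩) h3
    rw [← k y y0 h1 h2 a1 a2, ← k1]
    exact mem_connectedComponentIn ⟨by nlinarith, by nlinarith⟩
  · have := connectedComponentIn_subset O y0 hx
    exact ⟨this.1.le, this.2.le⟩

end

variable {M : Type*} [TopologicalSpace M] [ChartedSpace E4 M] [IsManifold 𝓘(ℝ, E4) ∞ M]
  [T3Space M] [ConnectedSpace M] [MeasurableSpace M] [BorelSpace M]

theorem loc0 (F : Flow M) : F.hc.Loc0 := fun _ hu x => by
  obtain ⟨w, hw, e⟩ := hu x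
  exact (hw x).congr_of_eventuallyEq e

theorem gOne' [CompactSpace M] (F : Flow M) (h : F.hc.Ok) (C : F.hc.COut) : F.hc.GOne :=
  gOne h C (loc0 F)

end Crest.Agent.N207.Ge

end
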