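import Crest.Agent.N207.G.EnC

/-!
# Row 207, block G, entropy half (helper23): pointwise smallness of `Hess u - 2 g`
-/

set_option autoImplicit false
set_option linter.dupNamespace false
set_option linter.unusedSectionVars false
open Set MeasureTheory Filter Topology
open scoped ContDiff

noncomputable section

namespace Crest.Agent.N207.Ge

open HC

variable {M : Type*} [TopologicalSpace M] [CompactSpace M] [MeasurableSpace M]
  [OpensMeasurableSpace M] {H : HC M}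

theorem exists_uc (h : H.Ok) (hk : H.KerC) {t0 : ℝ} (h0 : 0 < t0) : ∃ C, 0 ≤ C ∧ H.UC t0 C := by
  obtain ⟨C, hC, hU⟩ := hk t0 h0
  exact ⟨C, hC.le, fun ha hs hv hp s hs' y =>
    ⟨h.alg.conj_nonneg h.evo hs hv hp s (Ico_subset_Icc_self hs') y, hU ha hs hv hp s hs' y⟩⟩

set_option maxHeartbeats 1000000 in
/-- mean value step: pointwise bound in the second half of the window -/
theorem pt1 (h : H.Ok) (hk : H.KerC) {t0 C F B l : ℝ} (h0 : 0 < t0) (hC : 0 ≤ C) (hF : 0 ≤ F)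
    (hB : 0 ≤ B) (hl : 0 < l) : ∃ F' θ0, 1 ≤ F' ∧ 0 < θ0 ∧
    ∀ {t s σ θ δ η : ℝ} {χ : M → ℝ} {u G P' : ℝ → M → ℝ}, HD H t s σ θ F B δ η χ u →
      HG H C σ (σ + θ * s ^ 2) u G P' → t0 ≤ t - 2 * s ^ 2 → θ ≤ θ0 → ∀ x0 : M,
      (∀ y, H.d t x0 y < l * s → χ y = 1) → ∀ ρ ∈ Icc (σ + θ * s ^ 2 / 2) (σ + θ * s ^ 2),
        H.Pc 2 ρ (u ρ) x0 ≤ F' * (η + δ + Real.exp (-(l / (4 * √θ)))) / θ ^ 2 := by
  have A := h.alg
  have I := h.int
  have E := h.evo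
  obtain ⟨Cu, hCu, hU⟩ := exists_uc h hk h0
  obtain ⟨Km, hKm, hmv⟩ := N207.E.mv A I h.solv hCu hU (Λ0 := C * (B + 2)) (by positivity)
  obtain ⟨C1, hC1, hlip⟩ := A.exists_lipheat E h.solv h.dist
  obtain ⟨F1, hF1, hw⟩ := wen h hC hF hB (half_pos hl)
  refine ⟨4 * Km * (F1 + F) + 1, (l / (8 * (4 + 2 * C1))) ^ 2, ?_, by positivity, ?_⟩
  · have : 0 ≤ 4 * Km * (F1 + F) := by positivity
    linarith
  intro t s σ θ δ η χ u G P' D g ht0 hθ0 x0 hχ ρ hρ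
  have hs := D.s0
  have hθ := D.θ0
  have hδ := D.δ0
  have hη := D.η0
  have hsq : 0 < √θ := Real.sqrt_pos.2 hθ
  have hθs : 0 < θ * s ^ 2 := by positivity
  have hsq1 : √θ ≤ l / (8 * (4 + 2 * C1)) := Real.sqrt_le_iff.2 ⟨by positivity, hθ0⟩
  have hsq2 : √(θ * s ^ 2) = √θ * s := by
    rw [Real.sqrt_mul hθ.le, Real.sqrt_sq hs.le]
  obtain ⟨φ, sφ, φ01, φ1, φχ, hE, -⟩ := hw D g x0 (l / 2 * s) fun y hy => hχ y (by linarith)
  have eX : l / 2 / (2 * √θ) = l / (4 * √θ) := by field_simp; norm_num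
  rw [eX] at hE
  set X := Real.exp (-(l / (4 * √θ)))
  have hX0 : 0 < X := Real.exp_pos _
  obtain ⟨w, w1, w2, -, -, w5, -⟩ := hlip D.st' x0 (√θ * s) (by positivity)
  have hσm : σ ∈ Icc (t - 2 * s ^ 2) t := ⟨D.σ1.1, by nlinarith [D.σ1.2]⟩
  have hsqle : ∀ r ∈ Icc σ (σ + θ * s ^ 2), √(r - σ) ≤ √θ * s := fun r hr => by
    rw [← hsq2]; exact Real.sqrt_le_sqrt (by linarith [hr.2])
  have hr4 : 4 * ((4 + 2 * C1) * (√θ * s)) ≤ l / 2 * s := by
    have h1 : 8 * (4 + 2 * C1) * √θ ≤ l := by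
      rwa [le_div_iff₀ (by positivity), mul_comm] at hsq1
    nlinarith
  have hφ : ∀ r ∈ Icc σ (σ + θ * s ^ 2), ∀ y, w r y ≤ (2 + C1) * (√θ * s) → φ y = 1 := by
    intro r hr y hy
    have h1 := (abs_le.1 (w5 r hr y)).1
    have h2 := mul_le_mul_of_nonneg_left (hsqle r hr) hC1.le
    have h3 : 0 < √θ * s := by positivity
    have h4 := ball_cmp A E h.dist D.st (ρ := (4 + 2 * C1) * (√θ * s)) hσm D.tm (by positivity)
      (fun z hz r' hr' => (D.reg r' hr' z (by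
        show χ z ≠ 0
        rw [hχ z (by nlinarith)]; norm_num)).2.1) D.kb (y := y) (by nlinarith)
    exact φ1 y (by nlinarith)
  have hsP := sm_Pc A D.st' D.heat.1 2
  have L : N207.E.Loc H σ (σ + θ * s ^ 2) ((2 + C1) * (√θ * s)) w (fun _ x => φ x ^ 2)
      (fun r x => H.Pc 2 r (u r) x + δ) (fun r x => P' r x + 0) G :=
    { st := D.st'
      heat := w1
      lip := w2
      sΦ := A.sm_static (A.s0_pow 2 sφ)
      Φ0 := fun _ _ _ => sq_nonneg _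
      Φ1 := fun r hr y hy => by rw [hφ r hr y hy]; norm_num
      sP := A.sm_add hsP (A.sm_const δ)
      dP := g.dP.add (HasDt.static fun _ => δ)
      P0 := fun r hr y => add_nonneg (Pc_nonneg E (D.st'.mem hr) (A.sm_s0 D.heat.1 r hr) 2 y) hδ
      G0 := g.G0
      kato := fun r hr y => by
        have hm := D.st'.mem hr
        have hP := s0_Pc A hm (A.sm_s0 D.heat.1 r hr) 2
        have e := gam_aff2 A hm hP 1 δ y
        simp only [one_mul, one_pow] at e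
        rw [e]
        have := g.kato r hr y
        have := mul_nonneg hδ (g.G0 r hr y)
        nlinarith }
  have key := hmv (Λ := C * ((B + 2) / s ^ 2)) L (by linarith [D.σ1.1]) (by positivity) (by
      have e : C * ((B + 2) / s ^ 2) * (σ + θ * s ^ 2 - σ) = C * (B + 2) * θ := by
        field_simp; ring
      rw [e]
      exact mul_le_of_le_one_right (by positivity) (by linarith [D.θ1]))
    (fun r hr y hy => by
      have hm := D.st'.mem hr
      have hur := A.sm_s0 D.heat.1 r hr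
      have hP := s0_Pc A hm hur 2
      have p0 := Pc_nonneg E hm hur 2 y
      have e := lap_aff A hm hP 1 δ y
      simp only [one_mul] at e
      rw [e]
      have h1 : χ y ≠ 0 := by rw [φχ y (by rw [hφ r hr y hy]; norm_num)]; norm_num
      have h2 := mul_le_mul_of_nonneg_left (D.src h1 (D.sub hr) p0) hC
      have h3 := g.ev r hr y
      have h4 : (B + 1) / s ^ 2 * H.Pc 2 r (u r) y + δ / s ^ 2 ≤
          (B + 2) / s ^ 2 * (H.Pc 2 r (u r) y + δ) := by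
        have e1 : (B + 2) / s ^ 2 * (H.Pc 2 r (u r) y + δ) - ((B + 1) / s ^ 2 *
          H.Pc 2 r (u r) y + δ / s ^ 2) = (H.Pc 2 r (u r) y + (B + 1) * δ) / s ^ 2 := by
          field_simp; ring
        have : 0 ≤ (H.Pc 2 r (u r) y + (B + 1) * δ) / s ^ 2 := by positivity
        linarith
      have h5 := mul_le_mul_of_nonneg_left h4 hC
      nlinarith)
    ρ ⟨by linarith [hρ.1], hρ.2⟩ x0 (√(θ / 2) * s) (by positivity) (by
      have hρ' : ρ ∈ Icc σ (σ + θ * s ^ 2) := ⟨by linarith [hρ.1], hρ.2⟩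
      have h1 := (abs_le.1 (w5 ρ hρ' x0)).2
      rw [h.dist.self σ (D.st.mem hσm)] at h1
      have h2 := mul_le_mul_of_nonneg_left (hsqle ρ hρ') hC1.le
      have h3 : √(θ / 2) * s ≤ √θ * s := by gcongr; linarith
      linarith) (by
      rw [mul_pow, Real.sq_sqrt (by positivity)]; linarith [hρ.1])
  have k2 := key.2 ((F1 + F) * (η + δ + X) * s ^ 4) fun r hr => by
    have hm := D.st'.mem hr
    have hur := A.sm_s0 D.heat.1 r hr
    have hP := s0_Pc A hm hur 2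
    have h1 := int_mono A I hm (A.s0_mul (A.s0_pow 2 sφ) (A.s0_add hP (A.s0_const δ)))
      (A.s0_add (A.s0_mul (A.s0_pow 2 sφ) hP) (A.s0_cmul δ D.sχ)) fun x => by
        by_cases hx : φ x = 0
        · rw [hx]; have := mul_nonneg hδ (D.χ0 x); nlinarith
        · rw [φχ x hx]
          have := φ01 x
          have : φ x ^ 2 ≤ 1 := by nlinarith [this.1, this.2]
          nlinarith
    rw [int_add A I hm (A.s0_mul (A.s0_pow 2 sφ) hP) (A.s0_cmul δ D.sχ), integral_const_mul] at h1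
    have h2 := mul_le_mul_of_nonneg_left (D.vol r (D.sub hr)) hδ
    have h3 := hE r hr
    have h4 : δ * (F * s ^ 4) ≤ F * (η + δ + X) * s ^ 4 := by
      have : 0 ≤ F * (η + X) * s ^ 4 := by positivity
      nlinarith
    nlinarith
  have e4 : (√(θ / 2) * s) ^ 4 = θ ^ 2 / 4 * s ^ 4 := by
    rw [mul_pow, show √(θ / 2) ^ 4 = (√(θ / 2) ^ 2) ^ 2 by ring, Real.sq_sqrt (by positivity)]
    ring
  rw [e4] at k2
  rw [le_div_iff₀ (by positivity)]
  refine le_of_mul_le_mul_right (a := s ^ 4 / 4) ?_ (by positivity)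
  have h5 : 0 ≤ θ ^ 2 / 4 * s ^ 4 * δ := by positivity
  have h6 : 0 ≤ (η + δ + X) * (s ^ 4 / 4) := by positivity
  nlinarith

/-- static transfer of the bound on the Hessian to the time `t` -/
theorem transfer (h : H.Ok) (He : H.Hes) : ∃ C', 1 ≤ C' ∧
    ∀ {t s r δ Λ : ℝ} {w : M → ℝ} {x : M}, H.St r t → 0 < s → t - r ≤ 2 * s ^ 2 → 0 ≤ δ → δ ≤ 1 →
      0 ≤ Λ → H.S0 w → (∀ ρ ∈ Icc r t, √(H.Q 0 ρ x) ≤ δ / s ^ 2 ∧ √(H.Q 1 ρ x) ≤ δ / s ^ 3 ∧
        H.gam ρ w w x ≤ Λ * s ^ 2) → H.Pc 2 t w x ≤ C' * (H.Pc 2 r w x + δ * (Λ + 1)) := by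
  have A := h.alg
  have E := h.evo
  obtain ⟨C, hC, hst⟩ := He.stat
  refine ⟨Real.exp (4 * C) * (1 + 8 * C), by
    nlinarith [Real.one_le_exp (show 0 ≤ 4 * C by positivity)], ?_⟩
  intro t s r δ Λ w x hs s0 htr δ0 δ1 Λ0 hw hb
  obtain ⟨P', -, hP⟩ := A.sm_dt hs.2.1 (sm_Pc A hs (A.sm_static hw) 2)
  have key := (gron (y := fun ρ => H.Pc 2 ρ w x) (g := fun _ => 0) (g' := fun _ => 0)
    (p := fun _ => 0) (q := fun _ => 0) (k := 2 * C / s ^ 2) (K := 0) (m := 0)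
    (e := 4 * C * δ * (Λ + 1) / s ^ 2) (by positivity) le_rfl le_rfl (by positivity)
    (fun ρ hρ => hP ρ hρ x) (fun ρ _ => hasDerivWithinAt_const _ _ _)
    (fun ρ hρ => Pc_nonneg E (hs.mem hρ) hw 2 x) (fun _ _ => le_rfl) (fun _ _ => le_rfl)
    (fun _ _ => le_rfl) (fun ρ hρ => by
      obtain ⟨b1, b2, b3⟩ := hb ρ hρ
      have h1 := (le_abs_self _).trans (hst 2 hs hw hP ρ hρ x)
      have p0 := Pc_nonneg E (hs.mem hρ) hw 2 x
      set P := H.Pc 2 ρ w x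
      have b4 : √(H.gam ρ w w x) ≤ √Λ * s := by
        rw [← Real.sqrt_sq s0.le, ← Real.sqrt_mul Λ0]; exact Real.sqrt_le_sqrt b3
      have b5 : √(H.Q 1 ρ x) * √(H.gam ρ w w x) + √(H.Q 0 ρ x) * (√P + |2|) ≤
          δ / s ^ 2 * (√P + (√Λ + 2)) := by
        have c1 : √(H.Q 1 ρ x) * √(H.gam ρ w w x) ≤ δ / s ^ 3 * (√Λ * s) :=
          mul_le_mul b2 b4 (Real.sqrt_nonneg _) (by positivity)
        have c2 : √(H.Q 0 ρ x) * (√P + |2|) ≤ δ / s ^ 2 * (√P + |2|) :=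
          mul_le_mul_of_nonneg_right b1 (by positivity)
        have e : δ / s ^ 3 * (√Λ * s) = δ / s ^ 2 * √Λ := by field_simp
        rw [abs_two] at c2 ⊢
        nlinarith
      have b6 : √P * (√P + (√Λ + 2)) ≤ 2 * P + 4 * (Λ + 1) := by
        nlinarith [Real.sq_sqrt p0, Real.sq_sqrt Λ0, sq_nonneg (√P - √Λ), sq_nonneg (√P - 2),
          Real.sqrt_nonneg P, Real.sqrt_nonneg Λ]
      have b7 : C * √P * (δ / s ^ 2 * (√P + (√Λ + 2))) ≤ C * δ / s ^ 2 * (2 * P + 4 * (Λ + 1)) := by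
        have e : C * √P * (δ / s ^ 2 * (√P + (√Λ + 2))) =
          C * δ / s ^ 2 * (√P * (√P + (√Λ + 2))) := by ring
        rw [e]
        exact mul_le_mul_of_nonneg_left b6 (by positivity)
      have b8 := mul_le_mul_of_nonneg_left b5 (show 0 ≤ C * √P by positivity)
      have b9 : C * δ / s ^ 2 * (2 * P) ≤ 2 * C / s ^ 2 * P := by
        have e : 2 * C / s ^ 2 * P - C * δ / s ^ 2 * (2 * P) = 2 * C * (1 - δ) * P / s ^ 2 := by
          field_simp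
        have : 0 ≤ 2 * C * (1 - δ) * P / s ^ 2 := by
          have := sub_nonneg.2 δ1
          positivity
        linarith
      have e2 : C * δ / s ^ 2 * (2 * P + 4 * (Λ + 1)) =
        C * δ / s ^ 2 * (2 * P) + 4 * C * δ * (Λ + 1) / s ^ 2 := by ring
      have b10 := h1.trans (b8.trans b7)
      rw [e2] at b10
      simp only [mul_zero, add_zero, sub_zero]
      exact b10.trans (add_le_add_left b9 _)) (fun _ _ => by simp)).1 t (right_mem_Icc.2 hs.2.1.le)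
  simp only [zero_mul, mul_zero, add_zero] at key
  have p0 := Pc_nonneg E (hs.mem (left_mem_Icc.2 hs.2.1.le)) hw 2 x
  have h1 : Real.exp (2 * C / s ^ 2 * (t - r)) ≤ Real.exp (4 * C) := by
    refine Real.exp_le_exp.2 ?_
    calc 2 * C / s ^ 2 * (t - r) ≤ 2 * C / s ^ 2 * (2 * s ^ 2) := by gcongr
      _ = 4 * C := by field_simp; ring
  have h2 : 4 * C * δ * (Λ + 1) / s ^ 2 * (t - r) ≤ 8 * C * (δ * (Λ + 1)) := by
    calc _ ≤ 4 * C * δ * (Λ + 1) / s ^ 2 * (2 * s ^ 2) := by gcongr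
      _ = _ := by field_simp; ring
  have h3 : 0 ≤ δ * (Λ + 1) := by positivity
  have h4 : 0 ≤ 4 * C * δ * (Λ + 1) / s ^ 2 * (t - r) :=
    mul_nonneg (by positivity) (sub_nonneg.2 hs.2.1.le)
  calc _ ≤ _ := key
    _ ≤ Real.exp (4 * C) * ((1 + 8 * C) * (H.Pc 2 r w x + δ * (Λ + 1))) :=
        mul_le_mul h1 (by nlinarith [mul_nonneg hC p0]) (by positivity) (Real.exp_pos _).le
    _ = _ := by ring

/-- pointwise bounds at the time `t` -/
theorem pt (h : H.Ok) (He : H.Hes) (hk : H.KerC) {t0 C F B l : ℝ} (h0 : 0 < t0) (hC : 0 ≤ C)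
    (hF : 0 ≤ F) (hB : 0 ≤ B) (hl : 0 < l) : ∃ F' θ0, 1 ≤ F' ∧ 0 < θ0 ∧
    ∀ {t s σ θ δ η : ℝ} {χ : M → ℝ} {u G P' : ℝ → M → ℝ}, HD H t s σ θ F B δ η χ u →
      HG H C σ (σ + θ * s ^ 2) u G P' → t0 ≤ t - 2 * s ^ 2 → θ ≤ θ0 → ∀ x0 : M,
      (∀ y, H.d t x0 y < l * s → χ y = 1) → ∀ ρ ∈ Icc (σ + θ * s ^ 2 / 2) (σ + θ * s ^ 2),
        H.Pc 2 t (u ρ) x0 ≤ F' * (η + δ + Real.exp (-(l / (4 * √θ)))) / θ ^ 2 ∧
          H.gam t (u ρ) (u ρ) x0 ≤ F' / θ * s ^ 2 := by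
  obtain ⟨F1, θ0, hF1, hθ0, h1⟩ := pt1 h hk h0 hC hF hB hl
  obtain ⟨C', hC', h2⟩ := transfer h He
  refine ⟨C' * (F1 + 4 * F ^ 2 + 1), θ0, by nlinarith [sq_nonneg F], hθ0, ?_⟩
  intro t s σ θ δ η χ u G P' D g ht0 hθ x0 hχ ρ hρ
  have hs := D.s0
  have θ0' := D.θ0
  have hδ := D.δ0
  have hη := D.η0
  have hθs : 0 < θ * s ^ 2 := by positivity
  have hρ' : ρ ∈ Icc σ (σ + θ * s ^ 2) := ⟨by linarith [hρ.1], hρ.2⟩
  have hx : χ x0 ≠ 0 := by
    rw [hχ x0 (by rw [h.dist.self t (D.st.mem D.tm)]; positivity)]; norm_num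
  have hur := h.alg.sm_s0 D.heat.1 ρ hρ'
  have hg : ∀ r ∈ Icc (t - 2 * s ^ 2) t, H.gam r (u ρ) (u ρ) x0 ≤ 4 * F ^ 2 / θ * s ^ 2 :=
    fun r hr => by
      have := D.gam_cmp h.alg h.evo hur hx hr (D.sub hρ')
      have := D.gam_le h.alg h.evo hρ x0
      have e : 4 * F ^ 2 / θ * s ^ 2 = 4 * (F ^ 2 / θ * s ^ 2) := by ring
      linarith
  have hρt : ρ < t := lt_of_le_of_lt hρ.2 D.win.2.1
  have hsub : Icc ρ t ⊆ Icc (t - 2 * s ^ 2) t := Icc_subset_Icc_left (D.sub hρ').1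
  have k1 := h2 (D.st.mono (D.sub hρ').1 hρt le_rfl) hs (by linarith [(D.sub hρ').1]) hδ
    (by linarith [D.δ1]) (Λ := 4 * F ^ 2 / θ) (by positivity) hur fun r hr =>
      ⟨(D.reg r (hsub hr) x0 hx).2.1, (D.reg r (hsub hr) x0 hx).2.2, hg r (hsub hr)⟩
  have k2 := h1 D g ht0 hθ x0 hχ ρ hρ
  set om := η + δ + Real.exp (-(l / (4 * √θ))) with hom
  have hom0 : δ ≤ om := by have := Real.exp_pos (-(l / (4 * √θ))); linarith
  refine ⟨k1.trans ?_, (hg t D.tm).trans ?_⟩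
  · have k3 : δ * (4 * F ^ 2 / θ + 1) ≤ (4 * F ^ 2 + 1) * om / θ ^ 2 := by
      rw [le_div_iff₀ (by positivity)]
      have e : δ * (4 * F ^ 2 / θ + 1) * θ ^ 2 = δ * (4 * F ^ 2 * θ + θ ^ 2) := by field_simp
      rw [e, mul_comm]
      have θ1 := D.θ1
      exact mul_le_mul (by nlinarith [sq_nonneg F]) hom0 hδ (by positivity)
    calc _ ≤ C' * (F1 * om / θ ^ 2 + (4 * F ^ 2 + 1) * om / θ ^ 2) := by gcongr
      _ = _ := by ring
  · have k4 : 4 * F ^ 2 ≤ C' * (F1 + 4 * F ^ 2 + 1) := by nlinarith [sq_nonneg F]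
    exact mul_le_mul_of_nonneg_right (div_le_div_of_nonneg_right k4 θ0'.le) (by positivity)

end Crest.Agent.N207.Ge

end
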