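import Crest.Agent.N207.G.Hes

/-!
# Row 207, block G, entropy half (helper23): the statements of the remaining leaves
-/

set_option autoImplicit false
set_option linter.dupNamespace false
open Set MeasureTheory Filter
open scoped ContDiff Topology

noncomputable section

namespace Crest.Agent.N207

namespace HC

variable {M : Type*} [TopologicalSpace M] [MeasurableSpace M] (H : HC M)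

/-- `4 τ f` along `v` -/
def Fv (t τ0 : ℝ) (v : ℝ → M → ℝ) (σ : ℝ) (x : M) : ℝ :=
  4 * (τ0 + t - σ) * pot (τ0 + t - σ) (v σ) x

/-- the drop of `W` at scale `s` -/
def drop (t τ0 : ℝ) (v : ℝ → M → ℝ) (s : ℝ) : ℝ :=
  H.Wv t τ0 v (t - s ^ 2) - H.Wv t τ0 v (t - 2 * s ^ 2)

/-- smoothness is local -/
def Loc0 : Prop := ∀ u : M → ℝ, (∀ x, ∃ w, H.S0 w ∧ u =ᶠ[𝓝 x] w) → H.S0 u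

/-- annular cutoffs (`r1`, `r2` may be negative) -/
def GCut : Prop :=
  ∃ K : ℝ, 1 ≤ K ∧ ∀ t ∈ Ioo 0 H.T, ∀ (z : M) (r1 r2 r3 r4 : ℝ), r1 < r2 → r2 ≤ r3 → r3 < r4 →
    ∃ χ, H.S0 χ ∧ (∀ x, 0 ≤ χ x ∧ χ x ≤ 1) ∧ (∀ x ∈ H.An t z r2 r3, χ =ᶠ[𝓝 x] fun _ => 1) ∧
      (∀ x, H.d t z x ≤ r1 ∨ r4 ≤ H.d t z x → χ =ᶠ[𝓝 x] fun _ => 0) ∧
      ∀ x, (H.d t z x ≤ r3 → H.gam t χ χ x ≤ K / (r2 - r1) ^ 2) ∧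
        (r2 ≤ H.d t z x → H.gam t χ χ x ≤ K / (r4 - r3) ^ 2)

/-- two-sided bound for the potential -/
def GPot : Prop :=
  ∀ t0 > 0, ∃ F0, 0 ≤ F0 ∧ ∀ A ≥ (1 : ℝ), ∃ F, 0 ≤ F ∧
    ∀ {a t ε τ0 s : ℝ} {z : M} {v : ℝ → M → ℝ}, t0 ≤ a → H.CS a t z ε τ0 v → 0 < s → s ≤ 1 / 2 →
      ε ≤ s ^ 2 → ∀ σ ∈ Icc (t - 2 * s ^ 2) (t - s ^ 2), a ≤ σ → ∀ x,
        -(F0 * s ^ 2) ≤ Fv t τ0 v σ x ∧ (H.d t z x ≤ A * s → Fv t τ0 v σ x ≤ F * s ^ 2)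

/-- (b) smoothing of the potential -/
def GSmooth : Prop :=
  ∀ t0 > 0, ∀ A ≥ (1 : ℝ), ∀ l > (0 : ℝ), ∀ B ≥ (0 : ℝ), ∀ K ≥ (0 : ℝ), ∀ δ > (0 : ℝ),
    ∃ η δ1 : ℝ, 0 < η ∧ 0 < δ1 ∧ δ1 ≤ 1 / 4 ∧
    ∀ {a t ε τ0 s r : ℝ} {z x0 : M} {v : ℝ → M → ℝ} {χ : M → ℝ}, t0 ≤ a → H.CS a t z ε τ0 v →
      0 < s → s ≤ 1 / 2 → a ≤ t - 2 * s ^ 2 → ε ≤ s ^ 2 → H.S0 χ → (∀ x, 0 ≤ χ x ∧ χ x ≤ 1) →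
      (∀ x, χ x ≠ 0 → H.d t z x ≤ A * s) → (∀ x, H.gam t χ χ x ≤ K / s ^ 2) →
      H.Reg t s B δ1 {x | χ x ≠ 0} → H.drop t τ0 v s ≤ η →
      (∀ y, H.d t x0 y < r + l * s → χ y = 1) →
      ∃ σ ∈ Icc (t - 2 * s ^ 2) (t - s ^ 2), ∃ t' ∈ Icc (t - 2 * s ^ 2) t, ∃ ρ g : M → ℝ,
        H.S0 ρ ∧ H.S0 g ∧ (∀ x, χ x = 1 → Fv t τ0 v σ x = ρ x + g x) ∧
        ∫ x, g x ^ 2 ∂H.vol σ ≤ δ * s ^ 8 ∧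
        (∀ x, (∀ y, H.d t x y < l * s → χ y = 1) →
          H.Pc 2 t ρ x ≤ δ ∧ H.gam t ρ ρ x * H.Pc 2 t ρ x ≤ δ * s ^ 2) ∧
        ∫ x in H.B t x0 r, H.N 0 t' x * H.gam t' ρ ρ x ∂H.vol t' ≤ δ * s ^ 2

/-- (c1) oscillation on an annulus -/
def GOsc : Prop :=
  ∀ t0 > 0, ∃ θ Λ β : ℝ, 0 < θ ∧ θ ≤ 1 / 4 ∧ 1 ≤ Λ ∧ 0 < β ∧
    ∀ {a t ε τ0 s A B γ : ℝ} {z : M} {v : ℝ → M → ℝ} {h : M → ℝ}, t0 ≤ a → H.CS a t z ε τ0 v →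
      0 < s → s ≤ β → ε ≤ β * s → a ≤ t - 2 * s ^ 2 → Λ ≤ A →
      H.Reg t s B (1 / 4) (H.An t z (θ * s) (Λ * s)) → H.S0 h → 0 < γ →
      (∀ x ∈ H.An t z (θ * s) (2 * A * s), H.gam t h h x ≤ γ ^ 2) →
      ∃ m, ∀ x ∈ H.An t z s (A * s), |h x - m| ≤ (A + Λ) * γ * s

/-- (c2) one end -/
def GOne : Prop :=
  ∀ t0 > 0, ∃ θ Λ β : ℝ, 0 < θ ∧ θ ≤ 1 / 4 ∧ 1 ≤ Λ ∧ 0 < β ∧
    ∀ {a t ε τ0 s A B : ℝ} {z : M} {v : ℝ → M → ℝ}, t0 ≤ a → H.CS a t z ε τ0 v →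
      0 < s → s ≤ β → ε ≤ β * s → a ≤ t - 2 * s ^ 2 → Λ ≤ A →
      H.Reg t s B (1 / 4) (H.An t z (θ * s) (Λ * s)) →
      ∃ C : Set M, IsPreconnected C ∧ H.An t z s (A * s) ⊆ C ∧ C ⊆ H.An t z (θ * s) (2 * A * s)

/-- the cone function on the annulus `θ s ≤ d ≤ A s` -/
structure PC (t : ℝ) (z : M) (τ0 : ℝ) (v : ℝ → M → ℝ) (s θ A δ σ μ : ℝ) (b g : M → ℝ) : Prop where
  σ1 : σ ∈ Icc (t - 2 * s ^ 2) (t - s ^ 2)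
  sb : H.S0 b
  sg : H.S0 g
  eq : ∀ x ∈ H.An t z (θ * s) (A * s), Fv t τ0 v σ x = b x - μ + g x
  l2 : ∫ x, g x ^ 2 ∂H.vol σ ≤ δ * s ^ 8
  hess : ∀ x ∈ H.An t z (θ * s) (A * s), H.Pc 2 t b x ≤ δ
  gam : ∀ x ∈ H.An t z (θ * s) (A * s), |H.gam t b b x - 4 * b x| ≤ δ * s ^ 2

/-- (d) the cone function is the square of the distance; `C` depends on `κ` only -/
def GSand : Prop :=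
  ∀ t0 > 0, ∀ κ > (0 : ℝ), ∃ C : ℝ, 1 ≤ C ∧ ∀ θ : ℝ, 0 < θ → θ ≤ 1 / 2 → ∃ β : ℝ, 0 < β ∧
    ∀ {a t ε τ0 s A σ μ : ℝ} {z : M} {v : ℝ → M → ℝ} {b g : M → ℝ}, t0 ≤ a → H.CS a t z ε τ0 v →
      0 < s → s ≤ β → ε ≤ β * s ^ 2 → a ≤ t - 2 * s ^ 2 → 16 ≤ A →
      H.PC t z τ0 v s θ A β σ μ b g → |μ| ≤ C * s ^ 2 ∧
        ∀ x ∈ H.An t z (2 * θ * s) (A / 2 * s),
          |√(b x + 2 * s ^ 2) - H.d t z x| ≤ C * s + κ * H.d t z x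

/-- (b)-(d) together: a good scale. `p` is the case of a regular ball. -/
def GGood : Prop :=
  ∀ t0 > 0, ∀ κ > (0 : ℝ), ∃ C : ℝ, 1 ≤ C ∧ ∀ θ A B δ : ℝ, 0 < θ → θ ≤ 1 → 1 ≤ A → 0 ≤ B → 0 < δ →
    ∃ β : ℝ, 0 < β ∧ β ≤ 1 / 4 ∧ ∀ {a t ε τ0 s : ℝ} {z : M} {v : ℝ → M → ℝ} (p : Prop), t0 ≤ a →
      H.CS a t z ε τ0 v → 0 < s → s ≤ β → ε ≤ β * s ^ 2 → a ≤ t - 2 * s ^ 2 →
      H.Reg t s B β {x | (p ∨ θ / C * s ≤ H.d t z x) ∧ H.d t z x ≤ C * A * s} →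
      H.drop t τ0 v s ≤ β → ∃ (σ μ : ℝ) (b g : M → ℝ), H.PC t z τ0 v s θ A δ σ μ b g ∧
        |μ| ≤ C * s ^ 2 ∧ (∀ x ∈ H.An t z (θ * s) (A * s),
          |√(b x + 2 * s ^ 2) - H.d t z x| ≤ C * s + κ * H.d t z x) ∧
        (p → ∃ t' ∈ Icc (t - 2 * s ^ 2) t,
          ∫ x in H.B t z (A * s), H.N 0 t' x * H.gam t' b b x ∂H.vol t' ≤ δ * s ^ 2)

/-- few scales `c 2ʲ` have a large drop of `W` -/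
def GBad : Prop :=
  ∀ t0 > 0, ∀ η > (0 : ℝ), ∃ n0 : ℕ, ∀ t ∈ Ioo t0 H.T, ∀ (z : M) (c : ℝ) (e : ℤ → ℝ), 0 < c →
    (∀ j, 0 < e j) → ∃ Bad : Finset ℤ, Bad.card ≤ n0 ∧ ∀ j ∉ Bad,
      t0 ≤ t - 2 * (c * 2 ^ j) ^ 2 → ∃ (ε τ0 : ℝ) (v : ℝ → M → ℝ), ε ≤ e j ∧
        H.CS t0 t z ε τ0 v ∧ H.drop t τ0 v (c * 2 ^ j) ≤ η

/-- few dyadic annuli carry energy -/
def GBadE : Prop :=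
  ∀ t0 > 0, ∀ ε0 > (0 : ℝ), ∀ Λ ≥ (1 : ℝ), ∃ n0 : ℕ, ∀ t ∈ Ico t0 H.T, ∀ z : M,
    ∃ Bad : Finset ℤ, Bad.card ≤ n0 ∧ ∀ j ∉ Bad, ∀ (x : M) (r : ℝ),
      H.B t x r ⊆ H.An t z (2 ^ j / Λ) (Λ * 2 ^ j) → H.en t x r ≤ ε0

/-- small energy at scale `l s` gives a regular window at scale `s` -/
def GRegE : Prop :=
  ∀ t0 > 0, ∃ ε0 B0 : ℝ, 0 < ε0 ∧ 0 ≤ B0 ∧ ∀ l δ : ℝ, 0 < l → 0 < δ → ∃ β : ℝ, 0 < β ∧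
    ∀ t ∈ Ico t0 H.T, ∀ (s : ℝ) (Ω : Set M), 0 < s → s ≤ β →
      (∀ x ∈ Ω, H.en t x (l * s) ≤ ε0) → H.Reg t s (B0 / l ^ 2) δ Ω

end HC

end Crest.Agent.N207

end
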