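import Crest.Agent.N207.G.EnP
import Crest.Agent.N207.G.EnSt
import Crest.Agent.N207.G.EnA2
import Crest.Agent.N207.E.Reg2

/-!
# Row 207, block G, entropy half (helper23): the potential and the data of the smoothing step
-/

set_option autoImplicit false
set_option linter.dupNamespace false
set_option linter.unusedSectionVars false
open Set MeasureTheory Filter Topology
open scoped ContDiff

noncomputable section

namespace Crest.Agent.N207.Ge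

open HC

variable {M : Type*} [TopologicalSpace M] [CompactSpace M] [MeasurableSpace M]
  [OpensMeasurableSpace M] {H : HC M}

theorem pot_eq {τ : ℝ} (hτ : 0 < τ) {u : M → ℝ} {x : M} (hu : 0 < u x) :
    pot τ u x = -Real.log (u x * (4 * Real.pi * τ) ^ 2) := by
  have : 0 < 4 * Real.pi * τ := by positivity
  rw [pot, Real.log_mul hu.ne' (by positivity), Real.log_pow]; push_cast; ring

section CS
variable {a t ε τ0 s σ : ℝ} {z : M} {v : ℝ → M → ℝ}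

theorem cs_pos (h : H.Ok) (c : H.CS a t z ε τ0 v) : ∀ r ∈ Icc a t, ∀ x, 0 < v r x :=
  h.alg.conj_pos h.evo c.st c.conj c.pos

theorem cs_mass (h : H.Ok) (c : H.CS a t z ε τ0 v) {r : ℝ} (hr : r ∈ Icc a t) :
    ∫ x, v r x ∂H.vol r = 1 := by
  rw [h.alg.conj_mass h.int c.st c.conj hr (right_mem_Icc.2 c.st.2.1.le), c.mass]

theorem cs_s0 (h : H.Ok) (c : H.CS a t z ε τ0 v) {r : ℝ} (hr : r ∈ Icc a t) : H.S0 (v r) :=
  h.alg.sm_s0 c.conj.1 r hr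

theorem cs_tau (c : H.CS a t z ε τ0 v) (hε : ε ≤ s ^ 2)
    (hσ : σ ∈ Icc (t - 2 * s ^ 2) (t - s ^ 2)) : s ^ 2 ≤ τ0 + t - σ ∧ τ0 + t - σ ≤ 3 * s ^ 2 := by
  constructor <;> linarith [c.t0, c.t1, hσ.1, hσ.2]

theorem s0_Fv (h : H.Ok) (c : H.CS a t z ε τ0 v) {r : ℝ} (hr : r ∈ Icc a t) :
    H.S0 (Fv t τ0 v r) :=
  h.alg.s0_cmul _ (h.alg.s0_pot (cs_s0 h c hr) (cs_pos h c r hr) _)

end CS

/-- upper bound at scale `s` -/
theorem cs_up (C : H.COut) {t0 : ℝ} (h0 : 0 < t0) : ∃ Cu, 0 < Cu ∧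
    ∀ {a t ε τ0 s : ℝ} {z : M} {v : ℝ → M → ℝ}, t0 ≤ a → H.CS a t z ε τ0 v → 0 < s →
      ∀ σ, σ ≤ t - s ^ 2 → a ≤ σ → ∀ x, v σ x ≤ Cu / s ^ 4 := by
  obtain ⟨Cu, hC, hk⟩ := C.kerC t0 h0
  refine ⟨Cu, hC, fun {a t ε τ0 s z v} ha c hs σ h1 h2 x => ?_⟩
  have s2 : 0 < s ^ 2 := by positivity
  have k := hk ha c.st c.conj (fun x => (c.pos x).le) σ ⟨h2, by linarith⟩ x
  rw [c.mass, mul_one] at k
  refine k.trans ?_
  rw [show s ^ 4 = (s ^ 2) ^ 2 by ring]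
  gcongr
  linarith

/-- lower bound at scale `s` -/
theorem cs_lo (h : H.Ok) (C : H.COut) {t0 A : ℝ} (h0 : 0 < t0) (hA : 1 ≤ A) : ∃ c, 0 < c ∧
    ∀ {a t ε τ0 s : ℝ} {z : M} {v : ℝ → M → ℝ}, t0 ≤ a → H.CS a t z ε τ0 v → 0 < s → s ≤ 1 / 2 →
      ε ≤ s ^ 2 → ∀ σ ∈ Icc (t - 2 * s ^ 2) (t - s ^ 2), a ≤ σ → ∀ x, H.d t z x ≤ A * s →
        c / s ^ 4 ≤ v σ x := by
  obtain ⟨c, hc, hk⟩ := gLow h C t0 h0 A hA
  refine ⟨c / 4, by positivity, fun {a t ε τ0 s z v} ha cs hs s1 hε σ hσ h2 x hx => ?_⟩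
  have s2 : 0 < s ^ 2 := by positivity
  have h3 : s ≤ √(t - σ) := Real.le_sqrt_of_sq_le (by linarith [hσ.2])
  have k := hk ha cs σ ⟨h2, by linarith [hσ.2]⟩ (by nlinarith [hσ.1]) (by nlinarith)
    (by nlinarith) x (hx.trans (by gcongr))
  refine le_trans ?_ k
  rw [div_div, show 4 * s ^ 4 = (2 * s ^ 2) ^ 2 by ring]
  have : 0 < t - σ := by linarith [hσ.2]
  gcongr
  linarith [hσ.1]

theorem gPot (h : H.Ok) (C : H.COut) : H.GPot := fun t0 h0 => by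
  obtain ⟨Cu, hCu, hu⟩ := cs_up C h0
  refine ⟨12 * |Real.log (Cu * (12 * Real.pi) ^ 2)|, by positivity, fun A hA => ?_⟩
  obtain ⟨c, hc, hl⟩ := cs_lo h C h0 hA
  refine ⟨12 * |Real.log (c * (4 * Real.pi) ^ 2)|, by positivity,
    fun {a t ε τ0 s z v} ha cs hs s1 hε σ hσ h2 x => ?_⟩
  have s2 : 0 < s ^ 2 := by positivity
  obtain ⟨τ1, τ2⟩ := cs_tau cs hε hσ
  have hv := cs_pos h cs σ ⟨h2, by linarith [hσ.2]⟩ x
  have hπ := Real.pi_pos
  unfold Fv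
  set τ := τ0 + t - σ
  have hτ : 0 < τ := by linarith
  rw [pot_eq hτ hv]
  constructor
  · have k : v σ x * (4 * Real.pi * τ) ^ 2 ≤ Cu * (12 * Real.pi) ^ 2 :=
      calc _ ≤ Cu / s ^ 4 * (4 * Real.pi * (3 * s ^ 2)) ^ 2 := by
            gcongr; exact hu ha cs hs σ hσ.2 h2 x
        _ = _ := by field_simp; ring
    have k2 := (Real.log_le_log (by positivity) k).trans (le_abs_self _)
    have k3 := abs_nonneg (Real.log (Cu * (12 * Real.pi) ^ 2))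
    nlinarith
  · intro hx
    have k : c * (4 * Real.pi) ^ 2 ≤ v σ x * (4 * Real.pi * τ) ^ 2 :=
      calc _ = c / s ^ 4 * (4 * Real.pi * s ^ 2) ^ 2 := by field_simp
        _ ≤ _ := by gcongr; exact hl ha cs hs s1 hε σ hσ h2 x hx
    have k2 := (neg_abs_le _).trans (Real.log_le_log (by positivity) k)
    have k3 := abs_nonneg (Real.log (c * (4 * Real.pi) ^ 2))
    nlinarith

/-- integrals of nonnegative functions at two times -/
theorem int_time (A : H.Alg) (I : H.Intg) {K : ℝ} (K0 : 0 ≤ K)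
    (hK : ∀ t ∈ Ioo 0 H.T, ∀ x, |H.R t x| ≤ K) {s t : ℝ} (hs : s ∈ Ioo 0 H.T) (ht : t ∈ Ioo 0 H.T)
    (hst : |t - s| ≤ 1) {u : M → ℝ} (hu : H.S0 u) (h0 : ∀ x, 0 ≤ u x) :
    ∫ x, u x ∂H.vol t ≤ Real.exp K * ∫ x, u x ∂H.vol s := by
  have k := integral_mono_measure (I.vol_le hK s hs t ht) (Eventually.of_forall h0)
    ((A.integrable I hs hu).smul_measure ENNReal.ofReal_ne_top)
  rw [integral_smul_measure, ENNReal.toReal_ofReal (Real.exp_pos _).le, smul_eq_mul] at k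
  refine k.trans (mul_le_mul_of_nonneg_right (Real.exp_le_exp.2 ?_) (int_nonneg' h0))
  nlinarith

/-- the Dirichlet energy of the potential -/
theorem cs_dir (h : H.Ok) {K L : ℝ} (hK : ∀ t ∈ Ioo 0 H.T, ∀ x, |H.R t x| ≤ K)
    {a t ε τ0 σ : ℝ} {z : M} {v : ℝ → M → ℝ} (c : H.CS a t z ε τ0 v) (hσ : σ ∈ Icc a t)
    (hL : ∀ x, -L ≤ pot (τ0 + t - σ) (v σ) x) :
    (τ0 + t - σ) * ∫ x, H.gam σ (pot (τ0 + t - σ) (v σ)) (pot (τ0 + t - σ) (v σ)) x * v σ x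
      ∂H.vol σ ≤ ε + ((τ0 + t - σ) * K + L + 4) := by
  have A := h.alg
  have I := h.int
  have hp := cs_pos h c
  have hτ : 0 < τ0 + t - σ := by linarith [c.t0, hσ.2]
  have hW : H.W σ (τ0 + t - σ) (v σ) ≤ ε := by
    have := A.W_mono I h.evo c.st c.conj hp c.t0 hσ (right_mem_Icc.2 c.st.2.1.le) hσ.2
    simp only [add_sub_cancel_right] at this
    exact this.trans c.hW
  set τ := τ0 + t - σ
  have ht := c.st.mem hσ
  have sv := cs_s0 h c hσ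
  have sf := A.s0_pot sv (hp σ hσ) τ
  have s1 := A.s0_cmul τ (A.s0_mul (A.s0_gam ht sf sf) sv)
  have s2 := A.s0_cmul (τ * K + L + 4) sv
  have s3 := A.s0_mul (A.s0_sub (A.s0_add (A.s0_cmul τ (A.s0_add (A.s0_gam ht sf sf)
    (A.s0_R ht))) sf) (A.s0_const 4)) sv
  have k := int_mono A I ht s1 (A.s0_add s3 s2) fun x => by
    have h1 := (abs_le.1 (hK σ ht x)).1
    have h2 := hL x
    have h3 := hp σ hσ x
    have h4 : 0 ≤ (τ * (H.R σ x + K) + (pot τ (v σ) x + L)) * v σ x :=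
      mul_nonneg (add_nonneg (mul_nonneg hτ.le (by linarith)) (by linarith)) h3.le
    nlinarith
  rw [int_add A I ht s3 s2, integral_const_mul, integral_const_mul, cs_mass h c hσ] at k
  unfold W at hW
  simp_rw [← A.gam_pot2 (τ := τ) ht sv (hp σ hσ)] at hW
  linarith

/-- a time with small soliton defect -/
theorem cs_mvt (h : H.Ok) {a t ε τ0 s η : ℝ} {z : M} {v : ℝ → M → ℝ} (c : H.CS a t z ε τ0 v)
    (hs : 0 < s) (ha : a ≤ t - 2 * s ^ 2) (hd : H.drop t τ0 v s ≤ η) :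
    ∃ σ ∈ Icc (t - 2 * s ^ 2) (t - s ^ 2), 2 * s ^ 4 *
      ∫ x, H.sol σ (τ0 + t - σ) (pot (τ0 + t - σ) (v σ)) x * v σ x ∂H.vol σ ≤ η := by
  have s2 : 0 < s ^ 2 := by positivity
  have hD := h.alg.W_dt h.int h.evo c.st c.conj (cs_pos h c) c.t0
  have sub : Icc (t - 2 * s ^ 2) (t - s ^ 2) ⊆ Icc a t := Icc_subset_Icc ha (by linarith)
  obtain ⟨σ, hσ, e⟩ := exists_hasDerivAt_eq_slope (H.Wv t τ0 v) (fun σ => 2 * (τ0 + t - σ) *
      ∫ x, H.sol σ (τ0 + t - σ) (pot (τ0 + t - σ) (v σ)) x * v σ x ∂H.vol σ)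
    (show t - 2 * s ^ 2 < t - s ^ 2 by linarith)
    (fun σ hσ => (hD σ (sub hσ)).continuousWithinAt.mono sub)
    (fun σ hσ => (hD σ (sub (Ioo_subset_Icc_self hσ))).hasDerivAt
      (Icc_mem_nhds (by linarith [hσ.1]) (by linarith [hσ.2])))
  refine ⟨σ, Ioo_subset_Icc_self hσ, ?_⟩
  have hm := sub (Ioo_subset_Icc_self hσ)
  have hτ : s ^ 2 ≤ τ0 + t - σ := by linarith [c.t0, hσ.2]
  have h0 : 0 ≤ ∫ x, H.sol σ (τ0 + t - σ) (pot (τ0 + t - σ) (v σ)) x * v σ x ∂H.vol σ :=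
    int_nonneg' fun x => mul_nonneg (h.evo.sol_nonneg σ (c.st.mem hm) _ (by linarith)
      (h.alg.s0_pot (cs_s0 h c hm) (cs_pos h c σ hm) _) x) (cs_pos h c σ hm x).le
  rw [show t - s ^ 2 - (t - 2 * s ^ 2) = s ^ 2 by ring, eq_div_iff s2.ne'] at e
  unfold drop at hd
  have := mul_le_mul_of_nonneg_right hτ (mul_nonneg h0 s2.le)
  nlinarith

/-- volume of the region at the times of the window -/
theorem win_vol (h : H.Ok) (C : H.COut) {t0 A : ℝ} (h0 : 0 < t0) (hA : 1 ≤ A) : ∃ V, 0 ≤ V ∧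
    ∀ {t s : ℝ} {z : M}, 0 < s → s ≤ 1 / 2 → t0 ≤ t - 2 * s ^ 2 → t < H.T →
      ∀ r ∈ Icc (t - 2 * s ^ 2) t, ∀ {g : M → ℝ} {m : ℝ}, 0 ≤ m → (∀ x, 0 ≤ g x) →
        (∀ x, g x ≤ m) → (∀ x, g x ≠ 0 → H.d t z x ≤ A * s) →
        ∫ x, g x ∂H.vol r ≤ m * (V * s ^ 4) := by
  obtain ⟨K, hK⟩ := h.evo.R_bd
  obtain ⟨Cv, hCv, hV⟩ := C.up t0 h0
  refine ⟨Real.exp |K| * (Cv * (2 * A) ^ 4), by positivity,
    fun {t s z} hs s1 ht0 hT r hr g m hm g0 g1 g2 => ?_⟩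
  have s2 : 0 < s ^ 2 := by positivity
  have ht : t ∈ Ioo 0 H.T := ⟨by linarith, hT⟩
  have hr' : r ∈ Ioo 0 H.T := ⟨by linarith [hr.1], by linarith [hr.2]⟩
  have := h.int.fin r hr'
  have k := N207.E.int_le_vol (μ := H.vol r) (isOpen_B h.dist ht z (2 * A * s)).measurableSet g0
    (fun x _ => g1 x) fun x hx => by
      by_contra hg
      have := g2 x hg
      exact hx (show H.d t z x < 2 * A * s by nlinarith)
  refine k.trans (mul_le_mul_of_nonneg_left ?_ hm)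
  have k2 := N207.E.vol_cmp h.int (abs_nonneg K) (fun t ht x => (hK t ht x).trans (le_abs_self K))
    hr' ht (abs_le.2 ⟨by nlinarith [hr.1], by linarith [hr.2]⟩) (H.B t z (2 * A * s))
  have k3 := hV t ⟨by linarith, hT⟩ z (2 * A * s) (by positivity)
  calc _ ≤ Real.exp |K| * (Cv * (2 * A * s) ^ 4) := k2.trans (by gcongr)
    _ = _ := by ring

theorem gam_mul_le (A : H.Alg) {t : ℝ} (ht : t ∈ Ioo 0 H.T) {u w : M → ℝ} (hu : H.S0 u)
    (hw : H.S0 w) (x : M) : H.gam t (fun y => u y * w y) (fun y => u y * w y) x ≤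
      2 * u x ^ 2 * H.gam t w w x + 2 * w x ^ 2 * H.gam t u u x := by
  rw [A.gam_mul t ht hu hw (A.s0_mul hu hw), A.gam_mul' ht hu hw hw, A.gam_mul' ht hu hw hu,
    A.gam_symm t ht hw hu]
  have h1 := A.gam_sq ht hu hw x
  have h2 := A.gam_nonneg t ht hu x
  have h3 := A.gam_nonneg t ht hw x
  have h4 : (u x * w x * H.gam t u w x) ^ 2 ≤
      (u x ^ 2 * H.gam t w w x) * (w x ^ 2 * H.gam t u u x) := by
    have := mul_le_mul_of_nonneg_left h1 (sq_nonneg (u x * w x))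
    nlinarith
  have h5 : 2 * (u x * w x * H.gam t u w x) ≤
      u x ^ 2 * H.gam t w w x + w x ^ 2 * H.gam t u u x := by
    have p1 : 0 ≤ u x ^ 2 * H.gam t w w x := by positivity
    have p2 : 0 ≤ w x ^ 2 * H.gam t u u x := by positivity
    nlinarith [sq_nonneg (u x ^ 2 * H.gam t w w x - w x ^ 2 * H.gam t u u x),
      abs_le_of_sq_le_sq' (show (2 * (u x * w x * H.gam t u w x)) ^ 2 ≤
        (u x ^ 2 * H.gam t w w x + w x ^ 2 * H.gam t u u x) ^ 2 by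
          nlinarith [sq_nonneg (u x ^ 2 * H.gam t w w x - w x ^ 2 * H.gam t u u x)])
        (add_nonneg p1 p2)]
  nlinarith

end Crest.Agent.N207.Ge

end
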