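import Crest.Agent.N207.G.EnS

/-!
# Row 207, block G, entropy half (helper23): the smoothing step
-/

set_option autoImplicit false
set_option linter.dupNamespace false
set_option linter.unusedSectionVars false
open Set MeasureTheory Filter Topology
open scoped ContDiff

noncomputable section

namespace Crest.Agent.N207.Ge

open HC

variable {M : Type*} [TopologicalSpace M] [CompactSpace M] [MeasurableSpace M]
  [OpensMeasurableSpace M] {H : HC M}

theorem ph1 {χ τ g v c s : ℝ} (χ0 : 0 ≤ χ) (χ1 : χ ≤ 1) (g0 : 0 ≤ g) (hc : 0 < c) (hs : 0 < s)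
    (v0 : 0 ≤ v) (hv : χ ≠ 0 → c / s ^ 4 ≤ v) : χ ^ 2 * (τ * g) ≤ |τ| * s ^ 4 / c * (g * v) := by
  by_cases h : χ = 0
  · rw [h]; simp only [ne_eq, OfNat.ofNat_ne_zero, not_false_eq_true, zero_pow, zero_mul]
    positivity
  · have h1 : χ ^ 2 ≤ 1 := by nlinarith
    have h2 : 1 ≤ s ^ 4 / c * v := by
      have := hv h
      rw [div_le_iff₀ (by positivity)] at this
      rw [div_mul_eq_mul_div, le_div_iff₀ hc]; linarith
    calc χ ^ 2 * (τ * g) ≤ 1 * (|τ| * g) := by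
          refine (mul_le_mul_of_nonneg_left (mul_le_mul_of_nonneg_right (le_abs_self τ) g0)
            (sq_nonneg χ)).trans (mul_le_mul_of_nonneg_right h1 (by positivity))
      _ ≤ s ^ 4 / c * v * (|τ| * g) := by gcongr
      _ = _ := by ring

set_option maxHeartbeats 1000000 in
/-- the data of the smoothing step -/
theorem ghd (h : H.Ok) (C : H.COut) {t0 A K : ℝ} (h0 : 0 < t0) (hA : 1 ≤ A) (hK : 0 ≤ K) :
    ∃ F, 1 ≤ F ∧ ∀ {a t ε τ0 s B δ η : ℝ} {z : M} {v : ℝ → M → ℝ} {χ : M → ℝ}, t0 ≤ a →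
      H.CS a t z ε τ0 v → 0 < s → s ≤ 1 / 2 → a ≤ t - 2 * s ^ 2 → ε ≤ s ^ 2 → H.S0 χ →
      (∀ x, 0 ≤ χ x ∧ χ x ≤ 1) → (∀ x, χ x ≠ 0 → H.d t z x ≤ A * s) →
      (∀ x, H.gam t χ χ x ≤ K / s ^ 2) → 0 ≤ δ → δ ≤ 1 / 4 → 0 ≤ η →
      H.Reg t s B δ {x | χ x ≠ 0} → H.drop t τ0 v s ≤ η → ∃ σ, ∀ θ, 0 < θ → θ ≤ 1 / 2 →
        ∃ u, HD H t s σ θ F B δ (F * (η + δ)) χ u ∧ u σ = fun x => χ x * Fv t τ0 v σ x := by
  have Al := h.alg
  have I := h.int
  have E := h.evo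
  obtain ⟨F0, hF0, hp⟩ := gPot h C t0 h0
  obtain ⟨F1, hF1, hp⟩ := hp A hA
  obtain ⟨c, hc, hl⟩ := cs_lo h C h0 hA
  obtain ⟨V, hV, hvol⟩ := win_vol h C h0 hA
  obtain ⟨R, hR⟩ := E.R_bd
  have hR' : ∀ t ∈ Ioo 0 H.T, ∀ x, |H.R t x| ≤ |R| := fun t ht x => (hR t ht x).trans (le_abs_self R)
  have R0 := abs_nonneg R
  set F2 := F0 + F1
  set F3 := 96 / c * (1 + (|R| + F0 + 4)) + 8 * F2 ^ 2 * K * V
  have hF2 : 0 ≤ F2 := by positivity
  have hF3 : 0 ≤ F3 := by positivity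
  have hc1 : 0 ≤ 144 / c := by positivity
  refine ⟨1 + F2 + F3 + 288 * V + 144 / c, by linarith, ?_⟩
  set F := 1 + F2 + F3 + 288 * V + 144 / c
  intro a t ε τ0 s B δ η z v χ ha cs hs s1 hw hε sχ χ01 χA χK δ0 δ1 η0 reg hd
  obtain ⟨σ, hσ, hsol⟩ := cs_mvt h cs hs hw hd
  refine ⟨σ, fun θ θ0 θ1 => ?_⟩
  have s2 : 0 < s ^ 2 := by positivity
  have s4 : s ^ 2 ≤ 1 / 4 := by nlinarith
  have hθs : 0 < θ * s ^ 2 := by positivity
  have hθs' : θ * s ^ 2 ≤ 1 / 2 * s ^ 2 := by gcongr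
  have st : H.St (t - 2 * s ^ 2) t := cs.st.mono hw (by linarith) le_rfl
  have aσ : a ≤ σ := hw.trans hσ.1
  have hm : σ ∈ Icc a t := ⟨aσ, by linarith [hσ.2]⟩
  have hm' : σ ∈ Icc (t - 2 * s ^ 2) t := ⟨hσ.1, hm.2⟩
  have ht := cs.st.mem hm
  have st' : H.St σ (σ + θ * s ^ 2) := st.mono hσ.1 (by linarith) (by linarith [hσ.2])
  have sF := s0_Fv h cs hm
  have sv := cs_s0 h cs hm
  have pv := cs_pos h cs σ hm
  obtain ⟨τ1, τ2⟩ := cs_tau cs hε hσ
  obtain ⟨u, hu, u0⟩ := h.solv.heat st' (Al.s0_mul sχ sF)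
  have hF := hp ha cs hs s1 hε σ hσ aσ
  have hlo := hl ha cs hs s1 hε σ hσ aσ
  have hvl := fun r hr => @hvol t s z hs s1 (ha.trans hw) cs.st.2.2 r hr
  have bF : ∀ x, χ x ≠ 0 → |Fv t τ0 v σ x| ≤ F2 * s ^ 2 := fun x hx =>
    abs_le.2 ⟨by nlinarith [(hF x).1], by nlinarith [(hF x).2 (χA x hx)]⟩
  have hdir := cs_dir h (L := F0) hR' cs hm fun x => by
    have := (hF x).1
    unfold Fv at this
    by_contra hh
    push Not at hh
    nlinarith
  set τ := τ0 + t - σ with hτ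
  have τ0' : 0 < τ := by linarith
  set f := pot τ (v σ) with hf
  have sf : H.S0 f := Al.s0_pot sv pv τ
  have eF : Fv t τ0 v σ = fun y => 4 * τ * f y + 0 := by
    funext y; simp only [Fv, add_zero, hτ, hf]
  refine ⟨u, ⟨st, hs, s1, hσ, θ0, θ1, hu, δ0, δ1, by positivity, reg, sχ, fun x => (χ01 x).1,
    fun x => ?_, ?_, fun r hr => ?_, fun φ sφ φ01 φχ => ?_⟩, u0⟩
  · rw [u0]
    by_cases hx : χ x = 0
    · simp only [hx, zero_mul, abs_zero]; positivity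
    · rw [abs_mul, abs_of_nonneg (χ01 x).1]
      have h1 : F2 * s ^ 2 ≤ F * s ^ 2 := by gcongr; linarith
      nlinarith [(χ01 x).2, bF x hx, abs_nonneg (Fv t τ0 v σ x), (χ01 x).1]
  · rw [u0]
    have s1' := Al.s0_cmul (96 * s ^ 6 / c) (Al.s0_cmul τ (Al.s0_mul (Al.s0_gam ht sf sf) sv))
    have s2' := Al.s0_mul (Al.s0_cmul 2 (Al.s0_pow 2 sF)) (Al.s0_gam ht sχ sχ)
    have k := int_mono Al I ht (Al.s0_gam ht (Al.s0_mul sχ sF) (Al.s0_mul sχ sF))
      (Al.s0_add s1' s2') fun x => by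
        refine (gam_mul_le Al ht sχ sF x).trans (add_le_add ?_ le_rfl)
        rw [eF, gam_aff2 Al ht sf]
        have g0 := Al.gam_nonneg σ ht sf x
        have k1 := ph1 (τ := τ) (χ01 x).1 (χ01 x).2 g0 hc hs (pv x).le fun hx => hlo x (χA x hx)
        rw [abs_of_pos τ0'] at k1
        have k2 : 0 ≤ χ x ^ 2 * (τ * H.gam σ f f x) := by positivity
        calc _ = 32 * τ * (χ x ^ 2 * (τ * H.gam σ f f x)) := by ring
          _ ≤ 32 * (3 * s ^ 2) * (τ * s ^ 4 / c * (H.gam σ f f x * v σ x)) := by gcongr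
          _ = _ := by ring
    rw [int_add Al I ht s1' s2', integral_const_mul, integral_const_mul] at k
    have k2 := hvl σ hm' (g := fun x => 2 * Fv t τ0 v σ x ^ 2 * H.gam σ χ χ x)
      (m := 2 * (F2 * s ^ 2) ^ 2 * (4 * (K / s ^ 2))) (by positivity)
      (fun x => mul_nonneg (by positivity) (Al.gam_nonneg σ ht sχ x)) (fun x => ?_) fun x hx => ?_
    · have k3 : 96 * s ^ 6 / c * (τ * ∫ x, H.gam σ f f x * v σ x ∂H.vol σ) ≤
          96 * s ^ 6 / c * (1 + (|R| + F0 + 4)) := by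
        gcongr
        have : τ * |R| ≤ 1 * |R| := by gcongr; linarith
        linarith
      have e1 : 96 * s ^ 6 / c * (1 + (|R| + F0 + 4)) +
          2 * (F2 * s ^ 2) ^ 2 * (4 * (K / s ^ 2)) * (V * s ^ 4) = F3 * s ^ 6 := by
        simp only [F3]; field_simp; ring
      have k4 : F3 * s ^ 6 ≤ F * s ^ 6 := by gcongr; linarith
      linarith
    · by_cases hx : χ x = 0
      · rw [(Al.at_min ht sχ (x := x) (Eventually.of_forall fun y => hx ▸ (χ01 y).1)).2]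
        simp only [mul_zero]; positivity
      · have k5 := Ge.gam_cmp Al E st sχ (fun ρ hρ => (reg ρ hρ x hx).2.1)
          (by rw [show δ / s ^ 2 * (t - (t - 2 * s ^ 2)) = 2 * δ by field_simp; ring]; linarith)
          hm' (right_mem_Icc.2 st.2.1.le)
        have k6 : Fv t τ0 v σ x ^ 2 ≤ (F2 * s ^ 2) ^ 2 := sq_le_sq' (abs_le.1 (bF x hx)).1
          (abs_le.1 (bF x hx)).2
        have := Al.gam_nonneg σ ht sχ x
        have k7 : H.gam σ χ χ x ≤ 4 * (K / s ^ 2) := by linarith [χK x]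
        gcongr
    · refine χA x fun hx' => hx ?_
      rw [(Al.at_min ht sχ (x := x) (Eventually.of_forall fun y => hx' ▸ (χ01 y).1)).2, mul_zero]
  · have k := hvl r hr (g := χ) (m := 1) zero_le_one (fun x => (χ01 x).1) (fun x => (χ01 x).2) χA
    have : V * s ^ 4 ≤ F * s ^ 4 := by gcongr; linarith
    linarith
  · have φχ' : ∀ x, φ x ≠ 0 → χ x ≠ 0 := fun x hx => by
      rw [(φχ x hx).eq_of_nhds]; exact one_ne_zero
    have ssol : H.S0 (H.sol σ τ f) :=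
      Al.s0_add (Al.s0_sub (Al.s0_add (Al.s0_add (Al.s0_hh ht sf) (Al.s0_cmul 2 (Al.s0_rh ht sf)))
        (Al.s0_Q ht 0)) (Al.s0_div (Al.s0_add (Al.s0_R ht) (Al.s0_lap ht sf)) (Al.s0_const τ)
          fun _ => τ0')) (Al.s0_const _)
    have s1' := Al.s0_cmul (288 * s ^ 8 / c) (Al.s0_mul ssol sv)
    have s2' := Al.s0_mul (Al.s0_pow 2 sφ) (Al.s0_cmul (32 * τ ^ 2) (Al.s0_Q ht 0))
    have su : H.S0 (u σ) := u0 ▸ Al.s0_mul sχ sF
    have k := int_mono Al I ht (Al.s0_mul (Al.s0_pow 2 sφ) (s0_Pc Al ht su 2))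
      (Al.s0_add s1' s2') fun x => by
        have g0 := E.sol_nonneg σ ht τ τ0' sf x
        have k1 := ph1 (τ := 1) (φ01 x).1 (φ01 x).2 g0 hc hs (pv x).le
          fun hx => hlo x (χA x (φχ' x hx))
        have k0 : φ x ^ 2 * H.Pc 2 σ (u σ) x ≤
            φ x ^ 2 * (32 * τ ^ 2 * (H.sol σ τ f x + H.Q 0 σ x)) := by
          by_cases hx : φ x = 0
          · simp [hx]
          · have e : u σ =ᶠ[𝓝 x] fun y => 4 * τ * f y + 0 := by
              rw [u0, ← eF]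
              filter_upwards [φχ x hx] with y hy
              rw [hy, one_mul]
            rw [Pc_local Al E ht su (s0_aff Al sf _ _) 2 e]
            exact mul_le_mul_of_nonneg_left (Pc_le_sol Al E ht τ0' sf x) (sq_nonneg _)
        have k2 : 0 ≤ φ x ^ 2 * (1 * H.sol σ τ f x) := by positivity
        have k3 : 32 * τ ^ 2 * (φ x ^ 2 * (1 * H.sol σ τ f x)) ≤
            32 * (3 * s ^ 2) ^ 2 * (|1| * s ^ 4 / c * (H.sol σ τ f x * v σ x)) := by gcongr
        have e3 : 32 * (3 * s ^ 2) ^ 2 * (|1| * s ^ 4 / c * (H.sol σ τ f x * v σ x)) =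
            288 * s ^ 8 / c * (H.sol σ τ f x * v σ x) := by rw [abs_one]; ring
        nlinarith
    rw [int_add Al I ht s1' s2', integral_const_mul] at k
    have k2 := hvl σ hm' (g := fun x => φ x ^ 2 * (32 * τ ^ 2 * H.Q 0 σ x)) (m := 288 * δ)
      (by positivity) (fun x => mul_nonneg (sq_nonneg _)
        (mul_nonneg (by positivity) (E.Q_nonneg 0 σ ht x))) (fun x => ?_) fun x hx => ?_
    · have k3 : 288 * s ^ 8 / c * ∫ x, H.sol σ τ f x * v σ x ∂H.vol σ ≤ 144 / c * s ^ 4 * η :=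
        calc _ = 144 / c * s ^ 4 * (2 * s ^ 4 * ∫ x, H.sol σ τ f x * v σ x ∂H.vol σ) := by ring
          _ ≤ _ := by gcongr
      have k4 : 144 / c * (η * s ^ 4) ≤ F * (η * s ^ 4) := by gcongr; linarith
      have k5 : 288 * V * (δ * s ^ 4) ≤ F * (δ * s ^ 4) := by gcongr; linarith
      nlinarith
    · by_cases hx : φ x = 0
      · simp only [hx, ne_eq, OfNat.ofNat_ne_zero, not_false_eq_true, zero_pow, zero_mul]
        positivity
      · have q1 := (reg σ hm' x (φχ' x hx)).2.1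
        have q0 := E.Q_nonneg 0 σ ht x
        have q2 : H.Q 0 σ x ≤ (δ / s ^ 2) ^ 2 := by
          rw [← Real.sq_sqrt q0]; gcongr
        have q3 : φ x ^ 2 ≤ 1 := by nlinarith [(φ01 x).1, (φ01 x).2]
        calc _ ≤ 1 * (32 * (3 * s ^ 2) ^ 2 * (δ / s ^ 2) ^ 2) := by gcongr
          _ = 288 * δ * δ := by field_simp; ring
          _ ≤ 288 * δ * 1 := by gcongr; linarith
          _ = _ := mul_one _
    · exact χA x (φχ' x fun hx' => hx (by simp [hx']))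

theorem small_theta {l γ θ0 : ℝ} (hl : 0 < l) (hγ : 0 < γ) (h0 : 0 < θ0) :
    ∃ θ, 0 < θ ∧ θ ≤ θ0 ∧ Real.exp (-(l / (4 * √θ))) ≤ γ * θ ^ 3 := by
  have h1 := (Real.tendsto_pow_mul_exp_neg_atTop_nhds_zero 6).eventually
    (ge_mem_nhds (show 0 < γ * (l / 4) ^ 6 by positivity))
  have q := Real.sqrt_pos.2 h0
  obtain ⟨y, hy, hy2⟩ := (h1.and (eventually_ge_atTop (l / (4 * √θ0)))).exists
  have y0 : 0 < y := lt_of_lt_of_le (by positivity) hy2
  refine ⟨(l / (4 * y)) ^ 2, by positivity, ?_, ?_⟩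
  · rw [← Real.sq_sqrt h0.le]
    gcongr
    rw [div_le_iff₀ (by positivity)] at hy2 ⊢
    linarith
  · rw [Real.sqrt_sq (by positivity), show l / (4 * (l / (4 * y))) = y by field_simp]
    calc _ = y ^ 6 * Real.exp (-y) / y ^ 6 := by field_simp
      _ ≤ γ * (l / 4) ^ 6 / y ^ 6 := by gcongr
      _ = _ := by field_simp

set_option maxHeartbeats 1000000 in
theorem gSmooth (h : H.Ok) (C : H.COut) (He : H.Hes) : H.GSmooth := by
  intro t0 h0 A hA l hl B hB K hK δ hδ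
  have Al := h.alg
  have I := h.int
  have E := h.evo
  obtain ⟨F, hF, hhd⟩ := ghd h C h0 hA hK
  have F0 : 0 ≤ F := by linarith
  obtain ⟨Cg, hCg, hG⟩ := exists_HG Al He
  obtain ⟨F1, hF1, hw⟩ := wen h hCg F0 hB hl
  obtain ⟨F2, θ0, hF2, hθ0, hpt⟩ := pt h He C.kerC h0 hCg F0 hB hl
  obtain ⟨R, hR⟩ := E.R_bd
  have hR' : ∀ t ∈ Ioo 0 H.T, ∀ x, |H.R t x| ≤ |R| := fun t ht x => (hR t ht x).trans (le_abs_self R)
  have R0 := abs_nonneg R
  set Z := F2 ^ 2 + Cg * F1 + Cg * F ^ 3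
  have hZ : 0 < Z := by positivity
  set c1 := Real.exp |R| * (4 * Real.exp (1 + 2 * |R|) * F)
  have hc1 : 0 < c1 := by positivity
  obtain ⟨θ, θp, θ1, hE⟩ := small_theta (γ := δ / Z / 2) (θ0 := min (min θ0 (1 / 2)) (δ / c1)) hl
    (by positivity) (by positivity)
  have θa : θ ≤ θ0 := θ1.trans ((min_le_left _ _).trans (min_le_left _ _))
  have θb : θ ≤ 1 / 2 := θ1.trans ((min_le_left _ _).trans (min_le_right _ _))
  have θc : θ ≤ δ / c1 := θ1.trans (min_le_right _ _)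
  set e := min (1 / 4) (δ / Z / 2 * θ ^ 3 / (3 * F)) with he
  have e0 : 0 < e := by positivity
  have e2 : 3 * F * e ≤ δ / Z / 2 * θ ^ 3 := by
    have := min_le_right (1 / 4) (δ / Z / 2 * θ ^ 3 / (3 * F))
    rw [← he, le_div_iff₀ (by positivity)] at this; linarith
  refine ⟨e, e, e0, e0, min_le_left _ _, ?_⟩
  intro a t ε τ0 s r z x0 v χ ha cs hs s1 hwin hε sχ χ01 χA χK reg hd hχ
  obtain ⟨σ, hσ⟩ := hhd ha cs hs s1 hwin hε sχ χ01 χA χK e0.le (min_le_left _ _) e0.le reg hd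
  obtain ⟨u, D, u0⟩ := hσ θ θp θb
  obtain ⟨G, P', g⟩ := hG D.st' D.heat
  obtain ⟨φ, sφ, φ01, φ1, φχ, -, ρ, hρ, hGi⟩ := hw D g x0 r hχ
  have s2 : 0 < s ^ 2 := by positivity
  have hθs : 0 < θ * s ^ 2 := by positivity
  have hρ' : ρ ∈ Icc σ (σ + θ * s ^ 2) := ⟨by linarith [hρ.1], hρ.2⟩
  have hσ' : σ ∈ Icc σ (σ + θ * s ^ 2) := left_mem_Icc.2 D.win.1.le
  have tρ := D.st'.mem hρ'
  have tσ := D.st'.mem hσ'
  have tt := D.st.mem D.tm
  have su := Al.sm_s0 D.heat.1 ρ hρ'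
  have su0 := Al.sm_s0 D.heat.1 σ hσ'
  set X := F * (e + e) + e + Real.exp (-(l / (4 * √θ))) with hX
  have X0 : 0 ≤ X := by positivity
  have X1 : Z * X ≤ δ * θ ^ 3 := by
    have : X ≤ δ / Z * θ ^ 3 := by nlinarith
    calc Z * X ≤ Z * (δ / Z * θ ^ 3) := by gcongr
      _ = _ := by field_simp
  have θ3 : θ ^ 3 ≤ θ ^ 2 := by nlinarith [sq_nonneg θ]
  have θ2 : θ ^ 2 ≤ θ := by nlinarith
  refine ⟨σ, D.σ1, ρ, D.sub hρ', u ρ, fun x => u σ x - u ρ x, su, Al.s0_sub su0 su,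
    fun x hx => ?_, ?_, fun x hx => ?_, ?_⟩
  · rw [u0]; simp only [hx]; ring
  · have k := int_time Al I R0 hR' tρ tσ (abs_le.2 ⟨by linarith [hρ'.2, D.win.2.2],
      by linarith [hρ'.1]⟩) (Al.s0_pow 2 (Al.s0_sub su0 su)) fun x => sq_nonneg _
    have k2 := l2_move Al I E D.st' R0 hR' (by linarith [D.win.2.2]) D.heat ρ hρ'
    have e1 : ∀ x, (u σ x - u ρ x) ^ 2 = (u ρ x - u σ x) ^ 2 := fun x => by ring
    simp_rw [e1] at k ⊢
    have k3 := D.en
    calc _ ≤ Real.exp |R| * (4 * Real.exp (1 + 2 * |R|) * (σ + θ * s ^ 2 - σ) * (F * s ^ 6)) := by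
          refine k.trans (mul_le_mul_of_nonneg_left (k2.trans ?_) (Real.exp_pos _).le)
          have : 0 ≤ σ + θ * s ^ 2 - σ := by linarith
          gcongr
      _ = θ * c1 * s ^ 8 := by simp only [c1]; ring
      _ ≤ δ / c1 * c1 * s ^ 8 := by gcongr
      _ = _ := by field_simp
  · obtain ⟨p1, p2⟩ := hpt D g (ha.trans hwin) θa x hx ρ hρ
    rw [← hX] at p1
    have p0 := Pc_nonneg E tt su 2 x
    have z1 : F2 ^ 2 * X ≤ Z * X := by
      gcongr; simp only [Z]; have : 0 ≤ Cg * F1 + Cg * F ^ 3 := by positivity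
      linarith
    constructor
    · refine p1.trans ?_
      rw [div_le_iff₀ (by positivity)]
      have : F2 * X ≤ F2 ^ 2 * X := by gcongr; nlinarith
      nlinarith
    · calc _ ≤ F2 / θ * s ^ 2 * (F2 * X / θ ^ 2) := by gcongr
        _ = F2 ^ 2 * X / θ ^ 3 * s ^ 2 := by field_simp
        _ ≤ δ * θ ^ 3 / θ ^ 3 * s ^ 2 := by
            have := z1.trans X1
            gcongr ?_ / _ * _
        _ = _ := by field_simp
  · have sG := Al.sm_s0 g.sG ρ hρ'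
    have s1' := Al.s0_cmul Cg (Al.s0_mul (Al.s0_pow 2 sφ) sG)
    have s2' := Al.s0_cmul (Cg * ((e / s ^ 2) ^ 2 * (F ^ 2 / θ * s ^ 2))) sχ
    have sP := Al.s0_mul (Al.s0_N tρ 0) (Al.s0_gam tρ su su)
    have k := setInt_le_wt h tρ (isOpen_B h.dist tt x0 r) (Al.s0_pow 2 sφ) sP
      (fun y => sq_nonneg _) (fun y => mul_nonneg (E.N_nonneg 0 ρ tρ y) (Al.gam_nonneg ρ tρ su y))
      fun y hy => by rw [φ1 y hy]; norm_num
    have k2 := int_mono Al I tρ (Al.s0_mul (Al.s0_pow 2 sφ) sP) (Al.s0_add s1' s2') fun y => by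
      by_cases hy : φ y = 0
      · simp only [hy, ne_eq, OfNat.ofNat_ne_zero, not_false_eq_true, zero_pow, zero_mul, mul_zero,
          zero_add]
        have := (χ01 y).1
        positivity
      · have q1 := (D.reg ρ (D.sub hρ') y (by rw [mem_ofPred_eq, φχ y hy]; exact one_ne_zero)).2.1
        have q0 := E.Q_nonneg 0 ρ tρ y
        have q2 : H.Q 0 ρ y ≤ (e / s ^ 2) ^ 2 := by rw [← Real.sq_sqrt q0]; gcongr
        have q3 : φ y ^ 2 ≤ 1 := by nlinarith [(φ01 y).1, (φ01 y).2]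
        have q4 := D.gam_le Al E hρ y
        have q5 := Al.gam_nonneg ρ tρ su y
        have q6 := mul_le_mul_of_nonneg_left (g.ric ρ hρ' y) (sq_nonneg (φ y))
        have q7 : φ y ^ 2 * (H.Q 0 ρ y * H.gam ρ (u ρ) (u ρ) y) ≤
            1 * ((e / s ^ 2) ^ 2 * (F ^ 2 / θ * s ^ 2)) := by gcongr
        have q8 := mul_le_mul_of_nonneg_left q7 hCg
        rw [φχ y hy]
        linarith
    rw [int_add Al I tρ s1' s2', integral_const_mul, integral_const_mul] at k2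
    have k3 := D.vol ρ (D.sub hρ')
    have x2 : Real.exp (-(l / (2 * √θ))) ≤ Real.exp (-(l / (4 * √θ))) := by
      have := Real.sqrt_pos.2 θp
      gcongr; norm_num
    have k4 : ∫ x, φ x ^ 2 * G ρ x ∂H.vol ρ ≤ F1 * X / θ * s ^ 2 := hGi.trans (by
      rw [hX]; gcongr)
    have e1 : e ≤ 1 := (min_le_left _ _).trans (by norm_num)
    have e3 : e ^ 2 ≤ X := by
      have : 0 ≤ F * (e + e) + Real.exp (-(l / (4 * √θ))) := by positivity
      nlinarith
    calc _ ≤ Cg * (F1 * X / θ * s ^ 2) +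
          Cg * ((e / s ^ 2) ^ 2 * (F ^ 2 / θ * s ^ 2)) * (F * s ^ 4) := by
          refine k.trans (k2.trans ?_); gcongr
      _ = (Cg * F1 * X + Cg * F ^ 3 * e ^ 2) / θ * s ^ 2 := by field_simp
      _ ≤ (δ * θ) / θ * s ^ 2 := by
          gcongr
          have : Cg * F ^ 3 * e ^ 2 ≤ Cg * F ^ 3 * X := by gcongr
          have : 0 ≤ F2 ^ 2 * X := by positivity
          have : δ * θ ^ 3 ≤ δ * θ := by gcongr; linarith
          simp only [Z] at X1
          nlinarith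
      _ = _ := by field_simp

end Crest.Agent.N207.Ge

end
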