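import Crest.Agent.N207.G.EnBad
import Crest.Agent.N207.G.Cone

/-!
# Row 207, block G (helper93): `ENT1`
-/

set_option autoImplicit false
set_option linter.unusedSectionVars false

open scoped ContDiff Manifold Topology
open Set Filter MeasureTheory

noncomputable section

namespace Crest.Agent.N207.Ge

open Sk Gs HC

variable {M : Type*} [TopologicalSpace M] [ChartedSpace E4 M] [IsManifold 𝓘(ℝ, E4) ∞ M]
  [T3Space M] [ConnectedSpace M] [MeasurableSpace M] [BorelSpace M]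

theorem ac_mono {g : Met 4 M} {z : M} {b : M → ℝ} {S δ δ' κ : ℝ} (h : AC g z b S δ κ)
    (h0 : 0 < δ) (hδ : δ ≤ δ') (hS : 0 < S) : AC g z b S δ' κ := by
  have k : ∀ x, δ' * S ≤ g.d z x → δ' * g.d z x ≤ S → δ * S ≤ g.d z x ∧ δ * g.d z x ≤ S :=
    fun x h1 h2 => by
      have : 0 ≤ g.d z x := dist_nonneg (α := Sl g)
      exact ⟨le_trans (by gcongr) h1, le_trans (by gcongr) h2⟩
  exact ⟨h.sm, fun n hn x h1 h2 => (h.rm n (le_trans (by gcongr) hn) x (k x h1 h2).1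
      (k x h1 h2).2).trans (by gcongr),
    fun x h1 h2 => (h.hess x (k x h1 h2).1 (k x h1 h2).2).trans hδ,
    fun x h1 h2 => (h.gam x (k x h1 h2).1 (k x h1 h2).2).trans (by gcongr),
    fun x h1 h2 => (h.val x (k x h1 h2).1 (k x h1 h2).2).trans (by gcongr), h.vol, h.ne⟩

theorem ball_eq (F : Flow M) (t : ℝ) (z : M) (r : ℝ) : (F.m t).ball z r = F.hc.B t z r := by
  ext q; exact Iff.of_eq (congrArg (· < r) (G.d_comm _ q z))

theorem ball_sub_An (F : Flow M) {t : ℝ} {z x : M} {r p q : ℝ} (h1 : p + r ≤ F.hc.d t z x)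
    (h2 : F.hc.d t z x + r ≤ q) : F.hc.B t x r ⊆ F.hc.An t z p q := fun y hy => by
  have h3 : dist (α := Sl (F.m t)) x y < r := hy
  have h4 := dist_triangle (α := Sl (F.m t)) z x y
  have h5 := dist_triangle_right (α := Sl (F.m t)) z x y
  have h1' : p + r ≤ dist (α := Sl (F.m t)) z x := h1
  have h2' : dist (α := Sl (F.m t)) z x + r ≤ q := h2
  exact ⟨show p ≤ dist (α := Sl (F.m t)) z y by linarith,
    show dist (α := Sl (F.m t)) z y ≤ q by linarith⟩

theorem val_est {b d s S δ e : ℝ} (hδ : 0 < δ) (hδ1 : δ ≤ 1) (hS : 0 < S) (hs : 0 < s)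
    (h1 : δ * S ≤ d) (h2 : δ * d ≤ S) (he : e ≤ δ ^ 2 / 6 * S) (hs1 : s ≤ δ ^ 2 / 12 * S)
    (h : |√(b + 2 * s ^ 2) - d| ≤ e) : |b - d ^ 2| ≤ δ * S ^ 2 := by
  obtain ⟨h3, h4⟩ := abs_le.1 h
  have q1 : δ ^ 2 ≤ δ := by nlinarith
  have q2 : e ≤ δ * S / 6 := by nlinarith
  have q3 : 0 < δ * S := by positivity
  have hw : 0 < √(b + 2 * s ^ 2) := by linarith
  have hb := Real.sq_sqrt (Real.sqrt_pos.1 hw).le
  set w := √(b + 2 * s ^ 2)
  have e0 : 0 ≤ e := (abs_nonneg _).trans h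
  have q4 : e * d ≤ δ * S ^ 2 / 6 := by
    calc e * d ≤ δ ^ 2 / 6 * S * d := by gcongr; linarith
      _ = δ * S / 6 * (δ * d) := by ring
      _ ≤ δ * S / 6 * S := by gcongr
      _ = _ := by ring
  have q5 : e * e ≤ e * d := by gcongr; linarith
  have q6 : s ^ 2 ≤ δ * S ^ 2 / 12 := by
    have a1 : s ≤ S := by nlinarith
    have a2 : s ≤ δ / 12 * S := by nlinarith
    calc s ^ 2 = s * s := sq s
      _ ≤ δ / 12 * S * S := by gcongr
      _ = _ := by ring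
  have q7 : |w ^ 2 - d ^ 2| ≤ e * (2 * d + e) := by
    rw [sq_sub_sq, abs_mul, mul_comm, abs_of_pos (by linarith : 0 < w + d)]
    exact mul_le_mul h (by linarith) (by linarith) e0
  obtain ⟨q8, q9⟩ := abs_le.1 q7
  have q10 : 0 < δ * S ^ 2 := by positivity
  rw [abs_le]; constructor <;> nlinarith

set_option maxHeartbeats 1600000 in
theorem ent1 [CompactSpace M] (F : Flow M) (B : Base F) (G1 : F.hc.GGood) (G2 : F.hc.GOne) :
    ENT1 F := by
  have hT := F.hT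
  obtain ⟨κ, hκ, hlo⟩ := B.c.lo (F.T / 2) (by positivity)
  obtain ⟨Cv, hCv, hup⟩ := B.c.up (F.T / 2) (by positivity)
  obtain ⟨θ1, Λ1, β1, hθ1, hθ1', hΛ1, hβ1, G2⟩ := G2 (F.T / 4) (by positivity)
  obtain ⟨ε0, B0, hε0, hB0, G3⟩ := gRegE B.ok B.e.statB (F.T / 2) (by positivity)
  obtain ⟨ε1, c1, r0, hε1, hc1, hr0, -, G4⟩ := B.e.reg (F.T / 2) (by positivity)
  choose Ck hCk G4 using G4
  refine ⟨κ, hκ, fun L hL => ?_⟩
  set A1 := max Λ1 (L ^ 2) with hA1
  have a1 : Λ1 ≤ A1 := le_max_left _ _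
  have a2 : L ^ 2 ≤ A1 := le_max_right _ _
  have a3 : L ≤ L / θ1 := by rw [le_div_iff₀ hθ1]; nlinarith
  refine ⟨L / θ1 + 2 * A1, by linarith, fun δ' hδ' => ?_⟩
  obtain ⟨β3, hβ3, G3a⟩ := G3 (θ1 / 2) (1 / 4) (by positivity) (by norm_num)
  set δ := min δ' 1 with hδd
  have hδ : 0 < δ := lt_min hδ' one_pos
  have hδ1 : δ ≤ 1 := min_le_right _ _
  obtain ⟨C, hC, G1⟩ := G1 (F.T / 4) (by positivity) (δ ^ 3 / 12) (by positivity)
  set c := δ ^ 2 / (12 * C) with hc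
  have hc0 : 0 < c := by positivity
  have hcC : C * c = δ ^ 2 / 12 := by rw [hc]; field_simp
  have hc1' : c ≤ δ ^ 2 / 12 := by nlinarith
  have hc2 : c ≤ δ := by nlinarith
  have hA : 1 ≤ 1 / (δ * c) := by rw [le_div_iff₀ (by positivity)]; nlinarith
  obtain ⟨β, hβ, -, G1⟩ := G1 1 (1 / (δ * c)) (B0 / (1 / (2 * C)) ^ 2) δ one_pos le_rfl hA
    (by positivity) hδ
  obtain ⟨β2, hβ2, G3b⟩ := G3 (1 / (2 * C)) β (by positivity) hβ
  have e1 : ∀ᶠ ν in 𝓝[>] (0 : ℝ), 0 < ν ∧ ∀ k ∈ Finset.range (⌈1 / δ⌉₊ + 1),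
      ν ≤ δ ^ 2 * (δ / 2) ^ (4 + 2 * k) / Ck k :=
    eventually_mem_nhdsWithin.and ((Finset.eventually_all _).2 fun k _ =>
      (eventually_le_nhds (by have := hCk k; positivity)).filter_mono nhdsWithin_le_nhds)
  obtain ⟨ν, hν, hν'⟩ := e1.exists
  have e2 : ∀ᶠ Λ in atTop, 1 ≤ Λ ∧ 2 * L / θ1 ≤ Λ ∧ 2 * C / c ≤ Λ ∧ 2 / δ ≤ Λ ∧ Λ1 + 1 ≤ Λ ∧
      C / δ + 1 ≤ Λ := by
    refine (eventually_ge_atTop _).and ((eventually_ge_atTop _).and ((eventually_ge_atTop _).and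
      ((eventually_ge_atTop _).and ((eventually_ge_atTop _).and (eventually_ge_atTop _)))))
  obtain ⟨Λ, l1, l2, l3, l4, l5, l6⟩ := e2.exists
  obtain ⟨n1, G5⟩ := gBad B.ok (F.T / 4) (by positivity) β hβ
  obtain ⟨n2, G6⟩ := gBadE B.ok B.d.glob (F.T / 2) (by positivity) (min (min ε0 ε1) (ν / 2))
    (by positivity) Λ l1
  refine ⟨min (min (min 1 β) (min β1 β2)) (min (min β3 (F.T / 8)) (min (min r0 ν) (κ / (2 * Cv)))),
    n1 + n2, by positivity, fun t ht z => ?_⟩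
  have ht' := G.late_Ioo ht
  obtain ⟨B1, b1, G5⟩ := G5 t ⟨by linarith [ht.1], ht.2⟩ z c
    (fun j => min (β * (c * 2 ^ j) ^ 2) (β1 * (2 ^ j / L))) hc0 fun j => by positivity
  obtain ⟨B2, b2, G6⟩ := G6 t ht z
  refine ⟨B1 ∪ B2, (Finset.card_union_le _ _).trans (add_le_add b1 b2), fun j hj hS => ?_⟩
  have G5 := G5 j fun h => hj (Finset.mem_union_left _ h)
  have G6 := G6 j fun h => hj (Finset.mem_union_right _ h)
  set S : ℝ := 2 ^ j with hSd
  have S0 : 0 < S := by positivity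
  simp only [le_min_iff] at hS G5 G6
  obtain ⟨⟨⟨S1, S2⟩, S3, S4⟩, ⟨S5, S6⟩, ⟨S7, S8⟩, S9⟩ := hS
  have hs : c * S ≤ S := mul_le_of_le_one_left S0.le (by linarith)
  have hs0 : 0 < c * S := by positivity
  have hs' : S / L ≤ S := div_le_self S0.le (by linarith)
  have hs0' : 0 < S / L := by positivity
  have win : ∀ s, 0 < s → s ≤ S → F.T / 4 ≤ t - 2 * s ^ 2 := fun s h1 h2 => by
    have : s ^ 2 ≤ S := by nlinarith
    linarith [ht.1]
  have lo : ∀ u, 0 < u → 1 / u ≤ Λ → S / Λ ≤ u * S := fun u hu h => by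
    rw [div_le_iff₀ (by linarith)]
    rw [div_le_iff₀ hu] at h
    nlinarith
  obtain ⟨ε, τ0, v, ⟨hε, hε'⟩, hv, hd⟩ := G5 (win _ hs0 hs)
  obtain ⟨σ, μ, b, g, hP, -, hb, -⟩ := G1 False le_rfl hv hs0 (hs.trans S2) hε (win _ hs0 hs)
    (G3b t ht _ _ hs0 (hs.trans S4) fun x hx => (G6 x _ (ball_sub_An F (by
      have h1 : 1 / C * (c * S) ≤ F.hc.d t z x := by simpa using hx.1
      have h2 := lo (c / (2 * C)) (by positivity) (by rwa [one_div_div])
      have h3 : 1 / C * (c * S) = c / (2 * C) * S + 1 / (2 * C) * (c * S) := by field_simp; ring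
      linarith) (by
      have h1 := hx.2
      have h2 : C * (1 / (δ * c)) * (c * S) = C / δ * S := by field_simp
      have h3 : 1 / (2 * C) * (c * S) ≤ 1 * S := by
        gcongr; rw [div_le_one (by positivity)]; linarith
      have h4 : (C / δ + 1) * S ≤ Λ * S := by gcongr
      linarith))).1.1) hd
  obtain ⟨Cn, c1', c2, c3⟩ := G2 (A := A1) le_rfl hv hs0' (hs'.trans S3) hε' (win _ hs0' hs') a1
    (G3a t ht _ _ hs0' (hs'.trans S5) fun x hx => (G6 x _ (ball_sub_An F (by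
      have h1 := hx.1
      have h2 := lo (θ1 / (2 * L)) (by positivity) (by rwa [one_div_div])
      have h3 : θ1 * (S / L) = θ1 / (2 * L) * S + θ1 / 2 * (S / L) := by field_simp; ring
      linarith) (by
      have h1 := hx.2
      have h2 : Λ1 * (S / L) ≤ Λ1 * S := by gcongr
      have h3 : θ1 / 2 * (S / L) ≤ 1 * S := by gcongr; linarith
      have h4 : (Λ1 + 1) * S ≤ Λ * S := by gcongr
      linarith))).1.1)
  have mem : ∀ x, δ * S ≤ (F.m t).d z x → δ * (F.m t).d z x ≤ S →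
      x ∈ F.hc.An t z (1 * (c * S)) (1 / (δ * c) * (c * S)) := fun x h1 h2 => by
    refine ⟨le_trans ?_ h1, ?_⟩
    · rw [one_mul]; gcongr
    · rw [show 1 / (δ * c) * (c * S) = S / δ by field_simp, le_div_iff₀' hδ]; exact h2
  refine ⟨b, ac_mono (δ := δ) ⟨hP.sb, fun k hk x h1 h2 => ?_, fun x h1 h2 => ?_,
    fun x h1 h2 => (hP.gam x (mem x h1 h2)).trans (by gcongr), fun x h1 h2 => ?_,
    fun p s hs => ?_, ?_⟩ hδ (min_le_left _ _) S0, Cn, c1', fun x h1 h2 => c2 ⟨h1, h2.trans ?_⟩,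
    fun x hx => ⟨le_trans ?_ (c3 hx).1, (c3 hx).2.trans ?_⟩⟩
  · have hr : 0 < δ / 2 * S := by positivity
    have hr1 : δ / 2 * S ≤ 1 / 2 * S := by gcongr
    have h3 := G6 x (δ / 2 * S) (ball_sub_An F (by
      have := lo (δ / 2) (by positivity) (by rwa [one_div_div])
      exact le_trans (by linarith) h1) (by
      have h4 : (F.m t).d z x ≤ 1 / δ * S := by rwa [one_div_mul_eq_div, le_div_iff₀' hδ]
      have h5 : 1 / δ * S ≤ C / δ * S := by gcongr
      have h6 : (C / δ + 1) * S ≤ Λ * S := by gcongr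
      exact le_trans (add_le_add h4 le_rfl) (by linarith)))
    have h4 := ((G4 k t ht x _ hr (by linarith) h3.1.2 x (by
      show F.hc.d t x x < _
      rw [B.ok.dist.self t ht']; positivity)).1 t ht' (by rw [sub_self, abs_zero]; positivity)).1
    have h5 := hν' k (Finset.mem_range.2 (Nat.lt_succ_of_le (by
      have : (k : ℝ) ≤ 1 / δ := by rwa [le_div_iff₀ hδ]
      exact_mod_cast this.trans (Nat.le_ceil _))))
    have h6 := hCk k
    rw [le_div_iff₀' h6] at h5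
    refine h4.trans ?_
    calc _ ≤ Ck k * ν / (δ / 2 * S) ^ (4 + 2 * k) := by gcongr; linarith [h3.2]
      _ ≤ δ ^ 2 * (δ / 2) ^ (4 + 2 * k) / (δ / 2 * S) ^ (4 + 2 * k) := by gcongr
      _ = _ := by rw [mul_pow]; field_simp; ring
  · have := hP.hess x (mem x h1 h2)
    unfold HC.Pc at this
    have e : (F.m t).nsq ((F.m t).hess b) x - 4 * (F.m t).lap b x + 16 =
      F.hc.hh t b x - 2 * 2 * F.hc.lap t b x + 4 * 2 ^ 2 := by
      rw [F.hc_hh, F.hc_lap]; ring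
    rw [e]; exact this
  · refine val_est hδ hδ1 S0 hs0 h1 h2 ?_ (by gcongr) (hb x (mem x h1 h2))
    have h3 : δ ^ 3 / 12 * F.hc.d t z x ≤ δ ^ 2 / 12 * S := by
      calc _ = δ ^ 2 / 12 * (δ * (F.m t).d z x) := by rw [F.hc_d]; ring
        _ ≤ _ := by gcongr
    rw [← mul_assoc, hcC]; linarith
  · rw [ball_eq]; exact hlo t ht p s ⟨hs.1, hs.2.trans S1⟩
  · have : ∃ q, S ≤ (F.m t).d z q := by
      by_contra hn
      push Not at hn
      have := B.ok.int.fin t ht'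
      have h1 := hlo t ht z 1 ⟨one_pos, le_rfl⟩
      have h2 := hup t ht z S S0
      have h3 : (F.hc.vol t).real (F.hc.B t z 1) ≤ (F.hc.vol t).real (F.hc.B t z S) :=
        measureReal_mono fun q _ => hn q
      have h4 : S ^ 4 ≤ S := pow_le_of_le_one S0.le S1 (by norm_num)
      rw [le_div_iff₀ (by positivity)] at S9
      nlinarith
    obtain ⟨q, hq⟩ := this
    exact intermediate_value_univ z q (G.cont_d _ z) ⟨by rw [G.d_self]; exact S0.le, hq⟩
  · calc L * S = L ^ 2 * (S / L) := by field_simp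
      _ ≤ _ := by gcongr
  · calc S / (L / θ1 + 2 * A1) ≤ S / (L / θ1) := by gcongr; linarith
      _ = _ := by field_simp
  · have h1 : 2 * A1 * (S / L) ≤ 2 * A1 * S := by gcongr
    have h2 : 0 ≤ L / θ1 * S := by positivity
    linarith

end Crest.Agent.N207.Ge

end
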