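import Crest.Agent.N207.G.EnF3
import Crest.Agent.N207.G.EnF4
import Crest.Agent.N207.G.Ent1

/-!
# Row 207, block G (helper22): `ENT2`
-/

set_option autoImplicit false
set_option linter.unusedSectionVars false

open scoped ContDiff Manifold Topology
open Set Filter MeasureTheory

noncomputable section

namespace Crest.Agent.N207.Ge

open Sk Gs HC

variable {M : Type*} [TopologicalSpace M] [ChartedSpace E4 M] [IsManifold 𝓘(ℝ, E4) ∞ M]
  [T3Space M] [ConnectedSpace M] [MeasurableSpace M] [BorelSpace M]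

theorem ent2 [CompactSpace M] (F : Flow M) (B : Base F) (He : F.hc.Hes) (G1 : F.hc.GGood)
    (GS : F.hc.GSmooth) (GC : F.hc.GCut) : ENT2 F := fun ε hε => by
  have hT := F.hT
  have h := B.ok
  have T4 : 0 < F.T / 4 := by positivity
  have T2 : 0 < F.T / 2 := by positivity
  obtain ⟨η1, r1, η10, r10, E1⟩ :=
    ereg_ent h He B.c.up B.d.flux GS (gRegE h B.e.statB) T4 hε
  obtain ⟨η2, η20, E2⟩ := gNbr' h _ T4 η1 η10
  obtain ⟨o, o0, E3⟩ := nash_neck h B.c G1 GC T4 η20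
  obtain ⟨η, ι, η0, ι0, E4⟩ := euc (M := M) o o0
  obtain ⟨θ, A, C, θ0, θ1, C1, A1, E3⟩ := E3 ι ι0
  obtain ⟨ν, ν0, ν1, E2⟩ := E2 A A1
  obtain ⟨ε0, B0, ε00, B00, E5⟩ := gRegE h B.e.statB _ T2
  have l0 : 0 < θ / (2 * C) := by positivity
  have l1 : θ / (2 * C) ≤ 1 := (div_le_one (by positivity)).2 (by linarith)
  obtain ⟨β, β0, β1, E3⟩ := E3 (B0 / (θ / (2 * C)) ^ 2) (by positivity)
  obtain ⟨β2, β20, E5⟩ := E5 _ β l0 β0
  obtain ⟨n1, E6⟩ := gBad h _ T4 β β0
  have q1 : 0 < 2 * C / θ := by positivity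
  have q2 : 0 < C * A := by positivity
  have q3 : 0 < 1 / θ := by positivity
  obtain ⟨n2, E7⟩ := gBadE h B.d.glob _ T2 ε0 ε00 (2 * C / θ + C * A + 1) (by linarith)
  have K1 : 10 ≤ 10 / ν := le_div_self (by norm_num) ν0 ν1
  refine ⟨2 + 1 / θ + A, η, 10 / ν, min (min β β2) (min r1 (F.T / 8)), n1 + n2, by linarith, η0,
    by linarith, by positivity, fun t ht z => ?_⟩
  have ht' := G.late_Ioo ht
  obtain ⟨B1, b1, E6⟩ := E6 t ⟨by linarith [ht.1], ht.2⟩ z 1
    (fun j => min (β * (2 ^ j) ^ 2) (ν * (2 ^ j) ^ 2)) one_pos fun j => by positivity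
  obtain ⟨B2, b2, E7⟩ := E7 t ht z
  refine ⟨B1 ∪ B2, (Finset.card_union_le _ _).trans (add_le_add b1 b2), fun j hj hS Ψ hΨ => ?_⟩
  have E6 := E6 j fun h => hj (Finset.mem_union_left _ h)
  have E7 := E7 j fun h => hj (Finset.mem_union_right _ h)
  have S0 : (0 : ℝ) < 2 ^ j := by positivity
  generalize (2 : ℝ) ^ j = S at *
  simp only [le_min_iff, one_mul] at hS E6
  obtain ⟨⟨S1, S2⟩, S3, S4⟩ := hS
  have S5 : S ^ 2 ≤ S := pow_le_of_le_one S0.le (by linarith) two_ne_zero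
  have S6 := pow_pos S0 2
  have win : F.T / 4 ≤ t - 2 * S ^ 2 := by linarith [ht.1]
  obtain ⟨ε', τ0, v, ⟨e1, e2⟩, cs, dr⟩ := E6 win
  have reg := E5 t ht S (F.hc.An t z (θ / C * S) (C * A * S)) S0 S2 fun x hx => E7 x _
    (ball_sub_An F (le_trans (by
      have : S / (2 * C / θ + C * A + 1) ≤ S / (2 * C / θ) := by gcongr; linarith
      have e : S / (2 * C / θ) + θ / (2 * C) * S = θ / C * S := by field_simp; ring
      linarith) hx.1) (by
      nlinarith [hx.2, mul_le_mul_of_nonneg_right l1 S0.le, mul_pos q1 S0]))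
  obtain ⟨σ, hσ, m1, m2⟩ := E3 le_rfl cs S0 S1 e1 win reg dr fun l l0 h1 h2 =>
    E4 (F.m t) z Ψ _ _ l _ _ hΨ (by positivity) (by
      have : S / (2 + 1 / θ + A) ≤ S / (1 / θ) := by gcongr; linarith
      have e : S / (1 / θ) = θ * S := by field_simp
      linarith) (by nlinarith [mul_pos q3 S0]) l0 h1 h2 (by positivity)
  have R0 : 0 < S / (10 / ν) := by positivity
  have R1 : S / (10 / ν) ≤ S / 10 := by gcongr
  have R2 : (S / (10 / ν)) ^ 2 ≤ (S / 10) ^ 2 := by gcongr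
  rw [show Sk.en (F.m t) z (S / (10 / ν)) = F.hc.en t z (S / (10 / ν)) by
    unfold Sk.en HC.en; rw [ball_eq]; rfl]
  refine E1 (e := ν * S ^ 2) le_rfl (by linarith) ht.2 R0 (by linarith) (by positivity)
    fun y ε'' τ1 v' hy e3 cs' σ' hσ' => E2 le_rfl cs S0 (by linarith) e2 σ hσ (win.trans hσ.1) _
      (isClosed_An h ht' z _ _).measurableSet (fun x hx => lt_of_le_of_lt hx.2 (by
        nlinarith [mul_pos (show 0 < A by linarith) S0])) m1 m2 cs' e3
      (hy.trans_eq (by field_simp)) σ' ⟨le_trans (by linarith) hσ'.1, hσ'.2⟩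

end Crest.Agent.N207.Ge

end
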