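import Crest.Agent.N207.G.Ent2
import Crest.Agent.N207.G.EnG
import Crest.Agent.N207.G.EnS2
import Crest.Agent.N207.G.EnO2
import Crest.Agent.N207.G.EnD
import Crest.Agent.N207.V.Hs3

/-!
# Row 207, block G (helper22): the entropy half from `Base`
-/

set_option autoImplicit false
set_option linter.unusedSectionVars false

open scoped ContDiff Manifold Topology

noncomputable section

namespace Crest.Agent.N207.Ge

open Sk Gs

variable {M : Type*} [TopologicalSpace M] [ChartedSpace E4 M] [IsManifold 𝓘(ℝ, E4) ∞ M]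
  [T3Space M] [ConnectedSpace M] [MeasurableSpace M] [BorelSpace M] [CompactSpace M]

theorem gGoodB (F : Flow M) (B : Base F) : F.hc.GGood :=
  gGood B.ok B.c (V.hes F) (gCut B.ok) (gOsc B.ok B.c) (gSand B.ok B.c)

theorem ent1B (F : Flow M) (B : Base F) : ENT1 F := ent1 F B (gGoodB F B) (gOne' F B.ok B.c)

theorem ent2B (F : Flow M) (B : Base F) : ENT2 F :=
  ent2 F B (V.hes F) (gGoodB F B) (gSmooth B.ok B.c (V.hes F)) (gCut B.ok)

end Crest.Agent.N207.Ge

end
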