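import Crest.Agent.N207.G.Fd

/-!
# Row 207, block G (helper25): calculus of good parametrisations
-/

set_option autoImplicit false
set_option linter.unusedSectionVars false
set_option maxSynthPendingDepth 3

open scoped ContDiff Manifold Topology
open Set Filter Metric
open Crest.GeometryTopology.CoordMetric
open Crest.Agent.R202.Tens Crest.Agent.N207.Jt

noncomputable section

namespace Crest.Agent.N207.Gs

variable {M : Type*} [TopologicalSpace M] [ChartedSpace E4 M] [IsManifold 𝓘(ℝ, E4) ∞ M]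
  [T3Space M] [ConnectedSpace M] [MeasurableSpace M] [BorelSpace M] {ι : Type}
  {l : Filter ι} {g : ι → Met 4 M} {z : ι → M} {b : ι → M → ℝ} {Ψ Ψ' : ι → E4 → M}
  {U U' V : Set E4} {κ : ℝ}

theorem In.sm (h : In l g z b κ) : ∀ᶠ j in l, Sm 4 (b j) := (h.ac 1 one_pos).mono fun _ hj => hj.sm

theorem fd_comp {f : M → ℝ} (hf : Sm 4 f) {Φ : E4 → M} {y : E4}
    (h : MDifferentiableAt 𝓘(ℝ, E4) 𝓘(ℝ, E4) Φ y) (X : E4) :
    fderiv ℝ (fun x => f (Φ x)) y X =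
      mfderiv 𝓘(ℝ, E4) 𝓘(ℝ, ℝ) f (Φ y) (mfderiv 𝓘(ℝ, E4) 𝓘(ℝ, E4) Φ y X) := by
  have := mfderiv_comp (I := 𝓘(ℝ, E4)) (I' := 𝓘(ℝ, E4)) (I'' := 𝓘(ℝ, ℝ)) y
    ((hf (Φ y)).mdifferentiableAt infty_ne) h
  rw [mfderiv_eq_fderiv] at this
  exact congrArg (fun L : E4 →L[ℝ] ℝ => L X) this

theorem IsD.fd {f : M → ℝ} (hf : Sm 4 f) {Φ Φ' : E4 → M} {y y' : E4} {L : E4 →L[ℝ] E4}
    (h : IsD Φ Φ' y y' L) (e : Φ' y' = Φ y) (h1 : MDifferentiableAt 𝓘(ℝ, E4) 𝓘(ℝ, E4) Φ y)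
    (h2 : MDifferentiableAt 𝓘(ℝ, E4) 𝓘(ℝ, E4) Φ' y') :
    fderiv ℝ (fun x => f (Φ x)) y = (fderiv ℝ (fun x => f (Φ' x)) y').comp L := by
  have k : ∀ p q : M, p = q → ∀ a : E4, (mfderiv 𝓘(ℝ, E4) 𝓘(ℝ, ℝ) f p a : ℝ) =
      mfderiv 𝓘(ℝ, E4) 𝓘(ℝ, ℝ) f q a := by rintro p q rfl a; rfl
  refine ContinuousLinearMap.ext fun X => ?_
  rw [ContinuousLinearMap.comp_apply, fd_comp hf h1, fd_comp hf h2]
  refine (k _ _ e.symm _).trans ?_
  exact congrArg (fun a : E4 => (mfderiv 𝓘(ℝ, E4) 𝓘(ℝ, ℝ) f (Φ' y') a : ℝ)) (h X)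

theorem db_split (D : E4 →L[ℝ] ℝ) (L : E4 →L[ℝ] E4) (A : E4 ≃ₗᵢ[ℝ] E4) (w y X : E4) :
    (D.comp L - (2 : ℝ) • innerSL ℝ y) X = (D - (2 : ℝ) • innerSL ℝ w) (L X) +
      2 * inner ℝ (w - A y) (A X) + 2 * inner ℝ w ((L - (A : E4 →L[ℝ] E4)) X) := by
  have e : (A : E4 →L[ℝ] E4) X = A X := rfl
  simp only [sub_apply, ContinuousLinearMap.comp_apply, smul_apply, innerSL_apply_apply,
    smul_eq_mul, inner_sub_left, inner_sub_right, ← A.inner_map_map y X, e]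
  ring

theorem db_parts {D : E4 →L[ℝ] ℝ} {L : E4 →L[ℝ] E4} {A : E4 ≃ₗᵢ[ℝ] E4} {w : E4} {ε R : ℝ}
    (h1 : ‖D - (2 : ℝ) • innerSL ℝ w‖ ≤ ε) (h2 : ‖L - (A : E4 →L[ℝ] E4)‖ ≤ ε) (hw : ‖w‖ ≤ R)
    (hε : ε ≤ 1) (X : E4) : |(D - (2 : ℝ) • innerSL ℝ w) (L X) +
      2 * inner ℝ w ((L - (A : E4 →L[ℝ] E4)) X)| ≤ (2 + 2 * R) * ε * ‖X‖ := by
  have hε0 : 0 ≤ ε := (norm_nonneg _).trans h1
  have hL : ‖L‖ ≤ 2 := by
    have := norm_add_le (L - (A : E4 →L[ℝ] E4)) (A : E4 →L[ℝ] E4)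
    rw [sub_add_cancel] at this
    linarith [norm_cl_le A]
  have a1 : |(D - (2 : ℝ) • innerSL ℝ w) (L X)| ≤ ε * (2 * ‖X‖) := by
    refine ((D - (2 : ℝ) • innerSL ℝ w).le_opNorm _).trans ?_
    gcongr
    exact (L.le_opNorm X).trans (by gcongr)
  have a2 : |inner ℝ w ((L - (A : E4 →L[ℝ] E4)) X)| ≤ R * (ε * ‖X‖) := by
    refine (abs_real_inner_le_norm _ _).trans ?_
    gcongr
    · exact (norm_nonneg _).trans hw
    · exact ((L - (A : E4 →L[ℝ] E4)).le_opNorm X).trans (by gcongr)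
  rw [abs_le] at a1 a2 ⊢
  constructor <;> nlinarith [a1.1, a1.2, a2.1, a2.2]

theorem inj_of_near {L : E4 →L[ℝ] E4} {A : E4 ≃ₗᵢ[ℝ] E4} (h : ‖L - (A : E4 →L[ℝ] E4)‖ ≤ 1 / 2) :
    Function.Injective L := by
  refine (injective_iff_map_eq_zero L).2 fun X hX => ?_
  have h1 := (L - (A : E4 →L[ℝ] E4)).le_opNorm X
  have h2 : ‖(L - (A : E4 →L[ℝ] E4)) X‖ = ‖X‖ := by simp [hX]
  have h3 := mul_le_mul_of_nonneg_right h (norm_nonneg X)
  exact norm_eq_zero.1 (by linarith [norm_nonneg X])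

/-- values and derivatives of maps close to orthogonal ones -/
theorem ue_c1 {T : ι → E4 → E4} {A : ι → E4 ≃ₗᵢ[ℝ] E4} {S : ι → Set E4}
    (h : UE l T (fun j y => A j y) S) {ε : ℝ} (hε : 0 < ε) : ∀ᶠ j in l, ∀ y ∈ S j,
      ContDiffAt ℝ ∞ (T j) y ∧ ‖T j y - A j y‖ ≤ ε ∧ ‖fderiv ℝ (T j) y - (A j : E4 →L[ℝ] E4)‖ ≤ ε := by
  have h0 := Metric.tendsto_nhds.1 (GE.val h) ε hε
  have h1 := Metric.tendsto_nhds.1 (GE.fderiv h).val ε hε
  simp only [dist_zero_right, fderiv_lie] at h0 h1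
  filter_upwards [ev_un.1 h0, ev_un.1 h1, ev_un.1 (GE.left h).sm] with j a b c y hy
  exact ⟨c y hy, (a y hy).le, (b y hy).le⟩

/-- composition with an asymptotically orthogonal map -/
theorem Gd.comp (hI : In l g z b κ) (h : Gd l g z b Ψ U) {T : ι → E4 → E4} {A : E4 ≃ₗᵢ[ℝ] E4}
    (hV : IsOpen V) {R r : ℝ} (hR : ∀ y ∈ V, ‖y‖ ≤ R) (hr : 0 < r)
    (hth : ∀ y ∈ V, closedBall (A y) r ⊆ U) (hT : UE l T (fun _ y => A y) fun _ => V) :
    Gd l g z b (fun j y => Ψ j (T j y)) V := by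
  have c1 := fun {ε : ℝ} (hε : 0 < ε) => ue_c1 (A := fun _ => A) hT hε
  have hm : ∀ᶠ j in l, ∀ y ∈ V, T j y ∈ U := (c1 hr).mono fun j hj y hy =>
    hth y hy (by rw [mem_closedBall, dist_eq_norm]; exact (hj y hy).2.1)
  refine ⟨?_, ?_, fun ε hε => ?_, fun ε hε => ?_⟩
  · filter_upwards [h.par, hm, c1 (ε := 1 / 2) (by norm_num)] with j a b c
    exact par_comp a hV (fun y hy => (c y hy).1.contDiffWithinAt) b fun y hy =>
      inj_of_near (c y hy).2.2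
  · refine gc_pull (G' := fun p : ι × E4 => (g p.1).pm (Ψ p.1)) (T := fun p => T p.1)
      (A := fun _ => A) (h.mc.at (un_fst _ _) (ev_un.2 hm)) ?_ (GE.left hT) (ev_un.2 ?_)
    · simpa only [fderiv_lie] using GE.fderiv hT
    · filter_upwards [h.par, hm, c1 one_pos] with j a b c y hy
      filter_upwards [hV.mem_nhds hy] with x hx X Y
      exact pm_comp_bil _ (par_md a (b x hx)) ((c x hx).1.differentiableAt infty_ne) X Y
  · filter_upwards [h.sw (ε / 2) (by positivity), hm, c1 (ε := ε / 2) (by positivity)]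
      with j a b c y hy
    have h1 := abs_le.1 (a _ (b y hy))
    have h2 := abs_le.1 ((abs_norm_sub_norm_le _ _).trans (c y hy).2.1)
    rw [A.norm_map] at h2
    rw [abs_le]; constructor <;> linarith [h1.1, h1.2, h2.1, h2.2]
  · set R' := max R 0
    have hR0 : 0 ≤ R' := le_max_right _ _
    set η := min 1 (ε / (6 + 2 * R')) with hη
    have hη0 : 0 < η := lt_min one_pos (by positivity)
    have hη1 : η ≤ 1 := min_le_left _ _
    have hη2 : (6 + 2 * R') * η ≤ ε := by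
      rw [mul_comm]; exact (le_div_iff₀ (by positivity)).1 (min_le_right _ _)
    filter_upwards [h.db η hη0, hm, c1 hη0, h.par, hI.sm] with j a b c d e y hy
    have hd : DifferentiableAt ℝ (T j) y := (c y hy).1.differentiableAt infty_ne
    have k := (isD_of (Ψ := fun x => Ψ j (T j x)) (par_md d (b y hy)) hd EventuallyEq.rfl).fd e rfl
      ((par_md d (b y hy)).comp y hd.mdifferentiableAt) (par_md d (b y hy))
    rw [k]
    refine ContinuousLinearMap.opNorm_le_bound _ hε.le fun X => ?_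
    have hw : ‖T j y‖ ≤ R' + 1 := by
      have := norm_add_le (T j y - A y) (A y)
      rw [sub_add_cancel, A.norm_map] at this
      linarith [(c y hy).2.1, hR y hy, le_max_left R 0]
    have p1 := abs_le.1 (db_parts (a _ (b y hy)) (c y hy).2.2 hw hη1 X)
    have p2 := abs_le.1 ((abs_real_inner_le_norm (T j y - A y) (A X)).trans
      (mul_le_mul_of_nonneg_right (c y hy).2.1 (norm_nonneg _)))
    rw [A.norm_map] at p2
    have p3 := mul_le_mul_of_nonneg_right hη2 (norm_nonneg X)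
    rw [db_split _ _ A (T j y), Real.norm_eq_abs, abs_le]
    constructor <;> nlinarith [p1.1, p1.2, p2.1, p2.2]

theorem Gd.congr (h : Gd l g z b Ψ U) (e : ∀ᶠ j in l, ∀ y ∈ U, Ψ' j y = Ψ j y) :
    Gd l g z b Ψ' U := by
  have e' : ∀ᶠ j in l, ∀ y ∈ U, Ψ' j =ᶠ[𝓝 y] Ψ j := by
    filter_upwards [e, h.par] with j a c y hy using mem_of_superset (c.isOpen.mem_nhds hy) a
  refine ⟨?_, fun a c => (h.mc a c).congr_left (ev_un.2 ?_), fun ε hε => ?_, fun ε hε => ?_⟩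
  · filter_upwards [e, h.par] with j a c using par_congr c a
  · filter_upwards [e'] with j a' y hy
    exact ⟨rfl, (Met.pm_congr (g j) (a' y hy)).mono fun x hx => by simp only [hx]⟩
  · filter_upwards [e, h.sw ε hε] with j a c y hy
    rw [a y hy]; exact c y hy
  · filter_upwards [e', h.db ε hε] with j a c y hy
    have : (fun x => b j (Ψ' j x)) =ᶠ[𝓝 y] fun x => b j (Ψ j x) :=
      (a y hy).mono fun x hx => by simp only [hx]
    rw [this.fderiv_eq]; exact c y hy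

theorem Gd.union (h : Gd l g z b Ψ U) (h' : Gd l g z b Ψ V) : Gd l g z b Ψ (U ∪ V) := by
  refine ⟨?_, fun a c => GE.cases (fun p : ι × E4 => p.2 ∈ U) ?_ ?_, fun ε hε => ?_, fun ε hε => ?_⟩
  · filter_upwards [h.par, h'.par] with j a c
    exact par_of_local (a.isOpen.union c.isOpen) fun y hy => hy.elim (fun h => ⟨U, h, a⟩)
      fun h => ⟨V, h, c⟩
  · exact h.mc.at ((un_fst _ _).mono_left inf_le_left)
      (eventually_inf_principal.2 (Eventually.of_forall fun _ hp => hp)) a c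
  · exact h'.mc.at ((un_fst _ _).mono_left inf_le_left)
      (eventually_inf_principal.2 ((un_mem _ _).mono fun _ hp hq => hp.resolve_left hq)) a c
  · filter_upwards [h.sw ε hε, h'.sw ε hε] with j a c y hy using hy.elim (a y) (c y)
  · filter_upwards [h.db ε hε, h'.db ε hε] with j a c y hy using hy.elim (a y) (c y)

/-- two preimages of the same point differ by an orthogonal map -/
theorem Gd.base {𝒰 : Ultrafilter ι} (hI : In 𝒰 g z b κ) (h : Gd 𝒰 g z b Ψ U)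
    (h' : Gd 𝒰 g z b Ψ' U') {y y' : ι → E4} {R : ℝ}
    (hy : ∀ᶠ j in (𝒰 : Filter ι), y j ∈ U ∧ y' j ∈ U' ∧ ‖y' j‖ ≤ R ∧ Ψ' j (y' j) = Ψ j (y j)) :
    ∃ A : E4 ≃ₗᵢ[ℝ] E4, ∀ ε > 0, ∀ᶠ j in (𝒰 : Filter ι), ∃ L, IsD (Ψ j) (Ψ' j) (y j) (y' j) L ∧
      ‖y' j - A (y j)‖ ≤ ε ∧ ‖L - (A : E4 →L[ℝ] E4)‖ ≤ ε := by
  have h1 : ∀ᶠ j in (𝒰 : Filter ι), ∃ L, IsD (Ψ j) (Ψ' j) (y j) (y' j) L := by
    filter_upwards [hy, h.par, h'.par] with j a c d using exists_isD c d a.1 a.2.1 a.2.2.2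
  obtain ⟨L, hL⟩ := h1.choice
  obtain ⟨A, hA⟩ := exists_orth 𝒰 (L := L) (h.mc.at tendsto_id (hy.mono fun _ a => a.1))
    (h'.mc.at tendsto_id (hy.mono fun _ a => a.2.1)) (by
      filter_upwards [hL, hy] with j a c using a.bil (g j) c.2.2.2)
  refine ⟨A, fun ε hε => ?_⟩
  set R' := max R 0
  have hR0 : 0 ≤ R' := le_max_right _ _
  set η := min 1 (ε / (3 + 2 * R')) with hη
  have hη0 : 0 < η := lt_min one_pos (by positivity)
  have hη1 : η ≤ 1 := min_le_left _ _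
  have hη2 : (3 + 2 * R') * η ≤ ε := by
    rw [mul_comm]; exact (le_div_iff₀ (by positivity)).1 (min_le_right _ _)
  filter_upwards [hL, hy, h.db η hη0, h'.db η hη0, Metric.tendsto_nhds.1 hA η hη0, h.par, h'.par,
    hI.sm] with j a c d d' e p p' s
  rw [dist_eq_norm] at e
  refine ⟨L j, a, ?_, by nlinarith⟩
  have k := d _ c.1
  rw [a.fd s c.2.2.2 (par_md p c.1) (par_md p' c.2.1)] at k
  set X := A.symm (y' j - A (y j)) with hX
  have p1 := abs_le.1 (db_parts (d' _ c.2.1) e.le (c.2.2.1.trans (le_max_left R 0)) hη1 X)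
  have p2 := abs_le.1 ((ContinuousLinearMap.le_opNorm _ X).trans
    (mul_le_mul_of_nonneg_right k (norm_nonneg X)))
  rw [db_split _ _ A (y' j), hX, A.apply_symm_apply, real_inner_self_eq_norm_sq] at p2
  rw [hX] at p1
  rw [A.symm.norm_map] at p1 p2
  by_contra hc
  have hc' := not_le.1 hc
  have q : 2 * ‖y' j - A (y j)‖ ^ 2 ≤ (3 + 2 * R') * η * ‖y' j - A (y j)‖ := by
    nlinarith [p1.1, p2.2]
  nlinarith [mul_le_mul_of_nonneg_right hη2 (norm_nonneg (y' j - A (y j)))]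

end Crest.Agent.N207.Gs

end
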