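import Mathlib

/-!
# Row 207, block G (helper93): scale invariant jet bounds of finite order
-/

set_option autoImplicit false

open scoped ContDiff Topology Nat
open Set Filter

noncomputable section

namespace Crest.Agent.N207.G

variable {X Y Z W : Type} [NormedAddCommGroup X] [NormedSpace ℝ X] [NormedAddCommGroup Y]
  [NormedSpace ℝ Y] [NormedAddCommGroup Z] [NormedSpace ℝ Z] [NormedAddCommGroup W]
  [NormedSpace ℝ W]

/-- smooth at `x`, with derivatives of order `≤ m` at scale `s` at most `c` -/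
structure JB (m : ℕ) (f : X → Y) (x : X) (s c : ℝ) : Prop where
  sm : ContDiffAt ℝ ∞ f x
  bd : ∀ k ≤ m, ‖iteratedFDeriv ℝ k f x‖ * s ^ k ≤ c

variable {m : ℕ} {f f' : X → Y} {x : X} {s c c' : ℝ}

theorem kle (k : ℕ) : (k : WithTop ℕ∞) ≤ ∞ := by exact_mod_cast le_top

theorem exists_open (hf : ContDiffAt ℝ ∞ f x) (k : ℕ) :
    ∃ u, IsOpen u ∧ x ∈ u ∧ ContDiffOn ℝ k f u := by
  obtain ⟨u, hu, h⟩ := hf.contDiffOn (kle k) (by simp)
  exact ⟨interior u, isOpen_interior, mem_interior_iff_mem_nhds.2 hu, h.mono interior_subset⟩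

theorem JB.val (h : JB m f x s c) : ‖f x‖ ≤ c := by
  simpa [norm_iteratedFDeriv_zero] using h.bd 0 (Nat.zero_le _)

theorem JB.nonneg (h : JB m f x s c) : 0 ≤ c := (norm_nonneg _).trans h.val

theorem JB.mono (h : JB m f x s c) (hc : c ≤ c') : JB m f x s c' :=
  ⟨h.sm, fun k hk => (h.bd k hk).trans hc⟩

theorem JB.of_le {m' : ℕ} (h : JB m f x s c) (hm : m' ≤ m) : JB m' f x s c :=
  ⟨h.sm, fun k hk => h.bd k (hk.trans hm)⟩

theorem JB.congr (h : JB m f x s c) (e : f' =ᶠ[𝓝 x] f) : JB m f' x s c :=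
  ⟨h.sm.congr_of_eventuallyEq e, fun k hk => by
    rw [(e.iteratedFDeriv ℝ k).eq_of_nhds]; exact h.bd k hk⟩

theorem JB.scale (h : JB m f x s c) {s' l : ℝ} (hs : 0 ≤ s) (h0 : 0 ≤ s') (hl : 1 ≤ l)
    (h1 : s' ≤ l * s) : JB m f x s' (l ^ m * c) := by
  refine ⟨h.sm, fun k hk => ?_⟩
  calc _ ≤ ‖iteratedFDeriv ℝ k f x‖ * (l * s) ^ k := by gcongr
    _ = l ^ k * (‖iteratedFDeriv ℝ k f x‖ * s ^ k) := by rw [mul_pow]; ring
    _ ≤ l ^ m * c := by
      have := h.bd k hk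
      have h2 := pow_le_pow_right₀ hl hk
      exact mul_le_mul h2 this (by positivity) (by positivity)

theorem JB.add (hs : 0 ≤ s) (h : JB m f x s c) (h' : JB m f' x s c') :
    JB m (fun y => f y + f' y) x s (c + c') := by
  refine ⟨h.sm.add h'.sm, fun k hk => ?_⟩
  have e := iteratedFDeriv_add_apply (i := k) (h.sm.of_le (kle k)) (h'.sm.of_le (kle k))
  rw [show (fun y => f y + f' y) = f + f' from rfl, e]
  calc _ ≤ (‖iteratedFDeriv ℝ k f x‖ + ‖iteratedFDeriv ℝ k f' x‖) * s ^ k := by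
        gcongr; exact norm_add_le _ _
    _ ≤ c + c' := by rw [add_mul]; exact add_le_add (h.bd k hk) (h'.bd k hk)

theorem JB.const (v : Y) (hc : ‖v‖ ≤ c) : JB m (fun _ : X => v) x s c := by
  refine ⟨contDiffAt_const, fun k _ => ?_⟩
  rcases Nat.eq_zero_or_pos k with rfl | hk
  · simpa [norm_iteratedFDeriv_zero] using hc
  · rw [iteratedFDeriv_const_of_ne hk.ne']
    simpa using (norm_nonneg _).trans hc

theorem JB.sum {α : Type} (t : Finset α) (hs : 0 ≤ s) {w : α → X → Y}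
    (h : ∀ a ∈ t, JB m (w a) x s c) : JB m (fun y => ∑ a ∈ t, w a y) x s (t.card * c) := by
  classical
  induction t using Finset.induction_on with
  | empty => simpa using JB.const (0 : Y) (c := 0) (by simp)
  | insert a t ha ih =>
    simp only [Finset.sum_insert ha, Finset.card_insert_of_notMem ha]
    refine (JB.add hs (h a (by simp)) (ih fun b hb => h b (by simp [hb]))).mono (le_of_eq ?_)
    push_cast; ring

theorem JB.clm (L : Y →L[ℝ] Z) (hs : 0 ≤ s) (h : JB m f x s c) {l : ℝ} (hl : ‖L‖ ≤ l) :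
    JB m (fun y => L (f y)) x s (l * c) := by
  refine ⟨L.contDiff.contDiffAt.comp x h.sm, fun k hk => ?_⟩
  have := L.norm_iteratedFDeriv_comp_left h.sm (kle k)
  calc _ ≤ ‖L‖ * ‖iteratedFDeriv ℝ k f x‖ * s ^ k := by gcongr; exact this
    _ = ‖L‖ * (‖iteratedFDeriv ℝ k f x‖ * s ^ k) := by ring
    _ ≤ l * c := mul_le_mul hl (h.bd k hk) (by positivity) ((norm_nonneg _).trans hl)

theorem JB.bil (B : Y →L[ℝ] Z →L[ℝ] W) (hB : ‖B‖ ≤ 1) (hs : 0 ≤ s) {g : X → Z} (h : JB m f x s c)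
    (h' : JB m g x s c') : JB m (fun y => B (f y) (g y)) x s (2 ^ m * (c * c')) := by
  refine ⟨(B.contDiff.contDiffAt.comp x h.sm).clm_apply h'.sm, fun k hk => ?_⟩
  obtain ⟨u, hu, hxu, h1⟩ := exists_open h.sm k
  obtain ⟨v, hv, hxv, h2⟩ := exists_open h'.sm k
  have ho := hu.inter hv
  have hx : x ∈ u ∩ v := ⟨hxu, hxv⟩
  have := B.norm_iteratedFDerivWithin_le_of_bilinear_of_le_one (h1.mono inter_subset_left)
    (h2.mono inter_subset_right) ho.uniqueDiffOn hx le_rfl hB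
  simp only [iteratedFDerivWithin_of_isOpen _ ho hx] at this
  have hc := h.nonneg
  have hc' := h'.nonneg
  calc _ ≤ (∑ i ∈ Finset.range (k + 1), (k.choose i : ℝ) * ‖iteratedFDeriv ℝ i f x‖ *
        ‖iteratedFDeriv ℝ (k - i) g x‖) * s ^ k := by gcongr
    _ = ∑ i ∈ Finset.range (k + 1), (k.choose i : ℝ) * ((‖iteratedFDeriv ℝ i f x‖ * s ^ i) *
        (‖iteratedFDeriv ℝ (k - i) g x‖ * s ^ (k - i))) := by
      rw [Finset.sum_mul]
      refine Finset.sum_congr rfl fun i hi => ?_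
      have : s ^ k = s ^ i * s ^ (k - i) := by
        rw [← pow_add, Nat.add_sub_cancel' (Nat.lt_succ_iff.1 (Finset.mem_range.1 hi))]
      rw [this]; ring
    _ ≤ ∑ i ∈ Finset.range (k + 1), (k.choose i : ℝ) * (c * c') := by
      refine Finset.sum_le_sum fun i hi => ?_
      have hi' := Nat.lt_succ_iff.1 (Finset.mem_range.1 hi)
      gcongr
      · exact h.bd i (hi'.trans hk)
      · exact h'.bd _ ((Nat.sub_le _ _).trans hk)
    _ = 2 ^ k * (c * c') := by
      rw [← Finset.sum_mul, ← Nat.cast_sum, Nat.sum_range_choose]; push_cast; ring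
    _ ≤ _ := by gcongr; norm_num

theorem JB.smul (hs : 0 ≤ s) {u : X → ℝ} (h : JB m u x s c) (h' : JB m f x s c') :
    JB m (fun y => u y • f y) x s (2 ^ m * (c * c')) :=
  JB.bil (ContinuousLinearMap.lsmul ℝ ℝ) ContinuousLinearMap.opNorm_lsmul_le hs h h'

theorem JB.mul (hs : 0 ≤ s) {u v : X → ℝ} (h : JB m u x s c) (h' : JB m v x s c') :
    JB m (fun y => u y * v y) x s (2 ^ m * (c * c')) := JB.smul hs h h'

theorem JB.fderiv (hs : 0 < s) (h : JB (m + 1) f x s (c * s)) : JB m (fderiv ℝ f) x s c := by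
  refine ⟨h.sm.fderiv_right (m := ∞) (by simp), fun k hk => ?_⟩
  rw [norm_iteratedFDeriv_fderiv]
  have := h.bd (k + 1) (by omega)
  rw [pow_succ, ← mul_assoc] at this
  exact le_of_mul_le_mul_right this hs

theorem norm_comp_equiv (L : X ≃L[ℝ] Z) (g : Z → Y) (y : X) (k : ℕ) :
    ‖iteratedFDeriv ℝ k (fun w => g (L w)) y‖ ≤
      ‖iteratedFDeriv ℝ k g (L y)‖ * ‖(L : X →L[ℝ] Z)‖ ^ k := by
  have := L.iteratedFDerivWithin_comp_right g uniqueDiffOn_univ (mem_univ (L y)) k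
  simp only [preimage_univ, iteratedFDerivWithin_univ] at this
  rw [show (fun w => g (L w)) = g ∘ L from rfl, this]
  simpa using ContinuousMultilinearMap.norm_compContinuousLinearMap_le
    (iteratedFDeriv ℝ k g (L y)) fun _ : Fin k => (L : X →L[ℝ] Z)

theorem norm_comp_smul (g : X → Y) {a : ℝ} (ha : 0 < a) (y : X) (k : ℕ) :
    ‖iteratedFDeriv ℝ k (fun w => g (a • w)) y‖ ≤ ‖iteratedFDeriv ℝ k g (a • y)‖ * a ^ k := by
  let L : X ≃L[ℝ] X := ContinuousLinearEquiv.smulLeft (Units.mk0 a ha.ne')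
  refine (norm_comp_equiv L g y k).trans ?_
  have : ‖(L : X →L[ℝ] X)‖ ≤ a := ContinuousLinearMap.opNorm_le_bound _ ha.le fun w => by
    change ‖a • w‖ ≤ _
    rw [norm_smul, Real.norm_of_nonneg ha.le]
  change ‖iteratedFDeriv ℝ k g (a • y)‖ * _ ≤ _
  gcongr

/-- passage to unit scale -/
theorem JB.unit (hs : 0 < s) {y : X} (h : JB m f (s • y) s c) :
    JB m (fun w => f (s • w)) y 1 c :=
  ⟨h.sm.comp y (by fun_prop), fun k hk => by
    rw [one_pow, mul_one]; exact (norm_comp_smul f hs y k).trans (h.bd k hk)⟩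

theorem JB.of_unit (hs : 0 < s) (h : JB m f (s⁻¹ • x) 1 c) :
    JB m (fun w => f (s⁻¹ • w)) x s c :=
  ⟨h.sm.comp x (by fun_prop), fun k hk => by
    have h1 := norm_comp_smul f (inv_pos.2 hs) x k
    have h2 := h.bd k hk
    rw [one_pow, mul_one] at h2
    calc _ ≤ ‖iteratedFDeriv ℝ k f (s⁻¹ • x)‖ * s⁻¹ ^ k * s ^ k := by gcongr
      _ = _ := by rw [mul_assoc, ← mul_pow, inv_mul_cancel₀ hs.ne', one_pow, mul_one]
      _ ≤ c := h2⟩

theorem JB.iso (A : X ≃ₗᵢ[ℝ] Z) {g : Z → Y} (h : JB m g (A x) s c) :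
    JB m (fun y => g (A y)) x s c :=
  ⟨h.sm.comp x A.contDiff.contDiffAt, fun k hk => by
    rw [show (fun y => g (A y)) = g ∘ A from rfl, A.norm_iteratedFDeriv_comp_right]
    exact h.bd k hk⟩

theorem JB.comp1 {g : Y → Z} {D : ℝ} (hD : 1 ≤ D) (h : JB m g (f x) 1 c) (hf : ContDiffAt ℝ ∞ f x)
    (hd : ∀ i, 1 ≤ i → i ≤ m → ‖iteratedFDeriv ℝ i f x‖ ≤ D) :
    JB m (fun y => g (f y)) x 1 (m ! * D ^ m * c) := by
  refine ⟨h.sm.comp x hf, fun k hk => ?_⟩
  obtain ⟨t, ht, hxt, h1⟩ := exists_open h.sm k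
  obtain ⟨u, hu, hxu, h2⟩ := exists_open hf k
  have ho : IsOpen (u ∩ f ⁻¹' t) := h2.continuousOn.isOpen_inter_preimage hu ht
  have hx : x ∈ u ∩ f ⁻¹' t := ⟨hxu, hxt⟩
  have := norm_iteratedFDerivWithin_comp_le h1 (h2.mono inter_subset_left) le_rfl ht.uniqueDiffOn
    ho.uniqueDiffOn (fun _ hy => hy.2) hx (C := c) (D := D) (fun i hi => by
      rw [iteratedFDerivWithin_of_isOpen _ ht hxt]
      simpa using h.bd i (hi.trans hk)) fun i h1 hi => by
      rw [iteratedFDerivWithin_of_isOpen _ ho hx]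
      exact (hd i h1 (hi.trans hk)).trans (le_self_pow₀ hD (by omega))
  rw [iteratedFDerivWithin_of_isOpen _ ho hx] at this
  rw [one_pow, mul_one]
  refine this.trans ?_
  have hc := h.nonneg
  calc (k ! : ℝ) * c * D ^ k = k ! * D ^ k * c := by ring
    _ ≤ _ := by gcongr

/-- chain rule: the derivative of the inner function is bounded by `D` -/
theorem JB.comp (hs : 0 < s) {g : Y → Z} {D : ℝ} (hD : 1 ≤ D) (h : JB (m + 1) g (f x) s c)
    (hf : ContDiffAt ℝ ∞ f x) (hd : JB m (_root_.fderiv ℝ f) x s D) :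
    JB (m + 1) (fun y => g (f y)) x s ((m + 1)! * D ^ (m + 1) * c) := by
  have e0 : s • s⁻¹ • x = x := smul_inv_smul₀ hs.ne' x
  have hf' : ContDiffAt ℝ ∞ (fun w => f (s • w)) (s⁻¹ • x) :=
    ContDiffAt.comp (g := f) (f := fun w => s • w) _ (by rw [e0]; exact hf) (by fun_prop)
  have h1 : JB (m + 1) (fun w => g (s • w)) ((fun w => s⁻¹ • f (s • w)) (s⁻¹ • x)) 1 c := by
    apply JB.unit hs
    simpa only [smul_inv_smul₀ hs.ne'] using h
  have h2 := JB.comp1 (f := fun w => s⁻¹ • f (s • w)) (x := s⁻¹ • x) hD h1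
      (hf'.const_smul s⁻¹) fun i hi him => by
    rw [iteratedFDeriv_const_smul_apply' (hf'.of_le (kle i)), norm_smul, norm_inv,
      Real.norm_of_nonneg hs.le]
    obtain ⟨j, rfl⟩ := Nat.exists_eq_add_of_le' hi
    have h3 := norm_comp_smul f hs (s⁻¹ • x) (j + 1)
    have h4 := hd.bd j (by omega)
    rw [e0] at h3
    rw [norm_iteratedFDeriv_fderiv] at h4
    rw [inv_mul_le_iff₀ hs]
    calc _ ≤ _ := h3
      _ = s * (‖iteratedFDeriv ℝ (j + 1) f x‖ * s ^ j) := by ring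
      _ ≤ s * D := by gcongr
  simpa only [smul_inv_smul₀ hs.ne'] using JB.of_unit hs h2

/-- a fixed smooth function, rescaled -/
theorem exists_jb_fixed [FiniteDimensional ℝ X] {ψ : X → Y} (hψ : ContDiff ℝ ∞ ψ) (m : ℕ) (R : ℝ) :
    ∃ C, 1 ≤ C ∧ ∀ s > 0, ∀ x : X, ‖x‖ ≤ R * s → JB m (fun y => ψ (s⁻¹ • y)) x s C := by
  have : ProperSpace X := FiniteDimensional.proper_real X
  have h : ∀ k : ℕ, ∃ C, ∀ y ∈ Metric.closedBall (0 : X) R, ‖iteratedFDeriv ℝ k ψ y‖ ≤ C :=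
    fun k => (isCompact_closedBall (0 : X) R).exists_bound_of_continuousOn
      (hψ.continuous_iteratedFDeriv (kle k)).continuousOn
  choose C hC using h
  refine ⟨1 + ∑ k ∈ Finset.range (m + 1), |C k|, le_add_of_nonneg_right (by positivity),
    fun s hs x hx => JB.of_unit hs ⟨hψ.contDiffAt, fun k hk => ?_⟩⟩
  rw [one_pow, mul_one]
  have h1 := hC k (s⁻¹ • x) (by
    rw [mem_closedBall_zero_iff, norm_smul, norm_inv, Real.norm_of_nonneg hs.le,
      inv_mul_le_iff₀ hs]; linarith)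
  have h2 := Finset.single_le_sum (f := fun k => |C k|) (fun _ _ => abs_nonneg _)
    (Finset.mem_range.2 (Nat.lt_succ_of_le hk))
  linarith [le_abs_self (C k)]

end Crest.Agent.N207.G

end
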