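import Crest.Agent.N207.G.Ch
import Crest.Agent.N207.G.Jb

/-!
# Row 207, block G (helper93): jets of pulled back metrics
-/

set_option autoImplicit false
set_option linter.unusedSectionVars false

open scoped ContDiff Manifold Topology Nat
open Set Filter
open Crest.GeometryTopology.CoordMetric

noncomputable section

namespace Crest.Agent.N207.G

open Sk

/-- basis vectors -/
abbrev ee (i : Fin 4) : E4 := EuclideanSpace.single i (1 : ℝ)

theorem jb_of_jg {m : ℕ} {G : MetricField 4} {x : E4} {s c : ℝ}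
    (hs : ∀ i j, ContDiffAt ℝ ∞ (fun y => G y i j) x) (h : JG m G x s c) (i j : Fin 4) :
    JB m (dv G i j) x s c :=
  ⟨(hs i j).sub contDiffAt_const, fun k hk => h k hk i j⟩

theorem jg_of_jb {m : ℕ} {G : MetricField 4} {x : E4} {s c : ℝ}
    (h : ∀ i j, JB m (dv G i j) x s c) : JG m G x s c := fun k hk i j => (h i j).bd k hk

theorem jg_mono {m : ℕ} {G : MetricField 4} {x : E4} {s c c' : ℝ} (h : JG m G x s c)
    (hc : c ≤ c') : JG m G x s c' := fun k hk i j => (h k hk i j).trans hc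

theorem jg_of_le {m m' : ℕ} {G : MetricField 4} {x : E4} {s c : ℝ} (h : JG m G x s c)
    (hm : m' ≤ m) : JG m' G x s c := fun k hk i j => h k (hk.trans hm) i j

theorem jg_congr {m : ℕ} {G G' : MetricField 4} {x : E4} {s c : ℝ} (h : JG m G x s c)
    (e : G' =ᶠ[𝓝 x] G) : JG m G' x s c := fun k hk i j => by
  have e' : dv G' i j =ᶠ[𝓝 x] dv G i j := e.mono fun y hy => by simp only [dv, hy]
  unfold J1
  rw [(e'.iteratedFDeriv ℝ k).eq_of_nhds]
  exact h k hk i j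

theorem jb_coord {m : ℕ} {f : E4 → E4 →L[ℝ] E4} {x : E4} {s c : ℝ} (hs : 0 ≤ s)
    (h : JB m f x s c) (i a : Fin 4) : JB m (fun y => f y (ee i) a) x s c := by
  have h1 := h.clm (ContinuousLinearMap.apply ℝ E4 (ee i)) hs (l := 1)
    (ContinuousLinearMap.opNorm_le_bound _ zero_le_one fun L => by
      simpa using L.le_opNorm (ee i))
  have h2 := h1.clm (EuclideanSpace.proj a : E4 →L[ℝ] ℝ) hs (l := 1)
    (ContinuousLinearMap.opNorm_le_bound _ zero_le_one fun v => by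
      simpa using PiLp.norm_apply_le v a)
  simpa using h2

theorem jg_pull {m : ℕ} {G G' : MetricField 4} {T : E4 → E4} {x : E4} {s δ δ' D : ℝ} (hs : 0 < s)
    (hD : 1 ≤ D) (hG : ∀ a b, JB (m + 1) (dv G a b) (T x) s δ) (hT : ContDiffAt ℝ ∞ T x)
    (hd : JB (m + 1) (fderiv ℝ T) x s D)
    (ho : ∀ i j, JB (m + 1) (fun y => (∑ a, fderiv ℝ T y (ee i) a * fderiv ℝ T y (ee j) a) -
      (1 : Matrix (Fin 4) (Fin 4) ℝ) i j) x s δ')
    (e : ∀ᶠ y in 𝓝 x, ∀ i j, G' y i j =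
      ∑ a, ∑ b, G (T y) a b * fderiv ℝ T y (ee i) a * fderiv ℝ T y (ee j) b) (i j : Fin 4) :
    JB (m + 1) (dv G' i j) x s
      (4 * (4 * (2 ^ (m + 1) * (2 ^ (m + 1) * ((m + 1)! * D ^ (m + 1) * δ * D) * D))) + δ') := by
  have h1 := fun a b => ((JB.comp hs hD (hG a b) hT (hd.of_le (Nat.le_succ m))).mul hs.le
    (jb_coord hs.le hd i a)).mul hs.le (jb_coord hs.le hd j b)
  have h2 := (JB.sum Finset.univ hs.le fun a _ => JB.sum Finset.univ hs.le fun b _ => h1 a b).add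
    hs.le (ho i j)
  simp only [Finset.card_univ, Fintype.card_fin, Nat.cast_ofNat] at h2
  refine h2.congr (e.mono fun y hy => ?_)
  simp only [dv, hy i j, sub_mul, Finset.sum_sub_distrib, Matrix.one_apply, ite_mul, one_mul,
    zero_mul, Finset.sum_ite_eq, Finset.mem_univ, if_true]
  ring

theorem inner_ee (v w : E4) : ∑ a, v a * w a = inner ℝ v w := by
  rw [PiLp.inner_apply]
  exact Finset.sum_congr rfl fun a _ => by simp [mul_comm]

theorem inner_ee_ee (i j : Fin 4) :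
    inner ℝ (ee i) (ee j) = (1 : Matrix (Fin 4) (Fin 4) ℝ) i j := by
  rw [← inner_ee]
  simp [Matrix.one_apply, eq_comm]

variable {M : Type*} [TopologicalSpace M] [ChartedSpace E4 M] [IsManifold 𝓘(ℝ, E4) ∞ M]
  [T3Space M] [ConnectedSpace M]

theorem pm_smooth (g : Met 4 M) {Ψ : E4 → M} {U : Set E4} (h : Par Ψ U) {x : E4} (hx : x ∈ U)
    (i j : Fin 4) : ContDiffAt ℝ ∞ (fun y => g.pm Ψ y i j) x :=
  ((Gs.par_riem g h).contDiffOn i j).contDiffAt (h.isOpen.mem_nhds hx)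

theorem pm_ev (g : Met 4 M) {Ψ : E4 → M} {U : Set E4} (h : Par Ψ U) {T : E4 → E4} {x : E4}
    (hT : ContDiffAt ℝ ∞ T x) (hx : T x ∈ U) : ∀ᶠ y in 𝓝 x, ∀ i j, g.pm (fun w => Ψ (T w)) y i j =
      ∑ a, ∑ b, g.pm Ψ (T y) a b * fderiv ℝ T y (ee i) a * fderiv ℝ T y (ee j) b := by
  filter_upwards [hT.continuousAt.eventually (h.isOpen.mem_nhds hx),
    (hT.of_le (kle 1)).eventually (by simp)] with y h1 h2 i j
  exact Gs.pm_comp g (Gs.par_md h h1) (h2.differentiableAt (by simp)) i j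

theorem pm_ev_congr (g : Met 4 M) {Ψ Ψ' : E4 → M} {x : E4} (e : Ψ' =ᶠ[𝓝 x] Ψ) :
    g.pm Ψ' =ᶠ[𝓝 x] g.pm Ψ := e.eventually_nhds.mono fun _ hy => Gs.pm_congr g hy

/-- rotation of a chart -/
theorem jg_rot (m : ℕ) : ∃ C, 1 ≤ C ∧ ∀ (g : Met 4 M) (Ψ : E4 → M) (U : Set E4)
    (A : E4 ≃ₗᵢ[ℝ] E4) (x : E4) (s δ : ℝ), Par Ψ U → A x ∈ U → 0 < s →
    JG (m + 1) (g.pm Ψ) (A x) s δ → JG (m + 1) (g.pm fun y => Ψ (A y)) x s (C * δ) := by
  refine ⟨4 * (4 * (2 ^ (m + 1) * (2 ^ (m + 1) * (m + 1)!))), ?_,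
    fun g Ψ U A x s δ h hx hs hJ => jg_of_jb fun i j => ?_⟩
  · have h1 : (1 : ℝ) ≤ (m + 1)! := by exact_mod_cast Nat.factorial_pos _
    have h2 : (1 : ℝ) ≤ 2 ^ (m + 1) := one_le_pow₀ (by norm_num)
    have h3 := one_le_mul_of_one_le_of_one_le h2 (one_le_mul_of_one_le_of_one_le h2 h1)
    linarith
  have hf : fderiv ℝ (fun y => A y) = fun _ => (A.toContinuousLinearEquiv : E4 →L[ℝ] E4) :=
    funext fun y => A.toContinuousLinearEquiv.fderiv
  have := jg_pull (T := fun y => A y) (δ' := 0) hs le_rfl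
    (jb_of_jg (pm_smooth g h hx) hJ) A.contDiff.contDiffAt
    (by rw [hf]; exact JB.const _ A.toLinearIsometry.norm_toContinuousLinearMap_le)
    (fun i j => by
      rw [hf]
      refine JB.const _ (le_of_eq ?_)
      rw [inner_ee, norm_eq_zero, sub_eq_zero, ← inner_ee_ee]
      exact A.inner_map_map _ _)
    (pm_ev g h A.contDiff.contDiffAt hx) i j
  exact this.mono (le_of_eq (by ring))

/-- perturbation of a chart -/
theorem jg_pert (m : ℕ) : ∃ C, 1 ≤ C ∧ ∀ (g : Met 4 M) (Ψ : E4 → M) (U : Set E4)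
    (P : E4 → E4) (x : E4) (s δ : ℝ), Par Ψ U → x + P x ∈ U → 0 < s → δ ≤ 1 →
    JG (m + 1) (g.pm Ψ) (x + P x) s δ → JB (m + 2) P x s (δ * s) →
    JG (m + 1) (g.pm fun y => Ψ (y + P y)) x s (C * δ) := by
  refine ⟨4 * (4 * (2 ^ (m + 1) * (2 ^ (m + 1) * ((m + 1)! * 2 ^ (m + 1) * 2) * 2))) +
    (2 + 4 * 2 ^ (m + 1)), ?_, fun g Ψ U P x s δ h hx hs hδ hJ hP => jg_of_jb fun i j => ?_⟩
  · have : (0 : ℝ) ≤ 4 * (4 * (2 ^ (m + 1) * (2 ^ (m + 1) * ((m + 1)! * 2 ^ (m + 1) * 2) * 2))) :=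
      by positivity
    have : (0 : ℝ) ≤ 4 * 2 ^ (m + 1) := by positivity
    linarith
  have hdP := JB.fderiv hs hP
  have h0 := hdP.nonneg
  have hT : ContDiffAt ℝ ∞ (fun y => y + P y) x := contDiffAt_id.add hP.sm
  have hf : fderiv ℝ (fun y => y + P y) =ᶠ[𝓝 x]
      fun y => ContinuousLinearMap.id ℝ E4 + fderiv ℝ P y := by
    filter_upwards [(hP.sm.of_le (kle 1)).eventually (by simp)] with y hy
    exact ((hasFDerivAt_id y).add (hy.differentiableAt (by simp)).hasFDerivAt).fderiv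
  have hd : JB (m + 1) (fderiv ℝ fun y => y + P y) x s 2 :=
    (((JB.const _ ContinuousLinearMap.norm_id_le).add hs.le hdP).mono (by linarith)).congr hf
  have := jg_pull (T := fun y => y + P y) (δ' := δ + δ + 4 * (2 ^ (m + 1) * (δ * δ))) hs
    one_le_two (jb_of_jg (pm_smooth g h hx) hJ) hT hd (fun i j => by
      have h1 := ((jb_coord hs.le hdP j i).add hs.le (jb_coord hs.le hdP i j)).add hs.le
        (JB.sum Finset.univ hs.le fun a _ =>
          (jb_coord hs.le hdP i a).mul hs.le (jb_coord hs.le hdP j a))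
      simp only [Finset.card_univ, Fintype.card_fin, Nat.cast_ofNat] at h1
      refine h1.congr (hf.mono fun y hy => ?_)
      simp only [hy, add_apply, ContinuousLinearMap.id_apply, PiLp.add_apply,
        add_mul, mul_add, Finset.sum_add_distrib]
      rw [inner_ee, inner_ee_ee]
      simp
      ring)
    (pm_ev g h hT hx) i j
  refine this.mono ?_
  have : 2 ^ (m + 1) * (δ * δ) ≤ 2 ^ (m + 1) * δ := by
    gcongr; nlinarith
  nlinarith

end Crest.Agent.N207.G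

end
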