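import Crest.Agent.N207.G.Gl1

/-!
# Row 207, block G (helper93): the interpolation between a transition map and an isometry
-/

set_option autoImplicit false
set_option linter.unusedSectionVars false

open scoped ContDiff Manifold Topology Nat
open Set Filter Metric

noncomputable section

namespace Crest.Agent.N207.G

open Sk

/-- the perturbation `P` of the identity, at radius `r` -/
structure Pert (m : ℕ) (P : E4 → E4) (r ε : ℝ) : Prop where
  jb : ∀ x, r / 2 < ‖x‖ → JB m P x r (ε * r)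
  zero : ∀ x, 3 / 2 * r ≤ ‖x‖ → P x = 0

theorem exists_P (m : ℕ) : ∃ C, 1 ≤ C ∧ ∀ (Θ : E4 → E4) (A : E4 ≃ₗᵢ[ℝ] E4) (r ε : ℝ), 0 < r →
    0 ≤ ε → ContDiffOn ℝ ∞ Θ (shell (r / 2) (2 * r)) →
    (∀ x ∈ shell (r / 2) (2 * r), ∀ k ≤ m, J1 k (fun y => Θ y - A y) x r (ε * r)) →
    ∃ P : E4 → E4, Pert m P r (C * ε) ∧ (∀ x ∈ shell (r / 2) r, A (x + P x) = Θ x) ∧
      ∀ γ γ' : E4 ≃ₗᵢ[ℝ] E4, (∀ x, A (γ x) = γ' (A x)) →
        (∀ x ∈ shell (r / 2) (2 * r), Θ (γ x) = γ' (Θ x)) →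
        ∀ x, r / 2 < ‖x‖ → P (γ x) = γ (P x) := by
  set χ : E4 → ℝ := fun y => Real.smoothTransition (2 - ‖y‖ ^ 2) with hχ
  have hs : ContDiff ℝ ∞ χ :=
    Real.smoothTransition.contDiff.comp (contDiff_const.sub (contDiff_norm_sq ℝ))
  obtain ⟨C, hC, hb⟩ := exists_jb_fixed hs m 2
  have h2 : (1 : ℝ) ≤ 2 ^ m := one_le_pow₀ (by norm_num)
  refine ⟨2 ^ m * C, one_le_mul_of_one_le_of_one_le h2 hC, fun Θ A r ε hr hε hΘ hJ => ?_⟩
  have hn : ∀ x : E4, ‖r⁻¹ • x‖ = ‖x‖ / r := fun x => by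
    rw [norm_smul, norm_inv, Real.norm_of_nonneg hr.le, div_eq_inv_mul]
  have h0 : ∀ x : E4, 29 / 20 * r ≤ ‖x‖ → χ (r⁻¹ • x) = 0 := fun x hx => by
    refine Real.smoothTransition.zero_of_nonpos ?_
    have : 29 / 20 ≤ ‖x‖ / r := (le_div_iff₀ hr).2 hx
    rw [hn]; nlinarith
  have h1 : ∀ x : E4, ‖x‖ ≤ r → χ (r⁻¹ • x) = 1 := fun x hx => by
    refine Real.smoothTransition.one_of_one_le ?_
    have : ‖x‖ / r ≤ 1 := (div_le_one hr).2 hx
    have h3 : 0 ≤ ‖x‖ / r := by positivity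
    rw [hn]; nlinarith
  refine ⟨fun x => χ (r⁻¹ • x) • A.symm (Θ x - A x), ⟨fun x hx => ?_, fun x hx => ?_⟩,
    fun x hx => ?_, fun γ γ' hA hT x hx => ?_⟩
  · by_cases h : ‖x‖ < 2 * r
    · have hx' : x ∈ shell (r / 2) (2 * r) := ⟨hx, h⟩
      have j1 : JB m (fun y => Θ y - A y) x r (ε * r) :=
        ⟨(hΘ.contDiffAt ((isOpen_shell _ _).mem_nhds hx')).sub A.contDiff.contDiffAt, hJ x hx'⟩
      have j2 := j1.clm (A.symm.toContinuousLinearEquiv : E4 →L[ℝ] E4) hr.le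
        A.symm.toLinearIsometry.norm_toContinuousLinearMap_le
      exact ((hb r hr x h.le).smul hr.le j2).mono (le_of_eq (by ring))
    · refine (JB.const (0 : E4) (by rw [norm_zero]; positivity)).congr ?_
      have : ∀ᶠ y in 𝓝 x, 29 / 20 * r < ‖y‖ :=
        continuous_norm.continuousAt.eventually (lt_mem_nhds (by linarith))
      filter_upwards [this] with y hy
      rw [h0 y hy.le, zero_smul]
  · simp only [h0 x (by linarith), zero_smul]
  · simp only [h1 x hx.2.le, one_smul, map_add, A.apply_symm_apply]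
    abel
  · have e : χ (r⁻¹ • γ x) = χ (r⁻¹ • x) := by simp only [hχ, hn, γ.norm_map]
    by_cases h : ‖x‖ < 2 * r
    · simp only [e, map_smul]
      congr 1
      apply A.injective
      rw [A.apply_symm_apply, hA, hA, A.apply_symm_apply, hT x ⟨hx, h⟩, map_sub]
    · simp only [e, h0 x (by linarith), zero_smul, map_zero]

variable {m : ℕ} {P : E4 → E4} {r ε : ℝ}

theorem Pert.of_le {m' : ℕ} (h : Pert m P r ε) (hm : m' ≤ m) : Pert m' P r ε :=
  ⟨fun x hx => (h.jb x hx).of_le hm, h.zero⟩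

theorem Pert.val (h : Pert m P r ε) {x : E4} (hx : r / 2 < ‖x‖) : ‖P x‖ ≤ ε * r := (h.jb x hx).val

theorem Pert.der (h : Pert 1 P r ε) (hr : 0 < r) {x : E4} (hx : r / 2 < ‖x‖) :
    ‖fderiv ℝ P x‖ ≤ ε := (JB.fderiv (m := 0) hr (h.jb x hx)).val

theorem Pert.lip (h : Pert 1 P r ε) (hr : 0 < r) {y x x' : E4} (hy : 3 / 5 * r ≤ ‖y‖)
    (hx : x ∈ ball y (r / 10)) (hx' : x' ∈ ball y (r / 10)) : ‖P x - P x'‖ ≤ ε * ‖x - x'‖ := by
  have hb : ∀ w ∈ ball y (r / 10), r / 2 < ‖w‖ := fun w hw => by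
    have h1 := mem_ball_iff_norm.1 hw
    have h2 := norm_sub_norm_le y w
    rw [norm_sub_rev] at h2
    linarith
  exact (convex_ball y (r / 10)).norm_image_sub_le_of_norm_fderiv_le (𝕜 := ℝ)
    (fun w hw => (h.jb w (hb w hw)).sm.differentiableAt (by simp))
    (fun w hw => h.der hr (hb w hw)) hx' hx

theorem Pert.inj (h : Pert 1 P r ε) (hr : 0 < r) (hε : ε ≤ 1 / 100) {x y : E4}
    (hx : 3 / 5 * r ≤ ‖x‖) (hy : 3 / 5 * r ≤ ‖y‖) (e : x + P x = y + P y) : x = y := by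
  have e1 : x - y = P y - P x := by
    rw [sub_eq_sub_iff_add_eq_add, e, add_comm]
  have h1 : ‖x - y‖ < r / 10 := by
    rw [e1]
    have := norm_sub_le (P y) (P x)
    have h2 := h.val (x := x) (by linarith)
    have h3 := h.val (x := y) (by linarith)
    nlinarith
  have h2 := h.lip hr hy (mem_ball_self (by linarith)) (mem_ball_iff_norm.2 h1)
  rw [← e1, norm_sub_rev y x] at h2
  have h3 : ‖x - y‖ ≤ 0 := by nlinarith [norm_nonneg (x - y)]
  exact sub_eq_zero.1 (norm_le_zero_iff.1 h3)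

theorem Pert.surj (h : Pert 1 P r ε) (hr : 0 < r) (hε : ε ≤ 1 / 100) {y : E4}
    (hy : 3 / 5 * r ≤ ‖y‖) : ∃ x, ‖x - y‖ ≤ r / 20 ∧ x + P x = y := by
  set K : Set E4 := closedBall y (r / 20) with hK
  have hKb : K ⊆ ball y (r / 10) := closedBall_subset_ball (by linarith)
  have hm : MapsTo (fun x => y - P x) K K := fun x hx => by
    have h1 := mem_closedBall_iff_norm.1 hx
    have h2 := norm_sub_norm_le y x
    rw [norm_sub_rev] at h2
    have h3 := h.val (x := x) (by linarith)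
    rw [hK, mem_closedBall_iff_norm, sub_sub_cancel_left, norm_neg]
    nlinarith
  have hc : ContractingWith (1 / 2) (hm.restrict _ K K) := by
    refine ⟨by norm_num, LipschitzWith.of_dist_le_mul fun x x' => ?_⟩
    have := h.lip hr hy (hKb x'.2) (hKb x.2)
    change dist (y - P x) (y - P x') ≤ _
    rw [dist_eq_norm, sub_sub_sub_cancel_left, Subtype.dist_eq, dist_eq_norm, norm_sub_rev x.1]
    push_cast
    nlinarith [norm_nonneg (x'.1 - x.1)]
  obtain ⟨x, hx, hf, -⟩ := hc.exists_fixedPoint' isClosed_closedBall.isComplete hm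
    (mem_closedBall_self (by linarith)) (edist_ne_top _ _)
  exact ⟨x, mem_closedBall_iff_norm.1 hx, by
    have : y - P x = x := hf
    rw [← this]; simp only [this]; exact (eq_sub_iff_add_eq.1 this.symm)⟩

variable {M : Type*} [TopologicalSpace M] [ChartedSpace E4 M] [IsManifold 𝓘(ℝ, E4) ∞ M]
  [T3Space M] [ConnectedSpace M]

open Classical in
/-- the glued chart -/
def gl (Ψ Ψ2 : E4 → M) (P : E4 → E4) (r : ℝ) (x : E4) : M :=
  if ‖x‖ < 3 / 4 * r then Ψ x else Ψ2 (x + P x)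

section gl

variable {Ψ Ψ2 : E4 → M} (hr : 0 < r) (he : ∀ x ∈ shell (r / 2) r, Ψ2 (x + P x) = Ψ x)
include hr he

theorem gl_in {x : E4} (hx : ‖x‖ < r) : gl Ψ Ψ2 P r x = Ψ x := by
  unfold gl
  split_ifs with h
  · rfl
  · exact he x ⟨by linarith, hx⟩

theorem gl_out {x : E4} (hx : r / 2 < ‖x‖) : gl Ψ Ψ2 P r x = Ψ2 (x + P x) := by
  unfold gl
  split_ifs with h
  · exact (he x ⟨hx, by linarith⟩).symm
  · rfl

end gl

theorem Pert.mem (h : Pert m P r ε) (hr : 0 < r) (hε : ε ≤ 1 / 100) {a2 b2 : ℝ} (ha : a2 ≤ r / 4)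
    (hb : 2 * r ≤ b2) {x : E4} (hx : x ∈ shell (r / 2) b2) : x + P x ∈ shell a2 b2 := by
  have h1 := h.val hx.1
  have h2 := hx.1
  by_cases h3 : 3 / 2 * r ≤ ‖x‖
  · rw [h.zero x h3, add_zero]; exact ⟨by linarith, hx.2⟩
  · have h4 := norm_add_le x (P x)
    have h5 := norm_sub_le (x + P x) (P x)
    rw [add_sub_cancel_right] at h5
    exact ⟨by nlinarith, by nlinarith⟩

theorem Pert.par (h : Pert 1 P r ε) (hr : 0 < r) (hε : ε ≤ 1 / 100) {a2 b2 : ℝ} (ha : a2 ≤ r / 4)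
    (hb : 2 * r ≤ b2) {Ψ2 : E4 → M} (h2 : Par Ψ2 (shell a2 b2)) :
    Par (fun x => Ψ2 (x + P x)) (shell (r / 2) b2) := by
  refine Gs.par_comp h2 (isOpen_shell _ _) (fun x hx =>
    (contDiffAt_id.add (h.jb x hx.1).sm).contDiffWithinAt) (fun x hx => h.mem hr hε ha hb hx)
    fun x hx => ?_
  have hd := ((hasFDerivAt_id x).add
    ((h.jb x hx.1).sm.differentiableAt (by simp)).hasFDerivAt).fderiv
  rw [show fderiv ℝ (fun x => x + P x) x = _ from hd]
  refine (injective_iff_map_eq_zero _).2 fun v hv => ?_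
  have h3 : v = -fderiv ℝ P x v := eq_neg_of_add_eq_zero_left hv
  have h4 := (fderiv ℝ P x).le_of_opNorm_le (h.der hr hx.1) v
  rw [← norm_neg, ← h3] at h4
  exact norm_le_zero_iff.1 (by nlinarith [norm_nonneg v])

/-- gluing of two centred charts -/
theorem Ch.glue {g : Met 4 M} {z : M} {η η' : ℝ} {Γ : Subgroup (E4 ≃ₗᵢ[ℝ] E4)} {Ψ Ψ2 : E4 → M}
    {a a2 b2 : ℝ} (h1 : Ch g z η' Γ Ψ a r) (h2 : Ch g z η Γ Ψ2 a2 b2) (h : Pert 1 P r ε)
    (hr : 0 < r) (hε : ε ≤ 1 / 100) (h0 : 0 ≤ η) (hη : η + 3 * ε ≤ η') (hη' : η' ≤ 1 / 10)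
    (ha0 : a ≤ r / 2) (ha : a2 ≤ r / 4) (hb : 2 * r ≤ b2)
    (he : ∀ x ∈ shell (r / 2) r, Ψ2 (x + P x) = Ψ x)
    (hP : ∀ γ ∈ Γ, ∀ x, r / 2 < ‖x‖ → P (γ x) = γ (P x)) :
    Ch g z η' Γ (gl Ψ Ψ2 P r) a b2 := by
  have hε0 : 0 ≤ ε := by
    have := (h.jb (r • ee 0) (by simp [norm_smul, abs_of_pos hr]; linarith)).nonneg
    exact nonneg_of_mul_nonneg_left this hr
  have sand : ∀ x ∈ shell a b2, |g.d z (gl Ψ Ψ2 P r x) - ‖x‖| ≤ η' * ‖x‖ := fun x hx => by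
    by_cases h3 : ‖x‖ < r
    · rw [gl_in hr he h3]; exact h1.sand x ⟨hx.1, h3⟩
    · push Not at h3
      have h4 : r / 2 < ‖x‖ := by linarith
      rw [gl_out hr he h4]
      have h5 := abs_le.1 (h2.sand _ (h.mem hr hε ha hb ⟨h4, hx.2⟩))
      have h6 := h.val h4
      have h7 := norm_add_le x (P x)
      have h8 := norm_sub_le (x + P x) (P x)
      rw [add_sub_cancel_right] at h8
      have h9 : ‖P x‖ ≤ ε * ‖x‖ := h6.trans (by gcongr)
      have h10 : η * ‖x + P x‖ ≤ η * ‖x‖ + ε * ‖x‖ := by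
        have : η * ‖x + P x‖ ≤ η * (‖x‖ + ε * ‖x‖) := by gcongr; linarith
        have h11 : η * (ε * ‖x‖) ≤ 1 * (ε * ‖x‖) := by gcongr; linarith
        linarith
      have h12 : (η + 3 * ε) * ‖x‖ ≤ η' * ‖x‖ := by gcongr
      have h13 : 0 ≤ ε * ‖x‖ := by positivity
      rw [abs_le]; constructor <;> linarith
  refine ⟨h1.fin, h1.free, Gs.par_of_local (isOpen_shell _ _) fun x hx => ?_,
    fun x hx y hy => ⟨fun e => ?_, ?_⟩, sand, fun q q1 q2 => ?_⟩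
  · by_cases h3 : ‖x‖ < r
    · exact ⟨shell a r, ⟨hx.1, h3⟩, Gs.par_congr h1.par fun y hy => gl_in hr he hy.2⟩
    · exact ⟨shell (r / 2) b2, ⟨by linarith, hx.2⟩,
        Gs.par_congr (h.par hr hε ha hb h2.par) fun y hy => gl_out hr he hy.1⟩
  · have s1 := abs_le.1 (sand x hx)
    have s2 := abs_le.1 (sand y hy)
    rw [e] at s1
    have n1 := norm_nonneg x
    have n2 := norm_nonneg y
    by_cases h3 : ‖x‖ < r ∧ ‖y‖ < r
    · rw [gl_in hr he h3.1, gl_in hr he h3.2] at e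
      exact (h1.fib x ⟨hx.1, h3.1⟩ y ⟨hy.1, h3.2⟩).1 e
    · have h4 : 3 / 5 * r ≤ ‖x‖ ∧ 3 / 5 * r ≤ ‖y‖ := by
        rcases not_and_or.1 h3 with h5 | h5 <;> constructor <;> nlinarith
      have h5 : r / 2 < ‖x‖ := by linarith [h4.1]
      have h6 : r / 2 < ‖y‖ := by linarith [h4.2]
      rw [gl_out hr he h5, gl_out hr he h6] at e
      obtain ⟨γ, hγ, e'⟩ := (h2.fib _ (h.mem hr hε ha hb ⟨h5, hx.2⟩) _
        (h.mem hr hε ha hb ⟨h6, hy.2⟩)).1 e
      rw [map_add, ← hP γ hγ x h5] at e'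
      exact ⟨γ, hγ, h.inj hr hε (by rw [γ.norm_map]; exact h4.1) h4.2 e'⟩
  · rintro ⟨γ, hγ, rfl⟩
    by_cases h3 : ‖x‖ < r
    · rw [gl_in hr he h3, gl_in hr he (by rwa [γ.norm_map])]
      exact (h1.inv ⟨hx.1, h3⟩ hγ).symm
    · have h5 : r / 2 < ‖x‖ := by linarith
      rw [gl_out hr he h5, gl_out hr he (by rwa [γ.norm_map]), hP γ hγ x h5, ← map_add]
      exact (h2.inv (h.mem hr hε ha hb ⟨h5, hx.2⟩) hγ).symm
  · by_cases h3 : g.d z q < (1 - η') * r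
    · obtain ⟨x, hx, rfl⟩ := h1.onto q q1 h3
      exact ⟨x, ⟨hx.1, by linarith [hx.2]⟩, gl_in hr he hx.2⟩
    · push Not at h3
      obtain ⟨y, hy, rfl⟩ := h2.onto q (by nlinarith) (q2.trans_le (by gcongr; linarith; linarith))
      have h4 := h2.le hy
      have h5 : 4 / 5 * r ≤ ‖y‖ := by nlinarith [norm_nonneg y]
      by_cases h6 : 3 / 2 * r ≤ ‖y‖
      · exact ⟨y, ⟨by linarith, hy.2⟩, by
          rw [gl_out hr he (by linarith), h.zero y h6, add_zero]⟩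
      · obtain ⟨x, hx, e⟩ := h.surj hr hε (y := y) (by linarith)
        have h7 := norm_sub_norm_le x y
        have h8 := norm_sub_norm_le y x
        rw [norm_sub_rev] at h8
        exact ⟨x, ⟨by linarith, by linarith⟩, by rw [gl_out hr he (by linarith), e]⟩

end Crest.Agent.N207.G

end
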