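import Crest.Agent.N207.G.Gl2

/-!
# Row 207, block G (helper93): the long neck
-/

set_option autoImplicit false
set_option linter.unusedSectionVars false

open scoped ContDiff Manifold Topology Nat
open Set Filter Metric

noncomputable section

namespace Crest.Agent.N207.G

open Sk

variable {M : Type*} [TopologicalSpace M] [ChartedSpace E4 M] [IsManifold 𝓘(ℝ, E4) ∞ M]
  [T3Space M] [ConnectedSpace M] [MeasurableSpace M] [BorelSpace M]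

/-- a centred chart with `C²` control -/
def CJ (g : Met 4 M) (z : M) (η : ℝ) (Γ : Subgroup (E4 ≃ₗᵢ[ℝ] E4)) (Ψ : E4 → M) (a b δ : ℝ) :
    Prop :=
  Ch g z η Γ Ψ a b ∧ ∀ x ∈ shell a b, JG 2 (g.pm Ψ) x ‖x‖ δ

theorem CJ.res {g : Met 4 M} {z : M} {η : ℝ} {Γ : Subgroup (E4 ≃ₗᵢ[ℝ] E4)} {Ψ : E4 → M}
    {a b δ : ℝ} (h : CJ g z η Γ Ψ a b δ) (h0 : 0 ≤ η) (h1 : η ≤ 1) {a' b' δ' : ℝ} (ha : a ≤ a')
    (hb : b' ≤ b) (hδ : δ ≤ δ') : CJ g z η Γ Ψ a' b' δ' :=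
  ⟨h.1.res h0 h1 ha hb, fun x hx => jg_mono (h.2 x (shell_mono ha hb hx)) hδ⟩

theorem step (T : TRANS M) : ∃ δ0 C : ℝ, 0 < δ0 ∧ 1 ≤ C ∧ ∀ (g : Met 4 M) (z : M)
    (Γ Γ' : Subgroup (E4 ≃ₗᵢ[ℝ] E4)) (Ψ Ψ' : E4 → M) (r δ η : ℝ), 0 < r → 0 ≤ δ → δ ≤ δ0 →
    0 ≤ η → η ≤ 1 / 5 → Γ ≠ ⊥ → Γ' ≠ ⊥ → CJ g z η Γ Ψ (r / 64) (8 * r) δ →
    CJ g z η Γ' Ψ' (r / 64) (8 * r) δ →
    ∃ (A : E4 ≃ₗᵢ[ℝ] E4) (ι : Γ ≃* Γ') (P : E4 → E4), (∀ γ : Γ, ∀ x, A (γ.1 x) = (ι γ).1 (A x)) ∧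
      Pert 3 P r (C * δ) ∧ (∀ x ∈ shell (r / 2) r, Ψ' (A (x + P x)) = Ψ x) ∧
      ∀ γ ∈ Γ, ∀ x, r / 2 < ‖x‖ → P (γ x) = γ (P x) := by
  obtain ⟨η0, hη0, T⟩ := T
  obtain ⟨C, hC, T⟩ := T 1
  obtain ⟨C', hC', hP⟩ := exists_P 3
  refine ⟨η0, C' * (C + 1), hη0, one_le_mul_of_one_le_of_one_le hC' (by linarith),
    fun g z Γ Γ' Ψ Ψ' r δ η hr h0 h1 e0 e1 hΓ hΓ' h h' => ?_⟩
  set N := nk g z Γ Ψ (r / 16) (8 * r) with hN
  set N' := nk g z Γ' Ψ' (r / 16) (8 * r) with hN'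
  have ha : 0 < r / 16 := by positivity
  have haa : 3 * (r / 64) ≤ r / 16 := by linarith
  have hab : r / 16 < 8 * r := by linarith
  set V := max (g.vol.real N.In) (g.vol.real N'.In) / (r / 16) ^ 4 with hV
  have hVe : V * (r / 16) ^ 4 = max (g.vol.real N.In) (g.vol.real N'.In) :=
    div_mul_cancel₀ _ (by positivity)
  have hs : shell (r / 16) (8 * r) ⊆ shell (r / 64) (8 * r) := shell_mono (by linarith) le_rfl
  obtain ⟨Θ, ι, hΘ, h2, h3⟩ := T g N N' V (r / 8) (8 * r) (h.1.top e0 e1 ha haa hab hΓ)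
    (h'.1.top e0 e1 ha haa hab hΓ')
    ⟨fun x hx => jg_mono (jg_of_le (h.2 x (hs hx)) one_le_two) h1,
      (le_max_left _ _).trans_eq hVe.symm⟩
    ⟨fun x hx => jg_mono (jg_of_le (h'.2 x (hs hx)) one_le_two) h1,
      (le_max_right _ _).trans_eq hVe.symm⟩
    (show 2 * (r / 16) ≤ _ by linarith) (show 2 * (r / 16) ≤ _ by linarith) le_rfl le_rfl
    (by linarith) (h.1.cmp h'.1 e0 e1 ha haa hab ha haa hab (by linarith) (by linarith)
      le_rfl le_rfl)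
  obtain ⟨A, hA, hJ⟩ := h3 r δ (by linarith) le_rfl h0 h1
    (fun x hx => h.2 x (shell_mono (by linarith) (by linarith) hx))
    (fun x hx => h'.2 x (shell_mono (by linarith) le_rfl hx))
  have hs2 : shell (r / 2) (2 * r) ⊆ shell (r / 8) (8 * r / 2) :=
    shell_mono (by linarith) (by linarith)
  obtain ⟨P, p1, p2, p3⟩ := hP Θ A r ((C + 1) * δ) hr (by positivity) (hΘ.mono hs2)
    fun x hx k hk => (hJ x hx k hk).trans (by gcongr; linarith)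
  refine ⟨A, ι, P, hA, by rwa [mul_assoc], fun x hx => ?_, fun γ hγ => ?_⟩
  · rw [p2 x hx]
    exact (h2 x (shell_mono (by linarith) (by linarith) hx)).2.1
  · exact p3 γ (ι ⟨γ, hγ⟩).1 (hA ⟨γ, hγ⟩) fun x hx => (h2 x (hs2 hx)).2.2 ⟨γ, hγ⟩

theorem lng (T : TRANS M) (η : ℝ) (hη : 0 < η) : ∃ δ : ℝ, 0 < δ ∧ δ ≤ 1 / 10 ∧
    ∀ (g : Met 4 M) (z : M) (s : ℝ) (n : ℕ), 0 < s →
    (∀ i ≤ n, ∃ Γ Ψ, Γ ≠ ⊥ ∧ CJ g z δ Γ Ψ (4 ^ i * s / 64) (64 * (4 ^ i * s)) δ) →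
    ∃ Γ Ψ, Γ ≠ ⊥ ∧ CJ g z (1 / 10) Γ Ψ (s / 64) (64 * (4 ^ n * s)) η := by
  obtain ⟨δ0, C, hδ0, hC, hstep⟩ := step T
  obtain ⟨Cr, hCr, hrot⟩ := jg_rot (M := M) 1
  obtain ⟨Cp, hCp, hpert⟩ := jg_pert (M := M) 1
  set K : ℝ := (16 + C) * Cr with hK
  have hK1 : Cr ≤ K := le_mul_of_one_le_left (by linarith) (by linarith)
  have hK2 : C * Cr ≤ K := by rw [hK]; gcongr; linarith
  have hK3 : 16 * Cr ≤ K := by rw [hK]; gcongr; linarith
  set μ : ℝ := min (min δ0 (1 / 100)) (η / (4 * Cp)) with hμ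
  have hμ0 : 0 < μ := by positivity
  have hμ1 : μ ≤ δ0 := (min_le_left _ _).trans (min_le_left _ _)
  have hμ2 : μ ≤ 1 / 100 := (min_le_left _ _).trans (min_le_right _ _)
  have hμ3 : 4 * Cp * μ ≤ η := by
    have : μ ≤ η / (4 * Cp) := min_le_right _ _
    rwa [le_div_iff₀' (by positivity)] at this
  have hμ4 : μ ≤ η := by nlinarith
  set δ : ℝ := μ / K with hδ
  have hKpos : 0 < K := by linarith
  have hδ0' : 0 < δ := by positivity
  have hKδ : K * δ = μ := mul_div_cancel₀ _ hKpos.ne'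
  have d1 : Cr * δ ≤ μ := hKδ ▸ by gcongr
  have d2 : C * (Cr * δ) ≤ μ := by rw [← mul_assoc, ← hKδ]; gcongr
  have d3 : 16 * (Cr * δ) ≤ μ := by rw [← mul_assoc, ← hKδ]; gcongr
  have d4 : δ ≤ Cr * δ := le_mul_of_one_le_left hδ0'.le hCr
  refine ⟨δ, hδ0', by linarith, fun g z s n hs H => ?_⟩
  suffices h : ∃ Γ Ψ Ψl, Γ ≠ ⊥ ∧ CJ g z δ Γ Ψ (4 ^ n * s / 64) (64 * (4 ^ n * s)) (Cr * δ) ∧
      CJ g z (1 / 10) Γ Ψl (s / 64) (64 * (4 ^ n * s)) η ∧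
      ∀ x, 2 * (4 ^ n * s) ≤ ‖x‖ → Ψl x = Ψ x by
    obtain ⟨Γ, -, Ψl, h1, -, h2, -⟩ := h
    exact ⟨Γ, Ψl, h1, h2⟩
  induction n with
  | zero =>
    obtain ⟨Γ, Ψ, h1, h2⟩ := H 0 le_rfl
    refine ⟨Γ, Ψ, Ψ, h1, h2.res hδ0'.le (by linarith) le_rfl le_rfl d4, ?_, fun _ _ => rfl⟩
    simp only [pow_zero, one_mul] at h2 ⊢
    exact ⟨h2.1.mono (by linarith) (by positivity) (by positivity),
      fun x hx => jg_mono (h2.2 x hx) (by linarith)⟩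
  | succ n ih =>
    obtain ⟨Γ, Ψ, Ψl, hΓ, h1, h2, h3⟩ := ih fun i hi => H i (hi.trans (Nat.le_succ n))
    obtain ⟨Γ', Ψ', hΓ', h'⟩ := H (n + 1) le_rfl
    set S : ℝ := 4 ^ n * s with hS
    have hS0 : s ≤ S := le_mul_of_one_le_left hs.le (one_le_pow₀ (by norm_num))
    set r : ℝ := 4 ^ (n + 1) * s with hr
    have hrS : r = 4 * S := by rw [hr, hS, pow_succ]; ring
    have hr0 : 0 < r := by linarith
    obtain ⟨A, ι, P, hA, hP, he, hq⟩ := hstep g z Γ Γ' Ψ Ψ' r (Cr * δ) δ hr0 (by positivity)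
      (by linarith) hδ0'.le (by linarith) hΓ hΓ'
      (h1.res hδ0'.le (by linarith) (by linarith) (by linarith) le_rfl)
      (h'.res hδ0'.le (by linarith) le_rfl (by linarith) d4)
    set Ψ2 : E4 → M := fun x => Ψ' (A x) with hΨ2
    have c2 : CJ g z δ Γ Ψ2 (r / 64) (64 * r) (Cr * δ) :=
      ⟨h'.1.rot ι A hA, fun x hx => hrot g Ψ' _ A x _ δ h'.1.par ((shell_iso A).2 hx)
        (by linarith [hx.1]) (by simpa only [A.norm_map] using h'.2 _ ((shell_iso A).2 hx))⟩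
    have he' : ∀ x ∈ shell (r / 2) r, Ψ2 (x + P x) = Ψl x := fun x hx => by
      rw [h3 x (by linarith [hx.1])]; exact he x hx
    have hε : C * (Cr * δ) ≤ 1 / 100 := by linarith
    refine ⟨Γ, Ψ2, gl Ψl Ψ2 P r, hΓ, c2, ⟨Ch.glue (h2.1.res (by norm_num) (by norm_num) le_rfl
      (by linarith)) c2.1 (hP.of_le (by norm_num)) hr0 hε hδ0'.le (by linarith) le_rfl
      (by linarith) (by linarith) (by linarith) he' hq, fun x hx => ?_⟩, fun x hx => ?_⟩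
    · by_cases k1 : ‖x‖ < r
      · refine jg_congr (h2.2 x ⟨hx.1, by linarith⟩) (pm_ev_congr g ?_)
        filter_upwards [continuous_norm.continuousAt.eventually (gt_mem_nhds k1)] with y hy
        exact gl_in hr0 he' hy
      push Not at k1
      by_cases k2 : 3 / 2 * r < ‖x‖
      · refine jg_congr (jg_mono (c2.2 x ⟨by linarith, hx.2⟩) (by linarith)) (pm_ev_congr g ?_)
        filter_upwards [continuous_norm.continuousAt.eventually (lt_mem_nhds k2)] with y hy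
        have hy' : 3 / 2 * r < ‖y‖ := hy
        rw [gl_out hr0 he' (by linarith), hP.zero y hy'.le, add_zero]
      push Not at k2
      have k3 : r / 2 < ‖x‖ := by linarith
      have k4 : x + P x ∈ shell (r / 4) (64 * r) :=
        hP.mem hr0 hε le_rfl (by linarith) ⟨k3, hx.2⟩
      have k5 : x + P x ∈ shell (r / 64) (64 * r) := shell_mono (by linarith) le_rfl k4
      have k6 : JG 2 (g.pm Ψ2) (x + P x) r μ := jg_of_jb fun i j =>
        ((jb_of_jg (pm_smooth g c2.1.par k5) (c2.2 _ k5) i j).scale (l := 4) (norm_nonneg _)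
          hr0.le (by norm_num) (by linarith [k4.1])).mono (by linarith)
      have k7 := hpert g Ψ2 _ P x r μ c2.1.par k5 hr0 (by linarith) k6
        ((hP.jb x k3).mono (by gcongr))
      have k8 : Par (fun y => Ψ2 (y + P y)) (shell (r / 2) (64 * r)) :=
        (hP.of_le (by norm_num)).par hr0 hε (by linarith) (by linarith) c2.1.par
      have k9 : JG 2 (g.pm fun y => Ψ2 (y + P y)) x ‖x‖ η := jg_of_jb fun i j =>
        ((jb_of_jg (pm_smooth g k8 ⟨k3, hx.2⟩) k7 i j).scale (l := 2) hr0.le (norm_nonneg _)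
          (by norm_num) (by linarith)).mono (by norm_num; linarith)
      refine jg_congr k9 (pm_ev_congr g ?_)
      filter_upwards [continuous_norm.continuousAt.eventually (lt_mem_nhds k3)] with y hy
      exact gl_out hr0 he' hy
    · rw [gl_out hr0 he' (by linarith), hP.zero x (by linarith), add_zero]

end Crest.Agent.N207.G

end
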