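import Crest.Agent.N207.G.Rg
import Crest.Agent.N207.I.Rig

/-!
# Row 207, block G (helper93): the limit deck group of asymptotically Euclidean parametrisations
-/

set_option autoImplicit false
set_option linter.unusedSectionVars false
set_option maxSynthPendingDepth 3

open scoped ContDiff Manifold Topology
open Set Filter Metric
open Crest.GeometryTopology.CoordMetric
open Crest.Agent.R202.Tens Crest.Agent.N207.Jt Crest.Agent.N207.Gs

noncomputable section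

namespace Crest.Agent.N207.G

variable {n : ℕ} {M : Type*} [TopologicalSpace M] [ChartedSpace (En n) M]
  [IsManifold 𝓘(ℝ, En n) ∞ M] [T3Space M] [ConnectedSpace M] {ι : Type}

/-- there is a transition at `w` which is `ε`-close to `A` -/
def Near (Φ : En n → M) (U : Set (En n)) (A : En n ≃ₗᵢ[ℝ] En n) (ε : ℝ) (w : En n) : Prop :=
  ∃ y ∈ U, ∃ L : En n →L[ℝ] En n, ‖y - A w‖ ≤ ε ∧ Φ y = Φ w ∧ IsD Φ Φ w y L ∧
    ‖L - (A : En n →L[ℝ] En n)‖ ≤ ε

/-- uniformly on `S` -/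
def Good (l : Filter ι) (Φ : ι → En n → M) (U : Set (En n)) (A : En n ≃ₗᵢ[ℝ] En n)
    (S : Set (En n)) : Prop :=
  ∀ ε, 0 < ε → ∀ᶠ j in l, ∀ w ∈ S, Near (Φ j) U A ε w

/-- membership in the limit group -/
def InG (l : Filter ι) (Φ : ι → En n → M) (U : Set (En n)) (A : En n ≃ₗᵢ[ℝ] En n) : Prop :=
  ∀ K, IsCompact K → K ⊆ U → Good l Φ U A K

/-- the hypotheses -/
structure GH (l : Filter ι) (m : ι → Met n M) (Φ : ι → En n → M) (U : Set (En n)) (ρ : ℝ) :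
    Prop where
  pos : 0 < ρ
  op : IsOpen U
  ne : U.Nonempty
  con : IsPreconnected U
  iso : ∀ A : En n ≃ₗᵢ[ℝ] En n, ∀ x ∈ U, A x ∈ U
  par : ∀ᶠ j in l, Par (Φ j) U
  li : ∀ᶠ j in l, LI (Φ j) U ρ
  mc : MC l (fun j => (m j).pm (Φ j)) fun _ => U
  bd : ∃ R, ∀ y ∈ U, ‖y‖ ≤ R
  rc : ∀ e, 0 < e → ∀ᶠ j in l, ∀ x ∈ U, ∀ y ∈ U, ∀ L : En n →L[ℝ] En n, Φ j y = Φ j x →
    IsD (Φ j) (Φ j) x y L → ∀ X, |inner ℝ y (L X) - inner ℝ x X| ≤ e * ‖X‖

variable {l : Filter ι} {m : ι → Met n M} {Φ : ι → En n → M} {U : Set (En n)} {ρ : ℝ}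
  {A B : En n ≃ₗᵢ[ℝ] En n}

theorem GH.ev_ne (h : GH l m Φ U ρ) {ε : ℝ} (hε : 0 < ε) : ∀ᶠ j in l, NE ((m j).pm (Φ j)) U ε := by
  filter_upwards [ev_un.1 (ev_quad h.mc (ε := 1 / 10) (by norm_num)), ev_un.1 (ev_gam h.mc hε)]
    with j a b y hy using ⟨a y hy, b y hy⟩

theorem GH.rh (h : GH l m Φ U ρ) (A : En n ≃ₗᵢ[ℝ] En n) {O : Set (En n)} (hO : IsOpen O) {r : ℝ}
    (hr : 0 < r) (hrρ : r ≤ ρ) (hth : ∀ y ∈ O, closedBall y r ⊆ U) :
    ∀ᶠ j in l, RH (Φ j) (Φ j) U U A r O := by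
  filter_upwards [h.par, h.li] with j a b
  refine ⟨a, a, fun x hx y hy e => b x hx y hy (e.trans_le hrρ), hO,
    fun y hy => hth y hy (mem_closedBall_self hr.le), fun y hy z hz => ?_⟩
  rw [← A.apply_symm_apply z]
  refine h.iso A _ (hth y hy ?_)
  rw [mem_closedBall, ← A.dist_map, A.apply_symm_apply]
  exact (mem_closedBall.1 hz).trans (by linarith)

/-- continuation over a ball -/
theorem GH.loc (h : GH l m Φ U ρ) (A : En n ≃ₗᵢ[ℝ] En n) {w : En n} (hw : w ∈ U) :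
    ∃ r, 0 < r ∧ ∀ x : ι → En n, (∀ᶠ j in l, x j ∈ ball w r) →
      (∀ ε, 0 < ε → ∀ᶠ j in l, Near (Φ j) U A ε (x j)) → Good l Φ U A (ball w r) := by
  obtain ⟨s, hs, hb⟩ := Metric.isOpen_iff.1 h.op w hw
  refine ⟨s / 2, by positivity, fun x hx hn ε hε => ?_⟩
  have hρ := h.pos
  set r := min ρ (s / 2) with hr
  have hr0 : 0 < r := lt_min hρ (by positivity)
  set c := min (r / 8) ε with hc
  have hc0 : 0 < c := lt_min (by positivity) hε
  set D := 1 + (1 + 6 * s) * (s + 1) with hD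
  have hD0 : 0 < D := by positivity
  set η := c / (D + 1) with hη
  have hη0 : 0 < η := by positivity
  have k0 : η * D < c := by
    rw [hη, div_mul_eq_mul_div, div_lt_iff₀ (by positivity)]; nlinarith
  have k1 : η + (η + 6 * η * s) * s < c := by
    have : 0 ≤ η * (1 + 6 * s) := by positivity
    rw [hD] at k0; nlinarith
  have k2 : η + 6 * η * s < c := by
    have : 0 ≤ η * (1 + 6 * s) * s := by positivity
    rw [hD] at k0; nlinarith
  have k3 : η < r / 4 := by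
    have : 0 ≤ 6 * η * s := by positivity
    have := min_le_left (r / 8) ε
    linarith
  have hth : ∀ y ∈ ball w (s / 2), closedBall y r ⊆ U := fun y hy z hz => hb (by
    have := min_le_right ρ (s / 2)
    rw [mem_ball] at hy ⊢
    linarith [dist_triangle z y w, mem_closedBall.1 hz])
  filter_upwards [h.rh A isOpen_ball hr0 (min_le_left _ _) hth, h.ev_ne hη0, hx, hn η hη0]
    with j H N hxj ⟨y, hy, L, e1, e2, e3, e4⟩ v hv
  have h0 : x j ∈ trD (Φ j) (Φ j) A r (ball w (s / 2)) := ⟨hxj, y, e1.trans_lt k3, e2⟩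
  have e5 := H.eq hxj (e1.trans_lt k3) e2
  have e6 : fderiv ℝ (tr (Φ j) (Φ j) A r) (x j) = L :=
    IsD.unique H.p' hy (e5 ▸ H.isD h0) e3
  have hR : ‖v - x j‖ ≤ s := by
    rw [← dist_eq_norm]
    linarith [dist_triangle_right v (x j) w, mem_ball.1 hv, mem_ball.1 hxj]
  have i0 : ‖tr (Φ j) (Φ j) A r (x j) - A (x j)‖ ≤ η := by rw [e5]; exact e1
  have i1 : ‖fderiv ℝ (tr (Φ j) (Φ j) A r) (x j) - (A : En n →L[ℝ] En n)‖ ≤ η := by
    rw [e6]; exact e4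
  have hs' := H.ext (m j) N N ((convex_ball w _).segment_subset hxj hv) h0 hR i0 i1
    (k1.trans_le (min_le_left _ _))
  have hv' := hs' (right_mem_segment _ _ _)
  obtain ⟨a, b⟩ := H.est (m j) N N hs' hR i0 i1
  exact ⟨_, H.mem hv (RH.spec hv').1, _, a.trans (k1.le.trans (min_le_right _ _)),
    (RH.spec hv').2, H.isD hv', b.trans (k2.le.trans (min_le_right _ _))⟩

/-- continuation over `U` -/
theorem GH.all (h : GH l m Φ U ρ) {x : ι → En n} {w : En n} (hw : w ∈ U)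
    (hx : Tendsto x l (𝓝 w)) (hn : ∀ ε, 0 < ε → ∀ᶠ j in l, Near (Φ j) U A ε (x j)) :
    InG l Φ U A := by
  set W : Set (En n) := {v | ∃ t ∈ 𝓝 v, Good l Φ U A t} with hW
  have hWo : IsOpen W := isOpen_iff_mem_nhds.2 fun v ⟨t, ht, g⟩ =>
    mem_of_superset (eventually_mem_nhds_iff.2 ht) fun u hu => ⟨t, hu, g⟩
  have hU : U ⊆ W := by
    refine h.con.subset_of_closure_inter_subset hWo ?_ ?_
    · obtain ⟨r, hr, k⟩ := h.loc A hw
      exact ⟨w, hw, _, ball_mem_nhds w hr, k x (hx.eventually (ball_mem_nhds w hr)) hn⟩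
    · rintro v ⟨hv, hvU⟩
      obtain ⟨r, hr, k⟩ := h.loc A hvU
      obtain ⟨u, hu, t, ht, g⟩ := mem_closure_iff_nhds.1 hv _ (ball_mem_nhds v hr)
      exact ⟨_, ball_mem_nhds v hr, k (fun _ => u) (Eventually.of_forall fun _ => hu)
        fun ε hε => (g ε hε).mono fun j hj => hj u (mem_of_mem_nhds ht)⟩
  intro K hK hKU
  refine hK.induction_on (p := Good l Φ U A) (fun ε _ => Eventually.of_forall fun _ _ h => h.elim)
    (fun s t hst g ε hε => (g ε hε).mono fun j hj v hv => hj v (hst hv))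
    (fun s t g g' ε hε => ?_) fun v hv => ?_
  · filter_upwards [g ε hε, g' ε hε] with j a b v hv using hv.elim (a v) (b v)
  · obtain ⟨t, ht, g⟩ := hU (hKU hv)
    exact ⟨t, mem_nhdsWithin_of_mem_nhds ht, g⟩

theorem InG.pt (h : InG l Φ U A) {w : En n} (hw : w ∈ U) {ε : ℝ} (hε : 0 < ε) :
    ∀ᶠ j in l, Near (Φ j) U A ε w :=
  (h {w} isCompact_singleton (singleton_subset_iff.2 hw) ε hε).mono fun _ hj => hj w rfl

theorem inG_one : InG l Φ U 1 := fun _ _ hK ε hε => Eventually.of_forall fun j w hw =>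
  ⟨w, hK hw, _, by simpa using hε.le, rfl, isD_refl _ _, by
    rw [show ((1 : En n ≃ₗᵢ[ℝ] En n) : En n →L[ℝ] En n) = ContinuousLinearMap.id ℝ _ from rfl]
    simpa using hε.le⟩

theorem GH.mul (h : GH l m Φ U ρ) (hA : InG l Φ U A) (hB : InG l Φ U B) : InG l Φ U (A * B) := by
  obtain ⟨w, hw⟩ := h.ne
  refine h.all hw tendsto_const_nhds fun ε hε => ?_
  obtain ⟨s, hs, hb⟩ := Metric.nhds_basis_closedBall.mem_iff.1 (h.op.mem_nhds (h.iso B w hw))
  set η := min (min s 1) (ε / 3) with hη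
  have h0 : 0 < η := by positivity
  have h1 : η ≤ s := (min_le_left _ _).trans (min_le_left _ _)
  have h2 : η ≤ 1 := (min_le_left _ _).trans (min_le_right _ _)
  have h3 : η ≤ ε / 3 := min_le_right _ _
  filter_upwards [hB.pt hw h0, hA _ (isCompact_closedBall _ _) hb η h0]
    with j ⟨y, _, L, e1, e2, e3, e4⟩ k
  obtain ⟨y', hy', L', f1, f2, f3, f4⟩ := k y (mem_closedBall_iff_norm.2 (e1.trans h1))
  refine ⟨y', hy', _, ?_, f2.trans e2, e3.comp f3, ?_⟩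
  · have := norm_sub_le_norm_sub_add_norm_sub y' (A y) (A (B w))
    rw [← map_sub, A.norm_map] at this
    show ‖y' - A (B w)‖ ≤ ε
    linarith
  · refine ContinuousLinearMap.opNorm_le_bound _ hε.le fun X => ?_
    have a1 : ‖L X - B X‖ ≤ η * ‖X‖ := (L - (B : En n →L[ℝ] En n)).le_of_opNorm_le e4 X
    have a2 : ‖L' (L X) - A (L X)‖ ≤ η * ‖L X‖ :=
      (L' - (A : En n →L[ℝ] En n)).le_of_opNorm_le f4 (L X)
    have a3 := norm_sub_le_norm_sub_add_norm_sub (L' (L X)) (A (L X)) (A (B X))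
    rw [← map_sub, A.norm_map] at a3
    have a4 := norm_sub_norm_le (L X) (B X)
    rw [B.norm_map] at a4
    show ‖L' (L X) - A (B X)‖ ≤ ε * ‖X‖
    have a5 : ‖L X‖ ≤ 2 * ‖X‖ := by nlinarith [norm_nonneg X]
    nlinarith [norm_nonneg X]

theorem GH.sep [l.NeBot] (h : GH l m Φ U ρ) (hA : InG l Φ U A) (hB : InG l Φ U B) {w : En n}
    (hw : w ∈ U) (e : ‖A w - B w‖ < ρ) : A = B := by
  have key : ∀ ε, 0 < ε → ‖(A : En n →L[ℝ] En n) - (B : En n →L[ℝ] En n)‖ ≤ ε := fun ε hε => by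
    set η := min ((ρ - ‖A w - B w‖) / 3) (ε / 2) with hη
    have h0 : 0 < η := lt_min (by linarith) (by positivity)
    have h1 : η ≤ (ρ - ‖A w - B w‖) / 3 := min_le_left _ _
    have h2 : η ≤ ε / 2 := min_le_right _ _
    obtain ⟨j, ⟨y, hy, L, e1, e2, e3, e4⟩, ⟨y', hy', L', f1, f2, f3, f4⟩, p, q⟩ :=
      ((hA.pt hw h0).and ((hB.pt hw h0).and (h.par.and h.li))).exists
    have e5 : y = y' := q y hy y' hy' (by
      have a1 := norm_sub_le_norm_sub_add_norm_sub y (A w) y'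
      have a2 := norm_sub_le_norm_sub_add_norm_sub (A w) (B w) y'
      rw [norm_sub_rev (B w)] at a2
      linarith) (e2.trans f2.symm)
    subst e5
    rw [IsD.unique p hy e3 f3] at e4
    have := norm_sub_le_norm_sub_add_norm_sub (A : En n →L[ℝ] En n) L' (B : En n →L[ℝ] En n)
    rw [norm_sub_rev _ L'] at this
    linarith
  have := norm_le_zero_iff.1 (le_of_forall_pos_le_add fun ε hε => by simpa using key ε hε)
  exact I.cl_inj (sub_eq_zero.1 this)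

theorem GH.finite [l.NeBot] (h : GH l m Φ U ρ) : {A | InG l Φ U A}.Finite := by
  obtain ⟨w, hw⟩ := h.ne
  obtain ⟨t, -, ht, hc⟩ := finite_cover_balls_of_compact (isCompact_closedBall (0 : En n) ‖w‖)
    (half_pos h.pos)
  refine (ht.biUnion (t := fun y => {A | InG l Φ U A ∧ A w ∈ ball y (ρ / 2)}) fun y _ =>
    Set.Subsingleton.finite fun A hA B hB => h.sep hA.1 hB.1 hw ?_).subset fun A hA => ?_
  · rw [← dist_eq_norm]
    linarith [dist_triangle_right (A w) (B w) y, mem_ball.1 hA.2, mem_ball.1 hB.2]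
  · obtain ⟨y, hy, k⟩ := mem_iUnion₂.1 (hc (show A w ∈ closedBall (0 : En n) ‖w‖ by simp))
    exact mem_iUnion₂.2 ⟨y, hy, hA, k⟩

variable {𝒰 : Ultrafilter ι}

/-- **pairs of points with the same image are asymptotically in one orbit** -/
theorem GH.main (h : GH (𝒰 : Filter ι) m Φ U ρ) {K : Set (En n)} (hK : IsCompact K) (hKU : K ⊆ U)
    {x y : ι → En n} (hx : ∀ᶠ j in (𝒰 : Filter ι), x j ∈ K ∧ y j ∈ U ∧ Φ j (y j) = Φ j (x j)) :
    ∃ A, InG (𝒰 : Filter ι) Φ U A ∧ Tendsto (fun j => y j - A (x j)) 𝒰 (𝓝 0) := by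
  have : ∀ j, ∃ L, (∃ L', IsD (Φ j) (Φ j) (x j) (y j) L') → IsD (Φ j) (Φ j) (x j) (y j) L :=
    fun j => by
      by_cases k : ∃ L', IsD (Φ j) (Φ j) (x j) (y j) L'
      · exact k.imp fun _ a _ => a
      · exact ⟨0, fun a => absurd a k⟩
  choose L hL using this
  have h1 : ∀ᶠ j in (𝒰 : Filter ι), IsD (Φ j) (Φ j) (x j) (y j) (L j) := by
    filter_upwards [hx, h.par] with j a b using hL j (exists_isD b b (hKU a.1) a.2.1 a.2.2)
  have h2 : ∀ᶠ j in (𝒰 : Filter ι), ‖L j‖ ≤ 2 := by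
    filter_upwards [hx, h1, h.ev_ne one_pos] with j a b c
    exact norm_le_two (c _ (hKU a.1)).1 (c _ a.2.1).1 (b.bil (m j) a.2.2)
  have : ProperSpace (En n →L[ℝ] En n) := FiniteDimensional.proper_real _
  obtain ⟨L0, -, hL0⟩ := (isCompact_closedBall (0 : En n →L[ℝ] En n) 2).ultrafilter_le_nhds'
    (𝒰.map L) (h2.mono fun j a => mem_closedBall_zero_iff.2 a)
  replace hL0 : Tendsto L 𝒰 (𝓝 L0) := hL0
  obtain ⟨w, hw, hxw⟩ := hK.ultrafilter_le_nhds' (𝒰.map x) (hx.mono fun j a => a.1)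
  replace hxw : Tendsto x 𝒰 (𝓝 w) := hxw
  have h3 : ∀ X, ‖L0 X‖ = ‖X‖ := fun X => by
    have a1 : Tendsto (fun j => |‖L j X‖ ^ 2 - ‖X‖ ^ 2|) 𝒰 (𝓝 |‖L0 X‖ ^ 2 - ‖X‖ ^ 2|) :=
      ((((ContinuousLinearMap.apply ℝ (En n) X).continuous.tendsto L0).comp hL0).norm.pow 2
        |>.sub_const _).abs
    have a2 : ∀ δ, 0 < δ → |‖L0 X‖ ^ 2 - ‖X‖ ^ 2| ≤ δ * (5 * ‖X‖ ^ 2) := fun δ hδ => by
      refine le_of_tendsto a1 ?_
      filter_upwards [hx, h1, h2, ev_un.1 (ev_quad h.mc hδ)] with j a b c d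
      have b1 := abs_le.1 (d _ (hKU a.1) X X)
      have b2 := abs_le.1 (d _ a.2.1 (L j X) (L j X))
      simp only [real_inner_self_eq_norm_sq] at b1 b2
      rw [b.bil (m j) a.2.2] at b1
      have b3 : ‖L j X‖ ≤ 2 * ‖X‖ := (L j).le_of_opNorm_le c X
      have b4 : δ * ‖L j X‖ * ‖L j X‖ ≤ δ * (2 * ‖X‖) * (2 * ‖X‖) := by gcongr
      rw [abs_le]
      constructor <;> nlinarith
    have a3 : |‖L0 X‖ ^ 2 - ‖X‖ ^ 2| ≤ 0 := by
      refine le_of_forall_pos_le_add fun ε hε => ?_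
      have := a2 (ε / (5 * ‖X‖ ^ 2 + 1)) (by positivity)
      rw [div_mul_eq_mul_div, le_div_iff₀ (by positivity)] at this
      nlinarith [abs_nonneg (‖L0 X‖ ^ 2 - ‖X‖ ^ 2), sq_nonneg ‖X‖]
    exact (pow_left_inj₀ (norm_nonneg _) (norm_nonneg _) two_ne_zero).1
      (sub_eq_zero.1 (abs_nonpos_iff.1 a3))
  obtain ⟨A, rfl⟩ := I.exists_cl L0 h3
  have h5 : Tendsto (fun j => y j - A (x j)) 𝒰 (𝓝 0) := by
    obtain ⟨R, hR⟩ := h.bd
    have a1 : Tendsto (fun j => R * ‖L j - I.cl A‖) 𝒰 (𝓝 0) := by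
      simpa using (tendsto_iff_norm_sub_tendsto_zero.1 hL0).const_mul R
    refine Metric.tendsto_nhds.2 fun ε hε => ?_
    filter_upwards [hx, h1, h.rc (ε / 2) (half_pos hε), a1.eventually (gt_mem_nhds (half_pos hε))]
      with j a b c d
    rw [dist_zero_right]
    set v := y j - A (x j) with hv
    have b1 := abs_le.1 (c _ (hKU a.1) _ a.2.1 _ a.2.2 b (A.symm v))
    have b2 : ‖v‖ ^ 2 = inner ℝ (y j) v - inner ℝ (x j) (A.symm v) := by
      rw [← A.inner_map_map (x j), A.apply_symm_apply, ← inner_sub_left,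
        real_inner_self_eq_norm_sq]
    have b3 : ‖L j (A.symm v) - v‖ ≤ ‖L j - I.cl A‖ * ‖v‖ := by
      simpa using (L j - I.cl A).le_opNorm (A.symm v)
    have b4 := abs_le.1 (abs_real_inner_le_norm (y j) (L j (A.symm v) - v))
    rw [inner_sub_right] at b4
    rw [A.symm.norm_map] at b1
    have b5 : ‖y j‖ * ‖L j (A.symm v) - v‖ ≤ R * (‖L j - I.cl A‖ * ‖v‖) :=
      mul_le_mul (hR _ a.2.1) b3 (norm_nonneg _) ((norm_nonneg _).trans (hR _ a.2.1))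
    by_contra hn
    have b6 : 0 < ‖v‖ := hε.trans_le (not_lt.1 hn)
    nlinarith [not_lt.1 hn]
  refine ⟨A, h.all (hKU hw) hxw fun ε hε => ?_, h5⟩
  filter_upwards [hx, h1, Metric.tendsto_nhds.1 h5 ε hε, Metric.tendsto_nhds.1 hL0 ε hε]
    with j a b c d
  rw [dist_zero_right] at c
  rw [dist_eq_norm] at d
  exact ⟨_, a.2.1, _, c.le, a.2.2, b, d.le⟩

theorem GH.inv (h : GH (𝒰 : Filter ι) m Φ U ρ) (hA : InG (𝒰 : Filter ι) Φ U A) :
    InG (𝒰 : Filter ι) Φ U A⁻¹ := by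
  let S : Submonoid (En n ≃ₗᵢ[ℝ] En n) :=
    { carrier := {A | InG (𝒰 : Filter ι) Φ U A}, mul_mem' := h.mul, one_mem' := inG_one }
  have h0 : Submonoid.powers A ≤ S := Submonoid.powers_le.2 hA
  have h1 : IsOfFinOrder A := finite_powers.1 (h.finite.subset h0)
  exact h0 (h1.mem_powers_iff_mem_zpowers.2 (Subgroup.inv_mem _ (Subgroup.mem_zpowers A)))

/-- the limit group -/
def GH.grp (h : GH (𝒰 : Filter ι) m Φ U ρ) : Subgroup (En n ≃ₗᵢ[ℝ] En n) where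
  carrier := {A | InG (𝒰 : Filter ι) Φ U A}
  mul_mem' := h.mul
  one_mem' := inG_one
  inv_mem' := h.inv

/-- uniform form of `GH.main` -/
theorem GH.unif (h : GH (𝒰 : Filter ι) m Φ U ρ) {K : Set (En n)} (hK : IsCompact K) (hKU : K ⊆ U)
    {ε : ℝ} (hε : 0 < ε) : ∀ᶠ j in (𝒰 : Filter ι), ∀ x ∈ K, ∀ y ∈ U, Φ j y = Φ j x →
      ∃ A ∈ h.grp, ‖y - A x‖ < ε := by
  by_contra hn
  have : ∀ j, ∃ p : En n × En n, ¬ (∀ x ∈ K, ∀ y ∈ U, Φ j y = Φ j x → ∃ A ∈ h.grp, ‖y - A x‖ < ε) →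
      (p.1 ∈ K ∧ p.2 ∈ U ∧ Φ j p.2 = Φ j p.1) ∧ ¬ ∃ A ∈ h.grp, ‖p.2 - A p.1‖ < ε := fun j => by
    by_cases k : ∀ x ∈ K, ∀ y ∈ U, Φ j y = Φ j x → ∃ A ∈ h.grp, ‖y - A x‖ < ε
    · exact ⟨0, fun a => absurd k a⟩
    · simp only [not_forall] at k
      obtain ⟨x, hx, y, hy, e, k⟩ := k
      exact ⟨(x, y), fun _ => ⟨⟨hx, hy, e⟩, k⟩⟩
  choose p hp using this
  have h1 := (Ultrafilter.eventually_not.2 hn).mono hp
  obtain ⟨A, hA, k⟩ := h.main hK hKU (h1.mono fun j a => a.1)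
  obtain ⟨j, a, b⟩ := (h1.and (Metric.tendsto_nhds.1 k ε hε)).exists
  rw [dist_zero_right] at b
  exact a.2 ⟨A, hA, b⟩

end Crest.Agent.N207.G

end
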