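import Crest.Agent.N207.G.Gc

/-!
# Row 207, block G (helper25): shells, and inverses of maps close to the identity
-/

set_option autoImplicit false
set_option linter.unusedSectionVars false
set_option maxSynthPendingDepth 3

open scoped ContDiff Manifold Topology
open Set Filter Metric
open Crest.GeometryTopology.CoordMetric
open Crest.Agent.R202.Tens Crest.Agent.N207.Jt

noncomputable section

namespace Crest.Agent.N207.Gs

/-- the shell of ratio `r` -/
abbrev Sh (r : ℝ) : Set E4 := Sk.shell (1 / r) r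

theorem sh_lie (A : E4 ≃ₗᵢ[ℝ] E4) {a b : ℝ} {y : E4} (h : y ∈ Sk.shell a b) :
    A y ∈ Sk.shell a b := by
  simpa only [Sk.shell, mem_ofPred_eq, A.norm_map] using h

theorem sh_thick {r r' : ℝ} (h0 : 0 < r) (h : r < r') :
    ∃ t > 0, ∀ y ∈ Sh r, closedBall y t ⊆ Sh r' := by
  have h1 : 1 / r' < 1 / r := one_div_lt_one_div_of_lt h0 h
  refine ⟨min (1 / r - 1 / r') (r' - r), lt_min (by linarith) (by linarith), fun y hy w hw => ?_⟩
  rw [mem_closedBall, dist_eq_norm] at hw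
  have h2 := abs_le.1 ((abs_norm_sub_norm_le w y).trans hw)
  have h3 := min_le_left (1 / r - 1 / r') (r' - r)
  have h4 := min_le_right (1 / r - 1 / r') (r' - r)
  exact ⟨by linarith [hy.1, h2.1], by linarith [hy.2, h2.2]⟩

theorem sh_mono {r r' : ℝ} (h0 : 0 < r) (h : r ≤ r') : Sh r ⊆ Sh r' := fun _ hy =>
  ⟨(one_div_le_one_div_of_le h0 h).trans_lt hy.1, hy.2.trans_le h⟩

theorem unit_mem_sh {r : ℝ} (h : 2 ≤ r) {e : E4} (he : ‖e‖ = 1) : e ∈ Sh r :=
  ⟨by rw [he, div_lt_one (by linarith)]; linarith, by rw [he]; linarith⟩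

theorem sh_sub_ball (r : ℝ) : Sh r ⊆ ball 0 r := fun _ hy => mem_ball_zero_iff.2 hy.2

theorem exists_orth_unit (x y : E4) : ∃ w : E4, ‖w‖ = 1 ∧ inner ℝ w x = 0 ∧ inner ℝ w y = 0 := by
  let f : E4 →ₗ[ℝ] ℝ × ℝ := (innerSL ℝ x).toLinearMap.prod (innerSL ℝ y).toLinearMap
  have h : LinearMap.ker f ≠ ⊥ := LinearMap.ker_ne_bot_of_finrank_lt (by simp)
  obtain ⟨w, hw, h0⟩ := (Submodule.ne_bot_iff _).1 h
  have h1 : inner ℝ x w = 0 := congrArg Prod.fst (LinearMap.mem_ker.1 hw)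
  have h2 : inner ℝ y w = 0 := congrArg Prod.snd (LinearMap.mem_ker.1 hw)
  refine ⟨‖w‖⁻¹ • w, norm_smul_inv_norm h0, ?_, ?_⟩
  · rw [inner_smul_left, real_inner_comm, h1, mul_zero]
  · rw [inner_smul_left, real_inner_comm, h2, mul_zero]

theorem seg_shell {a b : ℝ} {v x y : E4} (hv : ‖v‖ = 1) (h1 : a < inner ℝ v x)
    (h2 : a < inner ℝ v y) (h3 : ‖x‖ < b) (h4 : ‖y‖ < b) : segment ℝ x y ⊆ Sk.shell a b := by
  intro w hw
  refine ⟨?_, mem_ball_zero_iff.1 ((convex_ball 0 b).segment_subset (mem_ball_zero_iff.2 h3)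
    (mem_ball_zero_iff.2 h4) hw)⟩
  have hc : Convex ℝ {u : E4 | a < innerSL ℝ v u} :=
    convex_halfSpace_gt (innerSL ℝ v).toLinearMap.isLinear a
  have h5 : a < inner ℝ v w := hc.segment_subset h1 h2 hw
  have h6 := real_inner_le_norm v w
  rw [hv, one_mul] at h6
  linarith

theorem ch_half {r : ℝ} (hr : 2 ≤ r) {x w : E4} (hx : x ∈ Sh r) (hw : ‖w‖ = 1)
    (h0 : inner ℝ w x = 0) : ∃ u : E4, ‖u‖ < r ∧ inner ℝ w u = 1 ∧ segment ℝ x u ⊆ Sh r := by
  have ha : 0 < 1 / r := by positivity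
  have hx0 : 0 < ‖x‖ := ha.trans hx.1
  have ha1 : 1 / r < 1 := by rw [div_lt_one (by linarith)]; linarith
  set v : E4 := ‖x‖⁻¹ • x with hv
  have hv1 : ‖v‖ = 1 := norm_smul_inv_norm (norm_pos_iff.1 hx0)
  have hwv : inner ℝ w v = 0 := by rw [hv, inner_smul_right, h0, mul_zero]
  set c := min ‖x‖ 1 with hc
  have hc0 : 1 / r < c := lt_min hx.1 ha1
  have hc1 : c ≤ 1 := min_le_right _ _
  have hn : ‖c • v + w‖ < r := by
    have h1 : ‖c • v + w‖ ^ 2 = c ^ 2 + 1 := by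
      rw [norm_add_sq_real, inner_smul_left, real_inner_comm, hwv, norm_smul, hv1, hw,
        Real.norm_eq_abs, mul_one, sq_abs]; simp
    nlinarith [norm_nonneg (c • v + w)]
  refine ⟨c • v + w, hn, ?_, seg_shell hv1 ?_ ?_ hx.2 hn⟩
  · rw [inner_add_right, inner_smul_right, hwv, real_inner_self_eq_norm_sq, hw]; simp
  · rw [hv, inner_smul_left, real_inner_self_eq_norm_sq]
    have : ‖x‖⁻¹ * ‖x‖ ^ 2 = ‖x‖ := by field_simp
    simpa [this] using hx.1
  · rw [inner_add_right, inner_smul_right, real_inner_self_eq_norm_sq, hv1, real_inner_comm, hwv]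
    simpa using hc0

theorem ch_sh {r : ℝ} (hr : 2 ≤ r) {x y : E4} (hx : x ∈ Sh r) (hy : y ∈ Sh r) : Ch (Sh r) x y := by
  obtain ⟨w, hw, h1, h2⟩ := exists_orth_unit x y
  obtain ⟨u, a1, a2, a3⟩ := ch_half hr hx hw h1
  obtain ⟨u', b1, b2, b3⟩ := ch_half hr hy hw h2
  have ha1 : 1 / r < 1 := by rw [div_lt_one (by linarith)]; linarith
  exact ⟨u, u', a3, seg_shell hw (by rwa [a2]) (by rwa [b2]) a1 b1, by rwa [segment_symm]⟩

/-- the Euclidean metric -/
def eucM : Met 4 E4 :=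
  { riemannianMetricVectorSpace E4 with
    contMDiff := (riemannianMetricVectorSpace E4).contMDiff.of_le le_top }

theorem eucM_bil (f : E4 → E4) (y X Y : E4) :
    bil (eucM.pm f y) X Y = inner ℝ (fderiv ℝ f y X) (fderiv ℝ f y Y) := by
  rw [pm_bil, mfderiv_eq_fderiv]; rfl

theorem par_id : Par (fun y : E4 => y) univ :=
  ⟨isOpen_univ, contMDiffOn_id, fun y _ => by
    rw [mfderiv_eq_fderiv, fderiv_fun_id]; exact Function.injective_id⟩

variable {ι : Type} {l : Filter ι}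

theorem mc_eucM {h : ι → E4 → E4} {S : Set E4}
    (hh : UE l h (fun _ y => (1 : E4 ≃ₗᵢ[ℝ] E4) y) fun _ => S) :
    MC l (fun j => eucM.pm (h j)) fun _ => S := by
  refine gc_pull (G' := fun _ _ => 1) (T := fun p : ι × E4 => h p.1) (A := fun _ => 1)
    (fun a b => GE.const' _) ?_ (GE.left hh)
    (Eventually.of_forall fun p => Eventually.of_forall fun y X Y => ?_)
  · simpa only [fderiv_lie] using GE.fderiv hh
  · rw [eucM_bil, bil_one]

theorem ue_one {S : Set E4} {R : ℝ} (hS : S ⊆ ball 0 R) :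
    UE l (fun _ y => y) (fun _ y => (1 : E4 ≃ₗᵢ[ℝ] E4) y) fun _ => S :=
  (GB.id ⟨R, (un_mem _ _).mono fun _ hp => (mem_ball_zero_iff.1 (hS hp)).le⟩).ge

/-- inverses of maps close to the identity -/
theorem exists_inv {h : ι → E4 → E4} {r1 r2 r3 : ℝ} (h1 : 2 ≤ r1) (h2 : r1 < r2) (h3 : r2 < r3)
    (hh : UE l h (fun _ y => (1 : E4 ≃ₗᵢ[ℝ] E4) y) fun _ => Sh r3) :
    ∃ (k : ι → E4 → E4) (ρ : ℝ), 0 < ρ ∧
      UE l k (fun _ y => (1 : E4 ≃ₗᵢ[ℝ] E4) y) (fun _ => Sh r1) ∧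
      ∀ᶠ j in l, ∀ y ∈ Sh r1, h j (k j y) = y ∧ ∀ y', ‖y' - y‖ < ρ → h j y' = y → k j y = y' := by
  obtain ⟨t, ht, hth⟩ := sh_thick (by linarith : 0 < r1) h2
  obtain ⟨t', ht', hth'⟩ := sh_thick (by linarith : 0 < r2) h3
  have s23 : Sh r2 ⊆ Sh r3 := sh_mono (by linarith) h3.le
  have s12 : Sh r1 ⊆ Sh r2 := sh_mono (by linarith) h2.le
  have c1 := fun {ε : ℝ} (hε : 0 < ε) => ue_c1 (A := fun _ => 1) hh hε
  obtain ⟨e, he, -⟩ := exists_orth_unit 0 0
  have hp : ∀ᶠ j in l, Par (h j) (Sh r2) := (c1 (ε := 1 / 2) (by norm_num)).mono fun j hj =>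
    ⟨isOpen_shell _ _, fun y hy => (hj y (s23 hy)).1.contMDiffAt.contMDiffWithinAt, fun y hy => by
      rw [mfderiv_eq_fderiv]; exact inj_of_near (hj y (s23 hy)).2.2⟩
  have H : FH l (fun _ => eucM) (fun _ y => y) h (fun _ => Sh r2) (fun _ => Sh r2) (fun _ => Sh r1)
      (fun _ => 1) (min t t') fun j => h j e := by
    refine ⟨?_, mc_eucM (ue_one (sh_sub_ball r2)), mc_eucM (hh.mono (Eventually.of_forall fun _ => s23)),
      lt_min ht ht', ⟨r1, Eventually.of_forall fun _ => sh_sub_ball r1⟩, fun ε hε => ?_⟩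
    · filter_upwards [hp, c1 (ε := 1 / 2) (by norm_num)] with j a b
      refine ⟨par_mono par_id (isOpen_shell _ _) (subset_univ _), a, fun x hx y _ d e => ?_,
        isOpen_shell _ _, s12, fun y hy => (closedBall_subset_closedBall ?_).trans (hth y hy)⟩
      · have hy : y ∈ closedBall x t' := by
          rw [mem_closedBall, dist_eq_norm, norm_sub_rev]; exact d.le.trans (min_le_right _ _)
        have := (convex_closedBall x t').norm_image_sub_le_of_norm_hasFDerivWithin_le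
          (f := fun w => h j w - w) (C := 1 / 2)
          (f' := fun w => fderiv ℝ (h j) w - ((1 : E4 ≃ₗᵢ[ℝ] E4) : E4 →L[ℝ] E4))
          (fun w hw => (((b w (hth' x hx hw)).1.differentiableAt infty_ne).hasFDerivAt.sub
            (hasFDerivAt_id w)).hasFDerivWithinAt) (fun w hw => (b w (hth' x hx hw)).2.2)
          (mem_closedBall_self ht'.le) hy
        rw [e, sub_sub_sub_cancel_left, norm_sub_rev] at this
        exact (sub_eq_zero.1 (norm_eq_zero.1 (by linarith [norm_nonneg (y - x)]))).symm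
      · linarith [min_le_left t t']
    · have hη : 0 < min (1 / 4) (ε / 2) := lt_min (by norm_num) (by positivity)
      have hη1 := min_le_left (1 / 4 : ℝ) (ε / 2)
      have hη2 := min_le_right (1 / 4 : ℝ) (ε / 2)
      have e2 : e ∈ Sh r2 := unit_mem_sh (by linarith) he
      filter_upwards [hp, c1 hη] with j a b
      obtain ⟨-, b1, b2⟩ := b e (s23 e2)
      have b3 : ‖h j e - e‖ ≤ min (1 / 4) (ε / 2) := b1
      have b4 := abs_le.1 ((abs_norm_sub_norm_le _ _).trans b3)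
      obtain ⟨L, hL⟩ := exists_isD par_id a (mem_univ (h j e)) e2 rfl
      refine ⟨⟨?_, by linarith [b4.2]⟩, e, L, rfl, hL, ?_, ?_⟩
      · have : 1 / r1 ≤ 1 / 2 := one_div_le_one_div_of_le (by norm_num) h1
        linarith [b4.1]
      · show ‖e - h j e‖ ≤ ε
        rw [norm_sub_rev]; linarith
      · refine ContinuousLinearMap.opNorm_le_bound _ hε.le fun X => ?_
        have k := hL X
        rw [mfderiv_eq_fderiv, mfderiv_eq_fderiv, fderiv_fun_id] at k
        have k1 : X = fderiv ℝ (h j) e (L X) := k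
        have k2 : ‖fderiv ℝ (h j) e (L X) - L X‖ ≤ min (1 / 4) (ε / 2) * ‖L X‖ :=
          ((fderiv ℝ (h j) e - ((1 : E4 ≃ₗᵢ[ℝ] E4) : E4 →L[ℝ] E4)).le_opNorm (L X)).trans (by gcongr)
        rw [← k1, norm_sub_rev] at k2
        have k3 := norm_le_norm_add_norm_sub' (L X) X
        show ‖L X - X‖ ≤ ε * ‖X‖
        nlinarith [norm_nonneg X, norm_nonneg (L X - X), norm_nonneg (L X)]
  have hc : ∀ᶠ j in l, ∀ y ∈ Sh r1, Ch (Sh r1) (h j e) y :=
    (H.base 1 one_pos).mono fun j hj y hy => ch_sh h1 hj.1 hy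
  refine ⟨fun j => tr (fun y => y) (h j) 1 (min t t'), min t t' / 4, by positivity, H.ue hc, ?_⟩
  filter_upwards [H.dom hc, H.rh] with j a b y hy
  exact ⟨(RH.spec (a hy)).2, fun y' c d => b.eq hy c d⟩

end Crest.Agent.N207.Gs

end
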