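import Crest.Agent.N207.G.Fd

/-!
# Row 207, block G (helper7): local injectivity at a fixed scale
-/

set_option autoImplicit false
set_option linter.unusedSectionVars false
set_option maxSynthPendingDepth 3

open scoped ContDiff Manifold Topology
open Set Filter Metric
open Crest.GeometryTopology.CoordMetric
open Crest.Agent.R202.Tens Crest.Agent.N207.Jt

noncomputable section

namespace Crest.Agent.N207.Gs

/-- normal coordinates with curvature tending to zero are asymptotically Euclidean -/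
theorem mc_of_nc {n : ℕ} {ι : Type} {l : Filter ι} {G : ι → MetricField n} {S : ι → Set (En n)}
    {R : ℝ} (hR : 0 < R) (hN : ∀ᶠ j in l, F.NC (G j) (S j) R)
    (h : ∀ (k : ℕ) (δ : ℝ), 0 < δ → ∀ᶠ j in l, ∀ x ∈ S j,
      nsq (G j) (covN (G j) (rmT (G j)) k) x ≤ δ ^ 2) : MC l G S := by
  intro a b
  have key : ∀ (k : ℕ) (ε : ℝ), 0 < ε → ∀ᶠ p in un l S, ‖iteratedFDeriv ℝ k
      (fun y => G p.1 y a b - (1 : Matrix (Fin n) (Fin n) ℝ) a b) p.2‖ ≤ ε := by
    intro k ε hε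
    obtain ⟨C, hC0, hC⟩ := F.ck_bound n k 1
    set δ := min 1 (ε * R ^ k / (C + 1)) with hδ
    have h0 : 0 < δ := lt_min one_pos (by positivity)
    have h1 : ∀ᶠ j in l, ∀ i ∈ Finset.range (k + 1), ∀ x ∈ S j,
        nsq (G j) (covN (G j) (rmT (G j)) i) x ≤ (δ / R ^ (i + 2)) ^ 2 :=
      (Finset.eventually_all _).2 fun i _ => h i _ (by positivity)
    refine ev_un.2 ?_
    filter_upwards [hN, h1] with j n1 n2 x hx
    refine (hC n1 h0 (min_le_left _ _) (fun i hi => n2 i (Finset.mem_range.2 (by omega))) k le_rfl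
      x hx a b).trans ?_
    have h2 : δ * (C + 1) ≤ ε * R ^ k := (le_div_iff₀ (by positivity)).1 (min_le_right _ _)
    rw [div_le_iff₀ (by positivity)]
    nlinarith
  have sm : ∀ᶠ p in un l S, ContDiffAt ℝ ∞
      (fun y => G p.1 y a b - (1 : Matrix (Fin n) (Fin n) ℝ) a b) p.2 := ev_un.2 (by
    filter_upwards [hN] with j n1 x hx
    exact ((n1.riem.contDiffOn a b).contDiffAt (n1.riem.isOpen.mem_nhds hx)).sub contDiffAt_const)
  have g0 : GE (un l S) (fun p y => G p.1 y a b - (1 : Matrix (Fin n) (Fin n) ℝ) a b) Prod.snd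
      (fun _ _ => (0 : ℝ)) Prod.snd := by
    refine ⟨⟨sm, fun k => ⟨1, key k 1 one_pos⟩⟩, GB.const' _, fun k => ?_⟩
    refine Metric.tendsto_nhds.2 fun ε hε => (key k (ε / 2) (by positivity)).mono fun p hp => ?_
    rw [dist_zero_right, iteratedFDeriv_fun_zero, Pi.zero_apply, sub_zero]
    linarith
  have := g0.add (GE.const' ((1 : Matrix (Fin n) (Fin n) ℝ) a b))
  simpa only [sub_add_cancel, zero_add] using this

variable {M : Type*} [TopologicalSpace M] [ChartedSpace E4 M] [IsManifold 𝓘(ℝ, E4) ∞ M]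
  [T3Space M] [ConnectedSpace M] [MeasurableSpace M] [BorelSpace M] {ι : Type}

theorem par_tr {Ψ : E4 → M} {U : Set E4} (h : Par Ψ U) {a : E4} {r : ℝ} (hr : ball a r ⊆ U) :
    Par (fun y => Ψ (a + y)) (ball 0 r) :=
  par_comp h isOpen_ball (contDiff_const.add contDiff_id).contDiffOn
    (fun y hy => hr (by simpa using hy)) fun y _ => by
      rw [fderiv_const_add, fderiv_fun_id]; exact fun _ _ e => e

theorem pm_tr (m : Met 4 M) {Ψ : E4 → M} {U : Set E4} (h : Par Ψ U) {a y : E4} (hy : a + y ∈ U) :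
    m.pm (fun y => Ψ (a + y)) y = m.pm Ψ (a + y) := by
  ext i j
  rw [← bil_single (m.pm _ y), pm_comp_bil m (T := fun y => a + y) (par_md h hy) (by fun_prop),
    fderiv_const_add, fderiv_fun_id]
  exact bil_single _ _ _

/-- curvature decay on balls around points of the annulus -/
theorem In.ev_rm {l : Filter ι} {g : ι → Met 4 M} {z : ι → M} {b : ι → M → ℝ} {κ : ℝ}
    (h : In l g z b κ) {a R : ℝ} (ha : 0 < a) (hR : 0 < R) (k : ℕ) {δ : ℝ} (hδ : 0 < δ) :
    ∀ᶠ j in l, ∀ q, a ≤ (g j).d (z j) q → (g j).d (z j) q ≤ R → (g j).rm k q ≤ δ ^ 2 := by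
  set e := min (min δ a) (min (1 / R) (1 / (k + 1))) with he
  have e0 : 0 < e := by positivity
  have e1 : e ≤ δ := (min_le_left _ _).trans (min_le_left _ _)
  have e2 : e ≤ a := (min_le_left _ _).trans (min_le_right _ _)
  have e3 : e * R ≤ 1 :=
    (le_div_iff₀ hR).1 ((min_le_right _ _).trans (min_le_left _ _))
  have e4 : e * (k + 1) ≤ 1 :=
    (le_div_iff₀ (by positivity)).1 ((min_le_right _ _).trans (min_le_right _ _))
  filter_upwards [h.ac e e0] with j hj q q1 q2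
  refine (hj.rm k (by nlinarith) q (by linarith) (by nlinarith)).trans ?_
  rw [one_pow, div_one]
  gcongr

theorem lis [CompactSpace M] : LIS M := by
  intro ι l g z b κ Ψ U U' a R r hI hG ha hr hU hU'
  obtain ⟨c0, c1, c2, hc⟩ := F.static_chart 1 κ hI.pos
  set r0 := min (a / 4) 1 with hr0
  have r1 : 0 < r0 := by positivity
  have r2 : r0 ≤ a / 4 := min_le_left _ _
  have r3 : r0 ≤ 1 := min_le_right _ _
  set c := c0 * r0 with hcd
  have c3 : 0 < c := by positivity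
  have c4 : c ≤ r0 := by nlinarith
  set ρ := min r (c / 2) with hρ
  have p0 : 0 < ρ := by positivity
  have p1 : ρ ≤ r := min_le_left _ _
  have p2 : ρ ≤ c / 2 := min_le_right _ _
  refine ⟨ρ, p0, (ev_un (P := fun p : ι × E4 => ∀ b ∈ U', ‖p.2 - b‖ < ρ →
    Ψ p.1 p.2 = Ψ p.1 b → p.2 = b) (S := fun _ => U')).1 ?_⟩
  refine mem_iff_ultrafilter.2 fun 𝒰 h𝒰 => ?_
  have t1 : Tendsto Prod.fst (𝒰 : Filter (ι × E4)) l := (un_fst l _).mono_left h𝒰
  have m1 : ∀ᶠ p in (𝒰 : Filter (ι × E4)), p.2 ∈ U' := h𝒰 (un_mem l fun _ => U')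
  have m2 : ∀ᶠ p in (𝒰 : Filter (ι × E4)), p.2 ∈ U := m1.mono fun p hp => hU' _ hp (mem_ball_self hr)
  have rm : ∀ (k : ℕ) (δ : ℝ), 0 < δ → ∀ᶠ p in (𝒰 : Filter (ι × E4)),
      ∀ q ∈ (g p.1).ball (Ψ p.1 p.2) r0, (g p.1).rm k q ≤ δ ^ 2 := fun k δ hδ => by
    filter_upwards [t1.eventually (hI.ev_rm (a := a / 2) (R := |R| + a) (by positivity)
      (by positivity) k hδ), t1.eventually (hG.sw (a / 4) (by positivity)), m2] with p h1 h2 h3 q hq
    have a1 := abs_le.1 (h2 _ h3)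
    have a2 := hU _ h3
    have a3 : (g p.1).d q (Ψ p.1 p.2) < r0 := hq
    have a4 : (g p.1).d (z p.1) (Ψ p.1 p.2) ≤ (g p.1).d (z p.1) q + (g p.1).d q (Ψ p.1 p.2) :=
      dist_triangle (α := Sl (g p.1)) _ _ _
    have a5 : (g p.1).d (z p.1) q ≤ (g p.1).d (z p.1) (Ψ p.1 p.2) + (g p.1).d q (Ψ p.1 p.2) :=
      dist_triangle_right (α := Sl (g p.1)) _ _ _
    exact h1 q (by linarith) (by linarith [le_abs_self R])
  have ex : ∀ p : ι × E4, ∃ φ : E4 → M,
      ((∀ j ≤ 1, ∀ q ∈ (g p.1).ball (Ψ p.1 p.2) r0, (g p.1).rm j q ≤ 1 ^ 2) ∧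
        AC (g p.1) (z p.1) (b p.1) 1 1 κ) → Sk.BallCh φ (Ψ p.1 p.2) c ∧
      (∀ s, φ '' ball 0 s = (g p.1).ball (Ψ p.1 p.2) s) ∧ F.NC ((g p.1).pm φ) (ball 0 c) c := by
    intro p
    by_cases H : (∀ j ≤ 1, ∀ q ∈ (g p.1).ball (Ψ p.1 p.2) r0, (g p.1).rm j q ≤ 1 ^ 2) ∧
        AC (g p.1) (z p.1) (b p.1) 1 1 κ
    · obtain ⟨φ, -, h⟩ := hc (g p.1) (Ψ p.1 p.2) r0 r1 (fun j hj q hq => (H.1 j hj q hq).trans (by
        have : r0 ^ (j + 2) ≤ 1 := pow_le_one₀ r1.le r3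
        gcongr
        rwa [le_div_iff₀ (by positivity), one_mul]))
        fun q _ s hs => H.2.vol q s ⟨hs.1, hs.2.trans r3⟩
      exact ⟨φ, fun _ => h⟩
    · exact ⟨Ψ p.1, fun h => (H h).elim⟩
  choose φ hφ using ex
  have hφ' := ((((rm 0 1 one_pos).and (rm 1 1 one_pos)).mono fun p hp j hj => by
    rcases Nat.le_one_iff_eq_zero_or_eq_one.1 hj with rfl | rfl
    exacts [hp.1, hp.2]).and (t1.eventually (hI.ac 1 one_pos))).mono hφ
  have mc' : MC 𝒰 (fun p => (g p.1).pm (φ p)) fun _ => ball 0 c := by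
    refine mc_of_nc c3 (hφ'.mono fun p hp => hp.2.2) fun k δ hδ => ?_
    filter_upwards [hφ', rm k δ hδ] with p h1 h2 x hx
    rw [← h1.1.par.par_rm (g p.1) k hx]
    exact h2 _ (h1.2.1 r0 ▸ mem_image_of_mem _ (ball_subset_ball c4 hx))
  set Ψ' : ι × E4 → E4 → M := fun p y => Ψ p.1 (p.2 + y) with hΨ'
  have par : ∀ᶠ p in (𝒰 : Filter (ι × E4)), Par (Ψ' p) (ball 0 r) := by
    filter_upwards [t1.eventually hG.par, m1] with p h1 h2 using par_tr h1 (hU' _ h2)
  have mc : MC 𝒰 (fun p => (g p.1).pm (Ψ' p)) fun _ => ball 0 r := by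
    intro i j
    have t2 := un_fst (𝒰 : Filter (ι × E4)) fun _ => ball (0 : E4) r
    have m3 := un_mem (𝒰 : Filter (ι × E4)) fun _ => ball (0 : E4) r
    have m4 : ∀ᶠ q in un (𝒰 : Filter (ι × E4)) fun _ => ball (0 : E4) r, q.1.2 + q.2 ∈ U := by
      filter_upwards [t2.eventually m1, m3] with q h1 h2 using hU' _ h1 (by simpa using h2)
    have hB : GB (un (𝒰 : Filter (ι × E4)) fun _ => ball (0 : E4) r)
        (fun q y => q.1.2 + y) Prod.snd :=
      (GB.const ⟨R, (t2.eventually m2).mono fun q hq => (hU _ hq).2⟩).add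
        (GB.id ⟨r, m3.mono fun q hq => (mem_ball_zero_iff.1 hq).le⟩)
    refine ((hG.mc.at (t1.comp t2) m4 i j).comp hB.ge).congr_left ?_
    filter_upwards [(t1.comp t2).eventually hG.par, m4] with q h1 h2
    refine ⟨rfl, ?_⟩
    have : ContinuousAt (fun y => q.1.2 + y) q.2 := by fun_prop
    filter_upwards [this.eventually (h1.isOpen.mem_nhds h2)] with y hy
    exact congrFun₂ (pm_tr _ h1 hy) i j
  have e0 : ∀ᶠ p in (𝒰 : Filter (ι × E4)), φ p 0 = Ψ' p 0 :=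
    hφ'.mono fun p hp => by rw [hp.1.ctr, hΨ']; simp
  have exL : ∀ p, ∃ L, (Par (Ψ' p) (ball 0 r) ∧ Par (φ p) (ball 0 c) ∧ φ p 0 = Ψ' p 0) →
      IsD (Ψ' p) (φ p) 0 0 L := fun p => by
    by_cases H : Par (Ψ' p) (ball 0 r) ∧ Par (φ p) (ball 0 c) ∧ φ p 0 = Ψ' p 0
    · obtain ⟨L, hL⟩ := exists_isD H.1 H.2.1 (mem_ball_self hr) (mem_ball_self c3) H.2.2
      exact ⟨L, fun _ => hL⟩
    · exact ⟨0, fun h => (H h).elim⟩
  choose L hL using exL
  have hL' := (par.and ((hφ'.mono fun p hp => hp.1.par).and e0)).mono hL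
  obtain ⟨A, hA⟩ := exists_orth 𝒰 (L := L)
    (mc.at tendsto_id (Eventually.of_forall fun _ => mem_ball_self hr))
    (mc'.at tendsto_id (Eventually.of_forall fun _ => mem_ball_self c3))
    (by filter_upwards [hL', e0] with p h1 h2 using h1.bil (g p.1) h2)
  have rh : ∀ᶠ p in (𝒰 : Filter (ι × E4)),
      RH (Ψ' p) (φ p) (ball 0 r) (ball 0 c) A c (ball 0 ρ) := by
    filter_upwards [par, hφ'] with p h1 h2
    refine ⟨h1, h2.1.par, fun x hx y hy _ e => h2.1.inj hx hy e, isOpen_ball,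
      ball_subset_ball p1, fun y hy => closedBall_subset_ball' ?_⟩
    rw [dist_zero_right, A.norm_map]
    linarith [mem_ball_zero_iff.1 hy]
  have fh : FH 𝒰 (fun p => g p.1) Ψ' φ (fun _ => ball 0 r) (fun _ => ball 0 c)
      (fun _ => ball 0 ρ) (fun _ => A) c fun _ => 0 := by
    refine ⟨rh, mc, mc', c3, ⟨ρ, Eventually.of_forall fun _ => subset_rfl⟩, fun ε hε => ?_⟩
    filter_upwards [hL', e0, Metric.tendsto_nhds.1 hA ε hε] with p h1 h2 h3
    exact ⟨mem_ball_self p0, 0, L p, h2, h1, by simpa using hε.le, by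
      rw [← dist_eq_norm]; exact h3.le⟩
  filter_upwards [fh.c1 (ε := 1 / 2) (by norm_num), rh, hφ'] with p h1 h2 h3 y _ hy e
  have h0 : (0 : E4) ∈ ball (0 : E4) ρ := mem_ball_self p0
  have n1 : ∀ w ∈ ball (0 : E4) ρ, Nr (Ψ' p) (φ p) A c (ball 0 ρ) (1 / 2) w := fun w hw =>
    h1 w (ch_of_seg ((convex_ball 0 ρ).segment_subset h0 hw))
  have hw : y - p.2 ∈ ball (0 : E4) ρ := by rwa [mem_ball_zero_iff, norm_sub_rev]
  have k := (convex_ball (0 : E4) ρ).norm_image_sub_le_of_norm_hasFDerivWithin_le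
    (f := fun w => tr (Ψ' p) (φ p) A c w - A w)
    (fun w hw => (((h2.loc (n1 w hw).1).2.differentiableAt infty_ne).hasFDerivAt.sub
      (A : E4 →L[ℝ] E4).hasFDerivAt).hasFDerivWithinAt) (fun w hw => (n1 w hw).2.2) h0 hw
  have s1 := RH.spec (n1 _ hw).1
  have s0 := RH.spec (n1 _ h0).1
  have e1 : tr (Ψ' p) (φ p) A c (y - p.2) = tr (Ψ' p) (φ p) A c 0 :=
    h3.1.inj (h2.mem hw s1.1) (h2.mem h0 s0.1) (by
      rw [s1.2, s0.2, hΨ']; simp only [add_sub_cancel, add_zero]; exact e.symm)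
  rw [e1, map_zero, sub_zero, sub_zero, sub_sub_cancel_left, norm_neg, A.norm_map] at k
  have : ‖y - p.2‖ = 0 := by linarith [norm_nonneg (y - p.2)]
  exact (sub_eq_zero.1 (norm_eq_zero.1 this)).symm

end Crest.Agent.N207.Gs

end
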