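import Crest.Agent.N207.G.Fd
import Crest.Agent.N207.Rad.Crd2

/-!
# Row 207, block G (helper24): Euclidean lemmas for `LONG`
-/

set_option autoImplicit false
set_option linter.unusedSectionVars false

open scoped ContDiff Manifold Topology
open Set Filter Metric
open Crest.GeometryTopology.CoordMetric Crest.GeometryTopology.MetricFamily
open Crest.Agent.R202.Tens Crest.Agent.N207.Jt Crest.Agent.R247

noncomputable section

namespace Crest.Agent.N207.Gs.Lo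

open Sk

theorem clm_le {L : E4 →L[ℝ] ℝ} {c : ℝ} (h : ∀ a, |L (EuclideanSpace.single a 1)| ≤ c) :
    ‖L‖ ≤ 4 * c := by
  have hc : 0 ≤ c := (abs_nonneg _).trans (h 0)
  refine ContinuousLinearMap.opNorm_le_bound _ (by positivity) fun v => ?_
  conv_lhs => rw [F.sum_single' v]
  rw [map_sum, Real.norm_eq_abs, mul_assoc]
  refine Rad.sum4_le fun i => ?_
  rw [map_smul, smul_eq_mul, mul_comm c]
  exact Rad.abs_mul_le (F.abs_coord_le v i) (h i)

theorem pd_le (f : E4 → ℝ) (x : E4) (a : Fin 4) : |pderiv a f x| ≤ ‖fderiv ℝ f x‖ := by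
  simpa [pderiv] using (fderiv ℝ f x).le_opNorm (EuclideanSpace.single a (1 : ℝ))

theorem pd_cd {f : E4 → ℝ} (hf : ContDiff ℝ ∞ f) (a : Fin 4) : ContDiff ℝ ∞ (pderiv a f) :=
  contDiffOn_univ.1 (sm_pd isOpen_univ hf.contDiffOn a)

/-- second derivatives of an almost conical function -/
theorem d2_le {G : MetricField 4} {U : Set E4} {x : E4} {η B : ℝ} (hG : IsRiemannianOn G U)
    (hx : x ∈ U) (h : JG 1 G x 1 η) (hη : η ≤ 1 / 100) {f : E4 → ℝ} (hf : ContDiff ℝ ∞ f)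
    (hP : nsq G (hessT G f) x - 4 * laplaceBeltrami G f x + 16 ≤ η ^ 2) (hB0 : 0 ≤ B)
    (hB : Bo84.gam G f f x ≤ B ^ 2) (a b : Fin 4) :
    |pderiv a (pderiv b f) x - 2 * (1 : Matrix (Fin 4) (Fin 4) ℝ) a b| ≤ (4 + 96 * B) * η := by
  have h0 := Rad.jg_nonneg h
  have hp := hG.posDef x hx
  have h1 := Ar.comp_sq_le hp (Rad.jg_up h hη) (hessT G f x - (2 : ℝ) • matT G x) ![a, b]
  rw [Rad.ipA_sub_two hG hx] at h1
  rw [lapB_eq_trT hG hx (hf.contDiffAt.of_le Bo84.two_le_infty)] at hP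
  have h2 : |(hessT G f x - (2 : ℝ) • matT G x) ![a, b]| ≤ 2 * η :=
    abs_le_of_sq_le_sq' (h1.trans (le_of_le_of_eq (mul_le_mul_of_nonneg_left hP (by norm_num))
      (by ring))) (by positivity) |> abs_le.2
  have h3 : ∀ k, |pderiv k f x| ≤ 2 * B := fun k => by
    have a1 := Ar.comp_sq_le hp (Rad.jg_up h hη) (dT f x) ![k]
    have a2 : ipA (G x)⁻¹ (dT f x) (dT f x) = Bo84.gam G f f x := ip_dT G f f x
    rw [a2] at a1
    have a3 : pderiv k f x ^ 2 ≤ (2 * B) ^ 2 := le_trans a1 (by nlinarith [sq_nonneg B])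
    exact abs_le.2 (abs_le_of_sq_le_sq' a3 (by positivity))
  have h4 := Rad.sum4_le fun k => Rad.abs_mul_le (Rad.jg_chr hG hx h hη le_rfl one_pos k a b) (h3 k)
  rw [Pi.sub_apply, hessT_apply] at h2
  simp only [Pi.smul_apply, smul_eq_mul, matT, Matrix.cons_val_zero, Matrix.cons_val_one] at h2
  obtain ⟨c1, c2⟩ := abs_le.1 h2
  obtain ⟨c3, c4⟩ := abs_le.1 h4
  obtain ⟨c5, c6⟩ := abs_le.1 (Rad.jg_ent h a b)
  exact abs_le.2 ⟨by linarith, by linarith⟩

/-- Taylor estimates along rays -/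
theorem taylor {u : E4 → ℝ} (hu : ContDiff ℝ ∞ u) {U : Set E4} (hs : StarConvex ℝ 0 U) {R ε : ℝ}
    (hR : U ⊆ ball 0 R) (h2 : ∀ x ∈ U, ∀ a b, |pderiv a (pderiv b u) x| ≤ ε)
    (h1 : ‖fderiv ℝ u 0‖ ≤ ε) (h0 : |u 0| ≤ ε) {v : E4} (hv : v ∈ U) :
    ‖fderiv ℝ u v‖ ≤ 4 * (4 * R + 1) * ε ∧ |u v| ≤ (1 + 4 * (4 * R + 1) * R) * ε := by
  have he : 0 ≤ ε := (abs_nonneg _).trans h0
  have key : ∀ {f : E4 → ℝ} {c : ℝ}, ContDiff ℝ ∞ f → 0 ≤ c → (∀ x ∈ U, ‖fderiv ℝ f x‖ ≤ c) →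
      ∀ w ∈ U, |f w| ≤ |f 0| + c * R := fun {f c} hf hc hb w hw => by
    have a1 := (convex_segment (0 : E4) w).norm_image_sub_le_of_norm_fderiv_le (𝕜 := ℝ)
      (fun x _ => hf.differentiable (by simp) x) (fun x hx => hb x (hs.segment_subset hw hx))
      (left_mem_segment _ _ _) (right_mem_segment _ _ _)
    rw [sub_zero, Real.norm_eq_abs] at a1
    have a2 := mul_le_mul_of_nonneg_left (mem_ball_zero_iff.1 (hR hw)).le hc
    linarith [abs_sub_abs_le_abs_sub (f w) (f 0)]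
  have h3 : ∀ w ∈ U, ‖fderiv ℝ u w‖ ≤ 4 * (4 * R + 1) * ε := fun w hw => by
    rw [mul_assoc]
    refine clm_le fun b => (key (pd_cd hu b) (c := 4 * ε) (by positivity)
      (fun x hx => clm_le fun a => h2 x hx a b) w hw).trans ?_
    linarith [(pd_le u 0 b).trans h1]
  refine ⟨h3 v hv, (key hu ((norm_nonneg _).trans (h3 v hv)) h3 v hv).trans ?_⟩
  linarith

theorem q_cd (e : E4) : ContDiff ℝ ∞ fun v => Rad.nq (e + v) :=
  Rad.nq_cd.comp (contDiff_const.add contDiff_id)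

theorem q_fd (e v : E4) : fderiv ℝ (fun v => Rad.nq (e + v)) v = (2 : ℝ) • innerSL ℝ (e + v) := by
  rw [fderiv_comp_add_left, show Rad.nq = fun y : E4 => ‖y‖ ^ 2 from rfl,
    (hasStrictFDerivAt_norm_sq _).hasFDerivAt.fderiv, two_smul, two_smul]

theorem q_pd2 (e v : E4) (a b : Fin 4) : pderiv a (pderiv b fun v => Rad.nq (e + v)) v =
    2 * (1 : Matrix (Fin 4) (Fin 4) ℝ) a b := by
  have : (pderiv b fun v => Rad.nq (e + v)) = fun v => pderiv b Rad.nq (e + v) :=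
    funext fun v => by unfold pderiv; rw [fderiv_comp_add_left]
  rw [this, ← Rad.pd_pd_nq a b (e + v)]
  unfold pderiv
  rw [fderiv_comp_add_left (f := fun y => fderiv ℝ Rad.nq y (EuclideanSpace.single b 1))]

theorem ev_small (K : ℝ) {c : ℝ} (hc : 0 < c) : ∀ᶠ η in 𝓝[>] (0 : ℝ), K * η ≤ c := by
  have : Tendsto (fun η : ℝ => K * η) (𝓝 0) (𝓝 (K * 0)) := tendsto_id.const_mul K
  rw [mul_zero] at this
  exact (this.eventually (ge_mem_nhds hc)).filter_mono nhdsWithin_le_nhds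

variable {ι : Type} {l : Filter ι}

theorem mc_of_jg {G : ι → MetricField 4} {S : ι → Set E4}
    (hs : ∀ j a b, ContDiff ℝ ∞ fun x => G j x a b)
    (h : ∀ (m : ℕ) (ε : ℝ), 0 < ε → ∀ᶠ j in l, ∀ y ∈ S j, JG m (G j) y 1 ε) : MC l G S := by
  intro a b
  have h1 : ∀ k : ℕ, Tendsto (fun p : ι × E4 => iteratedFDeriv ℝ k (dv (G p.1) a b) p.2) (un l S)
      (𝓝 0) := fun k => (tendsto_iff_dist_tendsto_zero.2 (tendsto_order.2 ⟨fun c hc =>
    .of_forall fun p => hc.trans_le dist_nonneg, fun c hc => ev_un.2 ((h k (c / 2) (half_pos hc)).mono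
      fun j hj y hy => by
        have := hj y hy k le_rfl a b
        rw [J1, one_pow, mul_one] at this
        rw [dist_zero_right]
        exact this.trans_lt (half_lt_self hc))⟩))
  have h2 : GE (un l S) (fun p => dv (G p.1) a b) Prod.snd (fun _ _ => 0) Prod.snd :=
    ⟨⟨.of_forall fun p => ((hs p.1 a b).sub contDiff_const).contDiffAt, fun k =>
      ⟨1, ((tendsto_zero_iff_norm_tendsto_zero.1 (h1 k)).eventually (ge_mem_nhds one_pos))⟩⟩,
      GB.const' 0, fun k => by simpa using h1 k⟩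
  simpa [dv] using h2.add (GE.const' ((1 : Matrix (Fin 4) (Fin 4) ℝ) a b))

theorem jg_sub {m : ℕ} {G : MetricField 4} {y e : E4} {s c : ℝ} (h : JG m G (y - e) s c) :
    JG m (fun x => G (x - e)) y s c := fun k hk a b => by
  have := h k hk a b
  rw [J1, ← iteratedFDeriv_comp_sub] at this
  exact this

/-- the visible region, seen from `e` -/
def Wd (e : E4) (s R : ℝ) : Set E4 := {v | e + v ∈ Dm e s R}

theorem wd_open (e : E4) (s R : ℝ) : IsOpen (Wd e s R) :=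
  (isOpen_dm e s R).preimage (continuous_const.add continuous_id)

variable {e v : E4} {s R : ℝ}

theorem wd_zero (he : ‖e‖ = 1) (hs : s < 1) (hR : 1 < R) : (0 : E4) ∈ Wd e s R := by
  have : inner ℝ e e = (1 : ℝ) := by rw [real_inner_self_eq_norm_sq, he, one_pow]
  exact ⟨by rw [add_zero, he]; exact hR, e, by linarith, by linarith, by rw [add_zero]; linarith⟩

theorem wd_smul (he : ‖e‖ = 1) (hR : 1 < R) (hv : v ∈ Wd e s R) {t : ℝ} (ht : t ∈ Icc (0 : ℝ) 1) :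
    t • v ∈ Wd e s R := by
  obtain ⟨h1, w, h2, h3, h4⟩ := hv
  have e1 : e + t • v = (1 - t) • e + t • (e + v) := by module
  refine ⟨?_, w, h2, h3, ?_⟩
  · rw [e1]
    exact mem_ball_zero_iff.1 (convex_ball (0 : E4) R (mem_ball_zero_iff.2 (he ▸ hR))
      (mem_ball_zero_iff.2 h1) (by linarith [ht.2]) ht.1 (by ring))
  · rw [e1, inner_add_right, real_inner_smul_right, real_inner_smul_right]
    have := convex_Ioi s h3 h4 (show 0 ≤ 1 - t by linarith [ht.2]) ht.1 (by ring)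
    exact this

theorem wd_ball (he : ‖e‖ = 1) : Wd e s R ⊆ ball 0 (R + 1) := fun v hv => by
  have := norm_sub_le (e + v) e
  rw [add_sub_cancel_left, he] at this
  exact mem_ball_zero_iff.2 (by linarith [hv.1])

theorem wd_lo (hv : v ∈ Wd e s R) : s / 3 ≤ ‖e + v‖ := by
  obtain ⟨-, w, h2, -, h4⟩ := hv
  nlinarith [real_inner_le_norm w (e + v), norm_nonneg (e + v)]

theorem star_of {U : Set E4} (h : ∀ v ∈ U, ∀ t ∈ Icc (0 : ℝ) 1, t • v ∈ U) : StarConvex ℝ 0 U :=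
  fun v hv a b ha hb hab => by
    rw [smul_zero, zero_add]; exact h v hv b ⟨hb, by linarith⟩

/-- the continuity method along rays -/
theorem exit {W V C : Set E4} (hW : IsOpen W) (hs : ∀ v ∈ W, ∀ t ∈ Icc (0 : ℝ) 1, t • v ∈ W)
    (h0 : (0 : E4) ∈ W) (hV : IsOpen V) (hC : IsClosed C) (hCV : C ⊆ V) (h0' : (0 : E4) ∈ V)
    (h : ∀ U, IsOpen U → StarConvex ℝ 0 U → (0 : E4) ∈ U → U ⊆ W → U ⊆ V → U ⊆ C) : W ⊆ V := by
  set U : Set E4 := {v | v ∈ W ∧ ∀ t ∈ Icc (0 : ℝ) 1, t • v ∈ V} with hU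
  have hUo : IsOpen U := isOpen_iff_mem_nhds.2 fun v hv => (hW.eventually_mem hv.1).and
    (isCompact_Icc.eventually_forall_of_forall_eventually (P := fun (x : E4) (t : ℝ) => t • x ∈ V)
      fun t ht => (show Continuous fun z : E4 × ℝ => z.2 • z.1 by fun_prop).continuousAt.eventually
        (hV.eventually_mem (hv.2 t ht)))
  have hUC := h U hUo (star_of fun v hv t ht => ⟨hs v hv.1 t ht, fun τ hτ => by
    rw [smul_smul]; exact hv.2 _ ⟨mul_nonneg hτ.1 ht.1, mul_le_one₀ hτ.2 ht.1 ht.2⟩⟩)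
    ⟨h0, fun t _ => by rwa [smul_zero]⟩ (fun v hv => hv.1)
    fun v hv => by simpa using hv.2 1 ⟨zero_le_one, le_rfl⟩
  intro v hv
  have hc : Continuous fun t : ℝ => t • v := by fun_prop
  have := IsClosed.Icc_subset_of_forall_mem_nhdsGT_of_Icc_subset (a := (0 : ℝ)) (b := 1)
    (s := {t | t • v ∈ C}) ((hC.preimage hc).inter isClosed_Icc)
    (hUC ⟨by rwa [zero_smul], fun t _ => by rwa [zero_smul, smul_zero]⟩) fun t ht h1 =>
      mem_nhdsWithin_of_mem_nhds (mem_of_superset (hc.continuousAt.preimage_mem_nhds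
        (hUo.mem_nhds ⟨hs v hv t ⟨ht.1, ht.2.le⟩, fun τ hτ => by
          rw [smul_smul]
          exact hCV (h1 ⟨mul_nonneg hτ.1 ht.1, mul_le_of_le_one_left ht.1 hτ.2⟩)⟩))
        fun τ hτ => hUC hτ)
  simpa using hCV (this ⟨zero_le_one, le_rfl⟩)

end Crest.Agent.N207.Gs.Lo

end
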