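import Crest.Agent.N207.G.Lo1

/-!
# Row 207, block G (helper24): `LONG` and `DIR`
-/

set_option autoImplicit false
set_option linter.unusedSectionVars false

open scoped ContDiff Manifold Topology
open Set Filter Metric
open Crest.GeometryTopology.CoordMetric Crest.GeometryTopology.MetricFamily
open Crest.Agent.R202.Tens Crest.Agent.N207.Jt Crest.Agent.R247

noncomputable section

namespace Crest.Agent.N207.Gs

open Sk

universe u

variable {M : Type u} [TopologicalSpace M] [ChartedSpace E4 M] [IsManifold 𝓘(ℝ, E4) ∞ M]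
  [T3Space M] [ConnectedSpace M] [MeasurableSpace M] [BorelSpace M]

namespace Lo

/-- the data at one index -/
structure Dt (g : Met 4 M) (z : M) (b : M → ℝ) (κ : ℝ) (p : M) (Φ : E4 → M) (e : E4) (δ : ℝ) :
    Prop where
  ac : AC g z b 1 δ κ
  ex : F.IsExp g p Φ
  dp : |g.d z p - 1| ≤ δ
  he : ‖e‖ = 1
  df : ‖fderiv ℝ (fun y => b (Φ y)) 0 - (2 : ℝ) • innerSL ℝ e‖ ≤ δ

variable {g : Met 4 M} {z p : M} {b : M → ℝ} {κ δ : ℝ} {Φ : E4 → M} {e : E4}

theorem f_cd (hb : Sm 4 b) (h : F.IsExp g p Φ) : ContDiff ℝ ∞ fun y => b (Φ y) :=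
  contMDiff_iff_contDiff.1 (hb.comp h.sm)

theorem d_cont (h : F.IsExp g p Φ) (z : M) : Continuous fun y => g.d z (Φ y) :=
  (continuous_const.dist continuous_id : Continuous fun q : Sl g => dist (α := Sl g) z q).comp
    h.sm.continuous

theorem d_up (h : F.IsExp g p Φ) (z : M) (v : E4) : g.d z (Φ v) ≤ g.d z p + ‖v‖ := by
  have h1 : g.d z (Φ v) ≤ g.d z p + g.d p (Φ v) := dist_triangle (α := Sl g) _ _ _
  have h2 : g.d p (Φ v) = g.d (Φ v) p := dist_comm (α := Sl g) _ _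
  linarith [h.d_le v]

/-- the set where the pull-back metric is close to the Euclidean one -/
theorem par_near (h : F.IsExp g p Φ) {U : Set E4} (hU : IsOpen U) (h1 : ∀ v ∈ U, ∀ a b,
    |g.pm Φ v a b - (1 : Matrix (Fin 4) (Fin 4) ℝ) a b| ≤ 1 / 50) : Par Φ U :=
  ⟨hU, h.sm.contMDiffOn, fun v hv => F.inj_of_pos g fun w hw => by
    have a1 := (abs_le.1 (F.gB_near (h1 v hv) w)).1
    have a2 : 0 < ‖w‖ ^ 2 := by positivity
    push_cast at a1
    linarith⟩

theorem near_open (h : F.IsExp g p Φ) :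
    IsOpen {v | ∀ a b, |g.pm Φ v a b - (1 : Matrix (Fin 4) (Fin 4) ℝ) a b| < 1 / 50} := by
  simp only [ofPred_forall]
  exact isOpen_iInter_of_finite fun a => isOpen_iInter_of_finite fun b =>
    isOpen_lt ((h.contDiff_pm a b).continuous.sub continuous_const).abs continuous_const

variable (M) in
/-- the estimates on star-shaped sets that stay away from the tip -/
theorem core {a R ε : ℝ} (ha : 0 < a) (hR : 1 ≤ R) (m : ℕ) (hε : 0 < ε) : ∃ δ, 0 < δ ∧
    ∀ {g : Met 4 M} {z p : M} {b : M → ℝ} {κ : ℝ} {Φ : E4 → M} {e : E4} {U : Set E4},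
      Dt g z b κ p Φ e δ → Par Φ U → StarConvex ℝ 0 U → (0 : E4) ∈ U → U ⊆ ball 0 R →
      (∀ v ∈ U, a ≤ g.d z (Φ v)) → ∀ v ∈ U, JG m (g.pm Φ) v 1 ε ∧ |g.d z (Φ v) - ‖e + v‖| ≤ ε ∧
        ‖fderiv ℝ (fun y => b (Φ y)) v - (2 : ℝ) • innerSL ℝ (e + v)‖ ≤ ε := by
  obtain ⟨C, hC0, hC⟩ := F.ck_bound 4 (m + 1) 1
  set B : ℝ := 2 * R + 7 with hB
  set D : ℝ := 2 + 4 * (4 * R + 1) * R with hD
  obtain ⟨η, ⟨⟨⟨e1, e2⟩, e3⟩, e4⟩, e0⟩ := (((((ev_small 1 (c := 1 / 100) (by norm_num)).and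
    (ev_small 1 hε)).and (ev_small (D * (4 + 96 * B)) hε)).and
    (ev_small (D * (4 + 96 * B)) (mul_pos hε ha))).and self_mem_nhdsWithin).exists
  have e0 : 0 < η := e0
  rw [one_mul] at e1 e2
  obtain ⟨δ, ⟨⟨⟨⟨d1, d2⟩, d3⟩, d4⟩, d5⟩, d0⟩ := ((((((ev_small ((m : ℝ) + 1) one_pos).and
    (ev_small 1 ha)).and (ev_small (R + 2) one_pos)).and (ev_small 1 (pow_pos e0 2))).and
    (ev_small (R ^ (m + 3)) (show 0 < η / (C + 1) by positivity))).and self_mem_nhdsWithin).exists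
  have d0 : 0 < δ := d0
  rw [one_mul] at d2 d4
  have d6 : δ ≤ η := d4.trans (by nlinarith)
  refine ⟨δ, d0, fun {g z p b κ Φ e U} h hP hs h0 hU hd => ?_⟩
  have hdp := abs_le.1 h.dp
  have hup : ∀ v ∈ U, g.d z (Φ v) ≤ R + 2 := fun v hv => by
    linarith [d_up h.ex z v, mem_ball_zero_iff.1 (hU hv)]
  have c1 : ∀ v ∈ U, δ * 1 ≤ g.d z (Φ v) := fun v hv => by linarith [hd v hv]
  have c2 : ∀ v ∈ U, δ * g.d z (Φ v) ≤ 1 := fun v hv => by nlinarith [hup v hv]
  have hη' : η / (C + 1) ≤ 1 := by rw [div_le_one (by positivity)]; linarith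
  have hJ : ∀ v ∈ U, JG (m + 1) (g.pm Φ) v 1 η := fun v hv k hk i j => by
    have a1 := hC (h.ex.nc hP hs h0 hU) (show 0 < η / (C + 1) by positivity) hη'
      (fun j hj x hx => by
        rw [← hP.par_rm g j hx]
        have a2 : (j : ℝ) ≤ m + 1 := by exact_mod_cast hj
        refine (h.ac.rm j (by nlinarith) _ (c1 x hx) (c2 x hx)).trans ?_
        rw [one_pow, div_one]
        refine pow_le_pow_left₀ d0.le ?_ 2
        rw [le_div_iff₀ (by positivity)]
        have a3 : R ^ (j + 2) ≤ R ^ (m + 3) := pow_le_pow_right₀ hR (by omega)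
        nlinarith) k hk v hv i j
    rw [J1, one_pow, mul_one]
    refine a1.trans ((div_le_self (by positivity) (one_le_pow₀ hR)).trans ?_)
    rw [mul_div_assoc', div_le_iff₀ (by positivity)]
    nlinarith
  have hf := f_cd h.ac.sm h.ex
  have hB0 : 0 ≤ B := by linarith
  have h2 : ∀ x ∈ U, ∀ i j, |pderiv i (pderiv j fun v => b (Φ v) - Rad.nq (e + v)) x| ≤
      (4 + 96 * B) * η := fun x hx i j => by
    have a1 : (pderiv j fun v => b (Φ v) - Rad.nq (e + v)) = fun y =>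
        pderiv j (fun v => b (Φ v)) y - pderiv j (fun v => Rad.nq (e + v)) y :=
      funext fun y => pd_sub j (hf.differentiable (by simp) y) ((q_cd e).differentiable (by simp) y)
    rw [a1, pd_sub i ((pd_cd hf j).differentiable (by simp) x)
      ((pd_cd (q_cd e) j).differentiable (by simp) x), q_pd2]
    refine d2_le (hP.riem g) hx (Rad.jg_mono (hJ x hx) (by omega) le_rfl) e1 hf ?_ hB0 ?_ i j
    · rw [← hP.par_hh g h.ac.sm hx, ← hP.par_lap g h.ac.sm hx]
      exact (h.ac.hess _ (c1 x hx) (c2 x hx)).trans d4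
    · rw [← hP.par_gam g h.ac.sm h.ac.sm hx]
      have a2 := (abs_le.1 (h.ac.gam _ (c1 x hx) (c2 x hx))).2
      have a3 := (abs_le.1 (h.ac.val _ (c1 x hx) (c2 x hx))).2
      have a4 : g.d z (Φ x) ^ 2 ≤ (R + 2) ^ 2 := pow_le_pow_left₀ (ha.le.trans (hd x hx)) (hup x hx) 2
      rw [hB]; nlinarith
  have hdu : ∀ v, fderiv ℝ (fun v => b (Φ v) - Rad.nq (e + v)) v =
      fderiv ℝ (fun y => b (Φ y)) v - (2 : ℝ) • innerSL ℝ (e + v) := fun v => by
    rw [fderiv_fun_sub (hf.differentiable (by simp) v) ((q_cd e).differentiable (by simp) v), q_fd]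
  have h4η : 4 * η ≤ (4 + 96 * B) * η := by nlinarith
  intro v hv
  obtain ⟨t1, t2⟩ := taylor (hf.sub (q_cd e)) hs hU h2
    (by rw [hdu, add_zero]; linarith [h.df]) (by
      have a1 := abs_le.1 (h.ac.val _ (c1 0 h0) (c2 0 h0))
      rw [h.ex.zero] at a1
      simp only [add_zero, Rad.nq, h.he, h.ex.zero]
      exact abs_le.2 ⟨by nlinarith, by nlinarith⟩) hv
  have hη2 : 0 ≤ (4 + 96 * B) * η := by positivity
  refine ⟨Rad.jg_mono (hJ v hv) (by omega) e2, ?_, ?_⟩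
  · have a1 := abs_le.1 (h.ac.val _ (c1 v hv) (c2 v hv))
    have a2 := abs_le.1 t2
    have a3 : |g.d z (Φ v) ^ 2 - ‖e + v‖ ^ 2| ≤ ε * a := by
      simp only [Rad.nq] at a2
      rw [mul_assoc, hD] at e4
      exact abs_le.2 ⟨by linarith, by linarith⟩
    rw [sq_sub_sq, abs_mul, abs_of_nonneg (by linarith [hd v hv, norm_nonneg (e + v)])] at a3
    have a4 := mul_le_mul_of_nonneg_right (show a ≤ g.d z (Φ v) + ‖e + v‖ by
      linarith [hd v hv, norm_nonneg (e + v)]) (abs_nonneg (g.d z (Φ v) - ‖e + v‖))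
    nlinarith
  · rw [← hdu]
    refine t1.trans (le_trans ?_ e3)
    rw [mul_assoc D]
    exact mul_le_mul_of_nonneg_right (by rw [hD]; nlinarith) hη2

variable (M) in
/-- the rays do not reach the tip, and there are no conjugate points -/
theorem vis {s R : ℝ} (hs : 0 < s) (hs1 : s < 1) (hR : 1 < R) : ∃ δ, 0 < δ ∧
    ∀ {g : Met 4 M} {z p : M} {b : M → ℝ} {κ : ℝ} {Φ : E4 → M} {e : E4}, Dt g z b κ p Φ e δ →
      |g.d z p - 1| ≤ 1 / 2 → Par Φ (Wd e s R) ∧ ∀ v ∈ Wd e s R, s / 6 ≤ g.d z (Φ v) := by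
  obtain ⟨δ, d0, hδ⟩ := core M (a := s / 6) (R := R + 1) (ε := min (1 / 100) (s / 12))
    (by positivity) (by linarith) 0 (by positivity)
  refine ⟨δ, d0, fun {g z p b κ Φ e} h hp => ?_⟩
  have key := exit (V := {v | ∀ a b, |g.pm Φ v a b - (1 : Matrix (Fin 4) (Fin 4) ℝ) a b| < 1 / 50} ∩
      {v | s / 6 < g.d z (Φ v)})
    (C := {v | ∀ a b, |g.pm Φ v a b - (1 : Matrix (Fin 4) (Fin 4) ℝ) a b| ≤ 1 / 100} ∩
      {v | s / 4 ≤ g.d z (Φ v)}) (wd_open e s R) (fun v hv t ht => wd_smul h.he hR hv ht)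
    (wd_zero h.he hs1 hR) ((near_open h.ex).inter (isOpen_lt continuous_const (d_cont h.ex z)))
    (IsClosed.inter (by
      simp only [ofPred_forall]
      exact isClosed_iInter fun a => isClosed_iInter fun b => isClosed_le
        ((h.ex.contDiff_pm a b).continuous.sub continuous_const).abs continuous_const)
      (isClosed_le continuous_const (d_cont h.ex z)))
    (fun v hv => ⟨fun a b => (hv.1 a b).trans_lt (by norm_num),
      lt_of_lt_of_le (show s / 6 < s / 4 by linarith) hv.2⟩)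
    ⟨fun a b => by rw [h.ex.one]; norm_num, by
      show s / 6 < g.d z (Φ 0)
      rw [h.ex.zero]; linarith [(abs_le.1 hp).1]⟩
    fun U h1 h2 h3 h4 h5 v hv => by
      obtain ⟨a1, a2, -⟩ := hδ h (par_near h.ex h1 fun w hw a b => ((h5 hw).1 a b).le) h2 h3
        (h4.trans (wd_ball h.he)) (fun w hw => le_of_lt (h5 hw).2) v hv
      refine ⟨fun a b => (Rad.jg_ent a1 a b).trans (min_le_left _ _), ?_⟩
      show s / 4 ≤ g.d z (Φ v)
      linarith [(abs_le.1 (a2.trans (min_le_right _ _))).1, wd_lo (h4 hv)]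
  exact ⟨par_near h.ex (wd_open e s R) fun v hv a b => ((key hv).1 a b).le,
    fun v hv => le_of_lt (key hv).2⟩

theorem pm_sub (h : F.IsExp g p Φ) (e : E4) :
    g.pm (fun y => Φ (y - e)) = fun y => g.pm Φ (y - e) := by
  funext y
  ext i j
  rw [← bil_single (g.pm _ y), pm_comp_bil g (T := fun y => y - e)
    ((h.sm _).mdifferentiableAt (by simp)) (by fun_prop), fderiv_sub_const, fderiv_fun_id]
  exact bil_single _ i j

end Lo

open Lo

theorem long : LONG M := by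
  intro ι l g z b κ p Φ e hI hE hd he hf s R hs hs1 hR
  have h1 : ∀ δ, 0 < δ → ∀ᶠ j in l, |(g j).d (z j) (p j) - 1| ≤ δ := fun δ hδ =>
    (Metric.tendsto_nhds.1 hd δ hδ).mono fun j hj => le_of_lt hj
  have h2 : ∀ δ, 0 < δ → ∀ᶠ j in l, Dt (g j) (z j) (b j) κ (p j) (Φ j) e δ := fun δ hδ => by
    filter_upwards [hI.ac δ hδ, h1 δ hδ, Metric.tendsto_nhds.1 hf δ hδ] with j a1 a2 a3
    exact ⟨a1, hE j, a2, he, by rw [← dist_eq_norm]; exact a3.le⟩
  obtain ⟨δ0, d0, h3⟩ := vis M hs hs1 hR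
  have h4 := ((h2 δ0 d0).and (h1 _ one_half_pos)).mono fun j hj => h3 hj.1 hj.2
  have hm : ∀ y ∈ Dm e s R, y - e ∈ Wd e s R := fun y hy => by
    show e + (y - e) ∈ Dm e s R
    rwa [add_sub_cancel]
  have h5 : ∀ (m : ℕ) (ε : ℝ), 0 < ε → ∀ᶠ j in l, ∀ y ∈ Dm e s R,
      JG m ((g j).pm (Φ j)) (y - e) 1 ε ∧ |(g j).d (z j) (Φ j (y - e)) - ‖y‖| ≤ ε ∧
      ‖fderiv ℝ (fun y => b j (Φ j y)) (y - e) - (2 : ℝ) • innerSL ℝ y‖ ≤ ε := fun m ε hε => by
    obtain ⟨δ, d1, h6⟩ := core M (a := s / 6) (R := R + 1) (by positivity) (by linarith) m hε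
    filter_upwards [h2 δ d1, h4] with j a1 a2 y hy
    have := h6 a1 a2.1 (star_of fun v hv t ht => wd_smul he hR hv ht) (wd_zero he hs1 hR)
      (wd_ball he) a2.2 _ (hm y hy)
    rwa [add_sub_cancel] at this
  refine ⟨h4.mono fun j hj => par_comp hj.1 (T := fun y => y - e) (isOpen_dm e s R) (by fun_prop) hm
    fun y _ => by rw [fderiv_sub_const, fderiv_fun_id]; exact fun _ _ h => h, ?_,
    fun ε hε => (h5 0 ε hε).mono fun j hj y hy => (hj y hy).2.1,
    fun ε hε => (h5 0 ε hε).mono fun j hj y hy => ?_⟩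
  · simp only [fun j => pm_sub (hE j) e]
    exact mc_of_jg (fun j a c => ((hE j).contDiff_pm a c).comp (contDiff_id.sub contDiff_const))
      fun m ε hε => (h5 m ε hε).mono fun j hj y hy => jg_sub (hj y hy).1
  · rw [fderiv_comp_sub (f := fun y => b j (Φ j y))]
    exact (hj y hy).2.2

theorem dir : DIR M := by
  intro ι 𝒰 g z b κ p Φ hI hE hd
  set w : ι → E4 := fun j => (1 / 2 : ℝ) • (InnerProductSpace.toDual ℝ E4).symm
    (fderiv ℝ (fun y => b j (Φ j y)) 0) with hw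
  have e1 : ∀ j, fderiv ℝ (fun y => b j (Φ j y)) 0 = (2 : ℝ) • innerSL ℝ (w j) := fun j => by
    ext v
    simp [hw]
  have e2 : ∀ᶠ j in (𝒰 : Filter ι), (g j).gam (b j) (b j) (p j) = 4 * ‖w j‖ ^ 2 :=
    (hI.ac 1 one_pos).mono fun j hj => by
      have hP := par_near (hE j) (near_open (hE j)) fun v hv a c => (hv a c).le
      have := hP.par_gam (g j) hj.sm hj.sm (y := 0) fun a c => by rw [(hE j).one]; norm_num
      rw [(hE j).zero] at this
      rw [this, EuclideanSpace.real_norm_sq_eq, Finset.mul_sum]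
      simp only [Bo84.gam, inverseField, (hE j).one, inv_one, pderiv, e1]
      refine Finset.sum_congr rfl fun a _ => ?_
      simp [Matrix.one_apply, EuclideanSpace.inner_single_right]
      ring
  have h1 : Tendsto (fun j => ‖w j‖ ^ 2) 𝒰 (𝓝 1) := by
    refine Metric.tendsto_nhds.2 fun ε hε => ?_
    have d0 : 0 < min (1 / 2) (ε / 8) := by positivity
    filter_upwards [hI.ac _ d0, Metric.tendsto_nhds.1 hd _ d0, e2] with j a1 a2 a3
    have b1 := min_le_left (1 / 2 : ℝ) (ε / 8)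
    have b2 := min_le_right (1 / 2 : ℝ) (ε / 8)
    generalize min (1 / 2 : ℝ) (ε / 8) = δ at *
    obtain ⟨a4, a5⟩ := abs_lt.1 a2
    have c1 : δ * 1 ≤ (g j).d (z j) (p j) := by linarith
    have c2 : δ * (g j).d (z j) (p j) ≤ 1 := by nlinarith
    obtain ⟨a6, a7⟩ := abs_le.1 (a1.gam _ c1 c2)
    obtain ⟨a8, a9⟩ := abs_le.1 (a1.val _ c1 c2)
    exact abs_lt.2 ⟨by nlinarith, by nlinarith⟩
  have h2 : Tendsto (fun j => ‖w j‖) 𝒰 (𝓝 1) := by simpa using h1.sqrt
  obtain ⟨e, -, he⟩ := (isCompact_closedBall (0 : E4) 2).ultrafilter_le_nhds (𝒰.map w)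
    (le_principal_iff.2 ((h2.eventually (ge_mem_nhds one_lt_two)).mono fun j hj =>
      mem_closedBall_zero_iff.2 hj))
  have he' : Tendsto w 𝒰 (𝓝 e) := he
  refine ⟨e, tendsto_nhds_unique he'.norm h2, ?_⟩
  simp only [e1]
  exact (((innerSL ℝ).continuous.tendsto e).comp he').const_smul _

end Crest.Agent.N207.Gs

end
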