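import Crest.Agent.N207.G.Fd

/-!
# Row 207, block G (helper11): `ONE1` from `DECK`
-/

set_option autoImplicit false
set_option linter.unusedSectionVars false

open scoped ContDiff Manifold Topology
open Set Filter Metric
open Crest.GeometryTopology.CoordMetric
open Crest.Agent.N207.Jt Crest.Agent.N207.Sk

noncomputable section

namespace Crest.Agent.N207.Gs

variable {M : Type*} [TopologicalSpace M] [ChartedSpace E4 M] [IsManifold 𝓘(ℝ, E4) ∞ M]
  [T3Space M] [ConnectedSpace M] [MeasurableSpace M] [BorelSpace M] {ι : Type}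

theorem ac_mono1 {g : Met 4 M} {z : M} {b : M → ℝ} {δ δ' κ : ℝ} (h : AC g z b 1 δ κ) (h0 : 0 < δ)
    (hδ : δ ≤ δ') : AC g z b 1 δ' κ := by
  have h1 : ∀ {x}, δ' * 1 ≤ g.d z x → δ * 1 ≤ g.d z x := fun hx => by linarith
  have h2 : ∀ {x}, δ' * 1 ≤ g.d z x → δ' * g.d z x ≤ 1 → δ * g.d z x ≤ 1 := fun hx hy =>
    (mul_le_mul_of_nonneg_right hδ (by linarith)).trans hy
  refine ⟨h.sm, fun k hk x hx hy => (h.rm k (le_trans (by gcongr) hk) x (h1 hx) (h2 hx hy)).trans
    (by gcongr), fun x hx hy => (h.hess x (h1 hx) (h2 hx hy)).trans hδ,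
    fun x hx hy => (h.gam x (h1 hx) (h2 hx hy)).trans (by gcongr),
    fun x hx hy => (h.val x (h1 hx) (h2 hx hy)).trans (by gcongr), h.vol, h.ne⟩

theorem mc_jg {l : Filter ι} {G : ι → MetricField 4} {U : Set E4} (h : MC l G fun _ => U) (m : ℕ)
    {L η : ℝ} (hL : 1 ≤ L) (hη : 0 < η) :
    ∀ᶠ j in l, ∀ x ∈ U, ‖x‖ ≤ L → JG m (G j) x ‖x‖ η := by
  have h1 : ∀ k a b, ∀ᶠ j in l, ∀ x ∈ U, ‖iteratedFDeriv ℝ k (dv (G j) a b) x‖ < η / L ^ m :=
    fun k a b => by
      filter_upwards [UE.ev (u := fun j y => G j y a b)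
        (v := fun _ _ => (1 : Matrix (Fin 4) (Fin 4) ℝ) a b) (h a b) k
        (show 0 < η / L ^ m by positivity), ev_un.1 (h a b).left.sm] with j h2 h3 x hx
      rw [show dv (G j) a b = (fun y => G j y a b) - fun _ => (1 : Matrix (Fin 4) (Fin 4) ℝ) a b
        from rfl, iteratedFDeriv_sub_apply ((h3 x hx).of_le (by exact_mod_cast le_top))
          contDiffAt_const]
      exact h2 x hx
  filter_upwards [(eventually_all_finite (finite_le_nat m)).2 fun k _ =>
    eventually_all.2 fun a => eventually_all.2 fun b => h1 k a b] with j hj x hx hL' k hk a b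
  have h2 : ‖x‖ ^ k ≤ L ^ m :=
    (pow_le_pow_left₀ (norm_nonneg _) hL' k).trans (pow_le_pow_right₀ hL hk)
  exact (mul_le_mul (hj k hk a b x hx).le h2 (by positivity) (by positivity)).trans
    (div_mul_cancel₀ _ (by positivity)).le

theorem cn_sub {g : Met 4 M} {z : M} {Ψ : E4 → M} {L K : ℝ} (hL : 2 ≤ L) (hK : L ≤ K)
    (hC : Cn g z 1 L K) (hP : Par Ψ (shell (1 / (2 * K + 2)) (2 * K + 2)))
    (hs : ∀ y ∈ shell (1 / (2 * K + 2)) (2 * K + 2), |g.d z (Ψ y) - ‖y‖| ≤ 1 / (10 * K))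
    {p : M} (h1 : 1 / L ≤ g.d z p) (h2 : g.d z p ≤ L * 1) :
    p ∈ Ψ '' shell (1 / (2 * K + 2)) (2 * K + 2) := by
  obtain ⟨C, hc, hin, hout⟩ := hC
  have hK0 : 0 < K := by linarith
  have a1 : 1 / (2 * K + 2) < 1 / (2 * K) := by gcongr; linarith
  have a2 : 1 / (10 * K) ≤ 1 / (2 * K) := by gcongr; norm_num
  have a3 : 1 / (2 * K) ≤ 1 / 4 := by gcongr; linarith
  have a4 : 1 / K = 1 / (2 * K) + 1 / (2 * K) := by field_simp; norm_num
  set Z : Set E4 := closedBall 0 (K + 1) \ ball 0 (1 / (2 * K)) with hZ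
  have hZs : Z ⊆ shell (1 / (2 * K + 2)) (2 * K + 2) := fun y hy => by
    simp only [hZ, Set.mem_sdiff, mem_closedBall_zero_iff, mem_ball_zero_iff, not_lt] at hy
    exact ⟨by linarith [hy.2], by linarith [hy.1]⟩
  have hZc : IsClosed (Ψ '' Z) := (((isCompact_closedBall _ _).diff isOpen_ball).image_of_continuousOn
    (hP.sm.continuousOn.mono hZs)).isClosed
  by_contra hp
  have he : ‖(EuclideanSpace.single 0 1 : E4)‖ = 1 := by simp
  have hes : (EuclideanSpace.single 0 1 : E4) ∈ shell (1 / (2 * K + 2)) (2 * K + 2) :=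
    ⟨by rw [he]; linarith, by rw [he]; linarith⟩
  have h3 := abs_le.1 (hs _ hes)
  rw [he] at h3
  have a5 : 1 / L ≤ 1 / 2 := by gcongr
  obtain ⟨x, hx, ⟨y, hy, rfl⟩, hn⟩ := hc _ _ (par_isOpen hP hP.isOpen subset_rfl) hZc.isOpen_compl
    (fun x _ => by
      by_cases h : x ∈ Ψ '' Z
      · exact Or.inl (image_mono hZs h)
      · exact Or.inr h)
    ⟨_, hin _ (by linarith [h3.1]) (by linarith [h3.2]), mem_image_of_mem _ hes⟩
    ⟨p, hin p h1 h2, fun h => hp (image_mono hZs h)⟩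
  have h4 := abs_le.1 (hs y hy)
  have h5 := hout _ hx
  refine hn (mem_image_of_mem _ ?_)
  simp only [hZ, Set.mem_sdiff, mem_closedBall_zero_iff, mem_ball_zero_iff, not_lt]
  constructor <;> linarith [h4.1, h4.2, h5.1, h5.2]

theorem one1_of (hD : DECK M) : ONE1 M := by
  intro κ L K η m hκ hL hK hη
  by_contra hn
  push Not at hn
  choose g z b hA hC hP using fun j : ℕ => hn (1 / ((j : ℝ) + 1)) (by positivity)
  have hI : In (hyperfilter ℕ : Filter ℕ) g z b κ := ⟨hκ, fun δ hδ =>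
    ((tendsto_one_div_add_atTop_nhds_zero_nat.eventually (ge_mem_nhds hδ)).filter_mono
      Nat.hyperfilter_le_atTop).mono fun j hj => ac_mono1 (hA j) (by positivity) hj⟩
  obtain ⟨Γ, Ψ, hf, hfr, hG, hfib⟩ := hD (hyperfilter ℕ) g z b κ hI (2 * K + 2) (by linarith)
  have hL0 : 0 < L := by linarith
  have hK0 : 0 < K := by linarith
  have hs : shell (1 / L) L ⊆ shell (1 / (2 * K + 2)) (2 * K + 2) := fun y hy =>
    ⟨lt_of_le_of_lt (by gcongr; linarith) hy.1, by linarith [hy.2]⟩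
  obtain ⟨j, h1, h2, h3, h4, h5⟩ := (hG.par.and ((hG.sw (η / L) (by positivity)).and
    ((hG.sw (1 / (10 * K)) (by positivity)).and
      (hfib.and (mc_jg hG.mc m (L := L) (by linarith) hη))))).exists
  refine hP j Γ (Ψ j) ⟨⟨hf, hfr, par_mono h1 (isOpen_shell _ _) hs,
    fun x hx y hy => h4 x (hs hx) y (hs hy), fun x hx => (h2 x (hs hx)).trans ?_,
    fun p hp hq => ?_⟩, fun x hx => h5 x (hs hx) hx.2.le⟩
  · rw [div_eq_mul_one_div]
    exact mul_le_mul_of_nonneg_left hx.1.le hη.le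
  · have a1 : 0 < 1 / L := by positivity
    obtain ⟨y, hy, rfl⟩ := cn_sub hL hK (hC j) h1 h3 (p := p) (by linarith) (by linarith)
    have h6 := abs_le.1 (h3 y hy)
    have a2 : 1 / (10 * K) ≤ 1 / 10 * (1 / L) := by
      rw [one_div_mul_one_div]; gcongr
    have a3 : 1 / L ≤ 1 / 2 := by gcongr
    exact mem_image_of_mem _ ⟨by linarith [h6.2], by linarith [h6.1]⟩

end Crest.Agent.N207.Gs

end
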