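import Crest.Agent.N207.A.Scl
import Crest.Agent.N207.G.Df
import Crest.Agent.N207.G.Tr

/-!
# Row 207, block G (helper8): the neck at one scale from the neck at scale one
-/

set_option autoImplicit false
set_option linter.unusedSectionVars false

open scoped ContDiff Manifold Topology
open Set MeasureTheory Filter
open Crest.GeometryTopology.CoordMetric
open Crest.Agent.N207.Sk Crest.Agent.R247 Crest.Agent.R202.Tens

noncomputable section

namespace Crest.Agent.N207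

namespace Scl

/-- jets of a dilated function -/
theorem norm_jet_smul {n : ℕ} {Y : Type*} [NormedAddCommGroup Y] [NormedSpace ℝ Y] {c : ℝ}
    (hc : 0 < c) (f : En n → Y) (x : En n) (k : ℕ) :
    ‖iteratedFDeriv ℝ k (fun z => f (c • z)) x‖ ≤ c ^ k * ‖iteratedFDeriv ℝ k f (c • x)‖ := by
  let L : En n ≃L[ℝ] En n := ContinuousLinearEquiv.smulLeft (Units.mk0 c hc.ne')
  have h := L.iteratedFDerivWithin_comp_right f uniqueDiffOn_univ (x := x) (mem_univ _) k
  simp only [preimage_univ, iteratedFDerivWithin_univ] at h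
  refine (congrArg norm h).trans_le ((ContinuousMultilinearMap.norm_compContinuousLinearMap_le
    _ _).trans ?_)
  rw [mul_comm, Finset.prod_const, Finset.card_univ, Fintype.card_fin]
  refine mul_le_mul (pow_le_pow_left₀ (norm_nonneg _) ?_ _) le_rfl (norm_nonneg _) (by positivity)
  refine ContinuousLinearMap.opNorm_le_bound _ hc.le fun v => ?_
  change ‖c • v‖ ≤ _
  rw [norm_smul, Real.norm_of_nonneg hc.le]

theorem J1.smul {Y : Type*} [NormedAddCommGroup Y] [NormedSpace ℝ Y] {c : ℝ} (hc : 0 < c)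
    {f : E4 → Y} {x : E4} {k : ℕ} {s a : ℝ} (hs : 0 ≤ s) (h : J1 k f (c • x) (c * s) a) :
    J1 k (fun z => f (c • z)) x s a := by
  refine le_trans ?_ h
  rw [mul_pow, ← mul_assoc, mul_comm _ (c ^ k)]
  exact mul_le_mul_of_nonneg_right (norm_jet_smul hc f x k) (by positivity)

theorem J1.congr {Y : Type*} [NormedAddCommGroup Y] [NormedSpace ℝ Y] {f f' : E4 → Y} {x : E4}
    {k : ℕ} {s a : ℝ} (h : J1 k f x s a) (e : f' =ᶠ[𝓝 x] f) : J1 k f' x s a := by
  unfold J1
  rwa [(e.iteratedFDeriv ℝ k).eq_of_nhds]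

/-- `JG` under dilations -/
theorem jg_smul {c : ℝ} (hc : 0 < c) {G G' : MetricField 4} {x : E4} {m : ℕ} {s a : ℝ}
    (hs : 0 ≤ s) (h : JG m G (c • x) (c * s) a) (e : G' =ᶠ[𝓝 x] fun z => G (c • z)) :
    JG m G' x s a := fun k hk i j =>
  J1.congr (J1.smul hc hs (h k hk i j)) (e.mono fun z hz => by simp only [dv, hz])

/-- `JAll` under dilations -/
theorem jall_smul {c : ℝ} (hc : 0 < c) {G G' : MetricField 4} {x : E4} {C : ℕ → ℝ} {s a : ℝ}
    (hs : 0 ≤ s) (h : JAll C G (c • x) (c * s) a) (e : G' =ᶠ[𝓝 x] fun z => G (c • z)) :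
    JAll C G' x s a := fun k i j =>
  J1.congr (J1.smul hc hs (h k i j)) (e.mono fun z hz => by simp only [dv, hz])

end Scl

namespace Met

variable {n : ℕ} {M : Type*} [TopologicalSpace M] [ChartedSpace (En n) M]
  [IsManifold 𝓘(ℝ, En n) ∞ M] (m : Met n M)

theorem hess_cmul (a : ℝ) (f : M → ℝ) : m.hess (fun x => a * f x) = a • m.hess f := by
  funext x
  have h : dT (Bo84.inCh n x fun x => a * f x) = a • dT (Bo84.inCh n x f) :=
    funext fun y => funext fun I => pd_cmul (f := Bo84.inCh n x f) _ a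
  change N207.cov _ (dT _) = a • N207.cov _ (dT _)
  rw [h, cov_smul]

theorem nsq_smul {k : ℕ} (a : ℝ) (T : CT n M k) (x : M) : m.nsq (a • T) x = a ^ 2 * m.nsq T x :=
  Scl.nsq_smul (m.G x) a (T x) _

theorem lap_cmul (a : ℝ) (f : M → ℝ) (x : M) : m.lap (fun x => a * f x) x = a * m.lap f x := by
  have h : ∀ j y, pderiv j (Bo84.inCh n x fun x => a * f x) y = a * pderiv j (Bo84.inCh n x f) y :=
    fun j y => pd_cmul (f := Bo84.inCh n x f) _ a
  have h2 : ∀ i, (fun y => √(m.G x y).det * ∑ j, inverseField (m.G x) y i j *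
      (a * pderiv j (Bo84.inCh n x f) y)) = fun y => a * (√(m.G x y).det *
        ∑ j, inverseField (m.G x) y i j * pderiv j (Bo84.inCh n x f) y) := fun i => funext fun y => by
    simp only [mul_left_comm _ a, ← Finset.mul_sum]
  simp only [lap, laplaceBeltrami, h, h2, pd_cmul, ← Finset.mul_sum]
  ring

theorem gam_cmul (a b : ℝ) (f h : M → ℝ) (x : M) :
    m.gam (fun x => a * f x) (fun x => b * h x) x = a * b * m.gam f h x := by
  have e : ∀ (a : ℝ) (f : M → ℝ) j y,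
      pderiv j (Bo84.inCh n x fun x => a * f x) y = a * pderiv j (Bo84.inCh n x f) y :=
    fun a f j y => pd_cmul (f := Bo84.inCh n x f) _ a
  simp only [gam, Bo84.gam, e, Finset.mul_sum]
  exact Finset.sum_congr rfl fun i _ => Finset.sum_congr rfl fun j _ => by ring

theorem pm_smul' {Ψ : En n → M} {c : ℝ} {y : En n}
    (h : MDifferentiableAt 𝓘(ℝ, En n) 𝓘(ℝ, En n) Ψ (c • y)) :
    m.pm (fun x => Ψ (c • x)) y = c ^ 2 • m.pm Ψ (c • y) := by
  ext p q
  have e : fderiv ℝ (fun x : En n => c • x) y = c • ContinuousLinearMap.id ℝ (En n) :=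
    ((hasFDerivAt_id y).const_smul c).fderiv
  rw [← Gs.bil_single (m.pm _ y), Gs.pm_comp_bil m (T := fun x => c • x) h (by fun_prop), e]
  simp only [smul_apply, ContinuousLinearMap.id_apply, map_smul, Gs.bil_single, smul_eq_mul,
    Matrix.smul_apply]
  ring

end Met

theorem Par.smul {n : ℕ} {M : Type*} [TopologicalSpace M] [ChartedSpace (En n) M]
    [IsManifold 𝓘(ℝ, En n) ∞ M] {Ψ : En n → M} {U V : Set (En n)} (h : Par Ψ U) {c : ℝ}
    (hc : c ≠ 0) (hV : IsOpen V) (hm : ∀ x ∈ V, c • x ∈ U) : Par (fun x => Ψ (c • x)) V := by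
  refine Gs.par_comp h hV (contDiff_const_smul c).contDiffOn hm fun y _ a b hab => ?_
  have e : fderiv ℝ (fun x : En n => c • x) y = c • ContinuousLinearMap.id ℝ (En n) :=
    ((hasFDerivAt_id y).const_smul c).fderiv
  rw [e] at hab
  exact smul_right_injective _ hc hab

namespace Gs

variable {M : Type*} [TopologicalSpace M] [ChartedSpace E4 M] [IsManifold 𝓘(ℝ, E4) ∞ M]
  [T3Space M] [ConnectedSpace M] [MeasurableSpace M] [BorelSpace M] [CompactSpace M]

/-- the metric in the units of `S` -/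
def un (g : Met 4 M) {S : ℝ} (hS : 0 < S) : Met 4 M := g.scale (S⁻¹ ^ 2) (by positivity)

variable {g : Met 4 M} {S : ℝ} (hS : 0 < S) {z : M}

include hS in
theorem un_sq : √(S⁻¹ ^ 2) = S⁻¹ := Real.sqrt_sq (by positivity)

theorem un_d (x y : M) : g.d x y = S * (un g hS).d x y := by
  rw [un, Met.scale_d, un_sq hS, mul_inv_cancel_left₀ hS.ne']

theorem un_vol (p : M) (s : ℝ) :
    g.vol.real (g.ball p (S * s)) = S ^ 4 * (un g hS).vol.real ((un g hS).ball p s) := by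
  have h := g.scale_ball (c := S⁻¹ ^ 2) (by positivity) p (S * s)
  rw [un_sq hS, inv_mul_cancel_left₀ hS.ne'] at h
  rw [un, h, Met.scale_vol_real, un_sq hS, ← mul_assoc, ← mul_pow, mul_inv_cancel₀ hS.ne', one_pow,
    one_mul]

theorem AC.un {b : M → ℝ} {δ κ : ℝ} (h : AC g z b S δ κ) :
    AC (un g hS) z (fun x => S⁻¹ ^ 2 * b x) 1 δ κ := by
  have e : (S⁻¹ ^ 2)⁻¹ = S ^ 2 := by rw [inv_pow, inv_inv]
  have e2 : S⁻¹ ^ 2 * S ^ 2 = 1 := by field_simp
  have c1 : ∀ {x}, δ * 1 ≤ (Gs.un g hS).d z x → δ * S ≤ g.d z x := fun hx => by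
    rw [un_d hS]; nlinarith
  have c2 : ∀ {x}, δ * (Gs.un g hS).d z x ≤ 1 → δ * g.d z x ≤ S := fun hx => by
    rw [un_d hS]; nlinarith
  have sc : ∀ {u : ℝ}, |u| ≤ δ * S ^ 2 → |S⁻¹ ^ 2 * u| ≤ δ * 1 ^ 2 := fun hu => by
    rw [abs_mul, abs_of_nonneg (by positivity)]
    refine (mul_le_mul_of_nonneg_left hu (by positivity)).trans_eq ?_
    rw [mul_left_comm, e2, one_pow]
  refine ⟨contMDiff_const.mul h.sm, fun k hk x h1 h2 => ?_, fun x h1 h2 => ?_, fun x h1 h2 => ?_,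
    fun x h1 h2 => ?_, fun p s hs => ?_, ?_⟩
  · rw [Gs.un, Met.scale_rm, e]
    refine (mul_le_mul_of_nonneg_left (h.rm k hk x (c1 h1) (c2 h2)) (by positivity)).trans_eq ?_
    rw [← pow_mul, mul_comm 2, pow_mul]
    field_simp
    simp
  · have := h.hess x (c1 h1) (c2 h2)
    rw [Gs.un, Met.scale_nsq, Met.scale_hess, Met.scale_lap, Met.hess_cmul, Met.nsq_smul,
      Met.lap_cmul, e, ← mul_assoc, ← mul_assoc (S ^ 2), ← mul_pow, mul_comm (S ^ 2), e2]
    simpa using this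
  · convert sc (h.gam x (c1 h1) (c2 h2)) using 2
    rw [Gs.un, Met.scale_gam, Met.gam_cmul, e]
    field_simp
  · convert sc (h.val x (c1 h1) (c2 h2)) using 2
    rw [un_d (g := g) hS]
    field_simp
  · have := h.vol p (S * s) ⟨mul_pos hS hs.1, mul_le_of_le_one_right hS.le hs.2⟩
    rw [un_vol hS, mul_pow, mul_left_comm] at this
    exact le_of_mul_le_mul_left this (by positivity)
  · obtain ⟨p, hp⟩ := h.ne
    refine ⟨p, mul_left_cancel₀ hS.ne' ?_⟩
    rw [← un_d hS, hp, mul_one]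

theorem Cn.un {L K : ℝ} (h : Cn g z S L K) : Cn (un g hS) z 1 L K := by
  obtain ⟨C, h0, h1, h2⟩ := h
  refine ⟨C, h0, fun x a b => h1 x ?_ ?_, fun x hx => ?_⟩
  · rw [un_d hS, div_eq_mul_one_div]
    exact mul_le_mul_of_nonneg_left a hS.le
  · rw [un_d hS]; nlinarith
  · obtain ⟨a, b⟩ := h2 x hx
    rw [un_d hS] at a b
    rw [div_eq_mul_one_div] at a
    exact ⟨le_of_mul_le_mul_left a hS, le_of_mul_le_mul_left (by linarith) hS⟩

include hS in
theorem mem_shell_un {a b : ℝ} {x : E4} : S⁻¹ • x ∈ shell a b ↔ x ∈ shell (S * a) (S * b) := by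
  simp only [shell, mem_ofPred_eq, norm_smul, Real.norm_of_nonneg (inv_pos.2 hS).le,
    lt_inv_mul_iff₀ hS, inv_mul_lt_iff₀ hS]

theorem PN.of_un {Γ : Subgroup (E4 ≃ₗᵢ[ℝ] E4)} {Ψ : E4 → M} {a b θ : ℝ}
    (h : PN (un g hS) z Γ Ψ a b θ) : PN g z Γ (fun x => Ψ (S⁻¹ • x)) (S * a) (S * b) θ where
  fin := h.fin
  free := h.free
  par := h.par.smul (inv_pos.2 hS).ne'
    ((isOpen_lt continuous_const continuous_norm).inter (isOpen_lt continuous_norm continuous_const))
    fun _ hx => (mem_shell_un hS).2 hx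
  fib x hx y hy := by
    rw [h.fib _ ((mem_shell_un hS).2 hx) _ ((mem_shell_un hS).2 hy)]
    simp only [map_smul, (smul_right_injective E4 (inv_pos.2 hS).ne').eq_iff]
  sw x hx := by
    have := mul_le_mul_of_nonneg_left (h.sw _ ((mem_shell_un hS).2 hx)) hS.le
    rw [norm_smul, Real.norm_of_nonneg (inv_pos.2 hS).le, mul_left_comm S θ,
      mul_inv_cancel_left₀ hS.ne'] at this
    refine le_trans (le_of_eq ?_) this
    rw [un_d (g := g) hS, ← mul_inv_cancel_left₀ hS.ne' ‖x‖, ← mul_sub, abs_mul, abs_of_pos hS,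
      mul_inv_cancel_left₀ hS.ne']
  onto p h1 h2 := by
    rw [un_d hS] at h1 h2
    obtain ⟨x, hx, rfl⟩ := h.onto p (le_of_mul_le_mul_left (by linarith) hS)
      (le_of_mul_le_mul_left (by linarith) hS)
    have e : S⁻¹ • S • x = x := inv_smul_smul₀ hS.ne' x
    exact ⟨S • x, (mem_shell_un hS).1 (by rwa [e]), by simp only [e]⟩

theorem PJ.of_un {Γ : Subgroup (E4 ≃ₗᵢ[ℝ] E4)} {Ψ : E4 → M} {a b θ η : ℝ} {m : ℕ}
    (h : PJ (un g hS) z Γ Ψ a b θ m η) :
    PJ g z Γ (fun x => Ψ (S⁻¹ • x)) (S * a) (S * b) θ m η := by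
  refine ⟨h.1.of_un hS, fun x hx => ?_⟩
  have h1 := h.2 _ ((mem_shell_un hS).2 hx)
  rw [norm_smul, Real.norm_of_nonneg (inv_pos.2 hS).le] at h1
  refine Scl.jg_smul (inv_pos.2 hS) (norm_nonneg x) h1 ?_
  filter_upwards [(h.1.of_un hS).par.isOpen.mem_nhds hx] with y hy
  rw [Met.pm_smul' g (par_md h.1.par ((mem_shell_un hS).2 hy)), un, Met.scale_pm]

/-- **the neck at one scale** -/
theorem one_of (h : ONE1 M) : ONE M := by
  intro κ L K η m hκ hL hK hη
  obtain ⟨δ, hδ, H⟩ := h κ L K η m hκ hL hK hη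
  refine ⟨δ, hδ, fun g z b S hS hA hC => ?_⟩
  obtain ⟨Γ, Ψ, hP⟩ := H _ z _ (hA.un hS) (hC.un hS)
  refine ⟨Γ, fun x => Ψ (S⁻¹ • x), ?_⟩
  rw [div_eq_mul_one_div, mul_comm L]
  exact hP.of_un hS

end Gs

end Crest.Agent.N207

end
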