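import Crest.Agent.N207.G.Gc

/-!
# Row 207, block G (helper33): a good parametrisation of every shell
-/

set_option autoImplicit false
set_option linter.unusedSectionVars false
set_option maxSynthPendingDepth 3

open scoped ContDiff Manifold Topology
open Set Filter Metric
open Crest.GeometryTopology.CoordMetric
open Crest.Agent.R202.Tens Crest.Agent.N207.Jt

noncomputable section

namespace Crest.Agent.N207.Gs

namespace Sh

variable {e h x y y' : E4} {a s s' r R R' : ℝ}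

theorem thicken (hy : y ∈ Dm e s R) (h0 : ‖y' - y‖ ≤ r) (h1 : s' + 3 * r ≤ s) (h2 : R + r ≤ R') :
    y' ∈ Dm e s' R' := by
  obtain ⟨a1, v, a2, a3, a4⟩ := hy
  have b0 := norm_nonneg (y' - y)
  have b1 := norm_sub_norm_le y' y
  have b2 := abs_le.1 ((abs_real_inner_le_norm v (y' - y)).trans
    (mul_le_mul a2 h0 b0 (by norm_num)))
  rw [inner_sub_right] at b2
  exact ⟨by linarith, v, a2, by linarith, by linarith [b2.1]⟩

theorem rotate (A : E4 ≃ₗᵢ[ℝ] E4) (hy : y ∈ Dm e s R) : A y ∈ Dm (A e) s R := by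
  obtain ⟨a1, v, a2, a3, a4⟩ := hy
  exact ⟨by simpa using a1, A v, by simpa using a2, by simpa using a3, by simpa using a4⟩

theorem dm_low (hy : y ∈ Dm e s R) : s / 3 ≤ ‖y‖ ∧ ‖y‖ ≤ R := by
  obtain ⟨a1, v, a2, -, a4⟩ := hy
  have := (real_inner_le_norm v y).trans (mul_le_mul_of_nonneg_right a2 (norm_nonneg y))
  exact ⟨by linarith, a1.le⟩

theorem unit_dir (hy : 0 < ‖y‖) : ∃ u : E4, ‖u‖ = 1 ∧ inner ℝ u y = ‖y‖ ∧
    ∀ w : E4, ‖y‖ * inner ℝ u w = inner ℝ w y := by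
  refine ⟨‖y‖⁻¹ • y, by rw [norm_smul, norm_inv, norm_norm, inv_mul_cancel₀ hy.ne'], ?_, fun w => ?_⟩
  · rw [real_inner_smul_left, real_inner_self_eq_norm_sq]; field_simp
  · rw [real_inner_smul_left, real_inner_comm]; field_simp

theorem seg3 (he : ‖e‖ = 1) (hh : ‖h‖ = 1) (h0 : inner ℝ e h = (0 : ℝ)) (h1 : 0 ≤ inner ℝ h y)
    (h2 : -(0.96 * ‖y‖) < inner ℝ e y) (ha : 0 < a) (ha1 : a ≤ 1) (hR : 1 < R)
    (hy : y ∈ Sk.shell a R) : segment ℝ h y ⊆ Dm e (a / 50) R := by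
  have y0 : 0 < ‖y‖ := ha.trans hy.1
  obtain ⟨u, u1, u2, u3⟩ := unit_dir y0
  have b1 : -0.96 < inner ℝ u e := lt_of_mul_lt_mul_left (by rw [u3]; linarith) y0.le
  have b2 : 0 ≤ inner ℝ u h := le_of_mul_le_mul_left (by rw [u3]; linarith) y0
  have c0 : ‖e + u + h‖ ≤ 3 := (norm_add₃_le).trans (by rw [he, u1, hh]; norm_num)
  have c1 : a / 50 < inner ℝ (e + u + h) e := by
    rw [inner_add_left, inner_add_left, real_inner_self_eq_norm_sq, he, real_inner_comm e h, h0]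
    linarith
  have c2 : a / 50 < inner ℝ (e + u + h) h := by
    rw [inner_add_left, inner_add_left, real_inner_self_eq_norm_sq, hh, h0]
    linarith
  have c3 : a / 50 < inner ℝ (e + u + h) y := by
    rw [inner_add_left, inner_add_left, u2]
    linarith [hy.1]
  have cv : Convex ℝ (ball (0 : E4) R ∩ {w | a / 50 < inner ℝ (e + u + h) w}) :=
    (convex_ball _ _).inter (convex_halfSpace_gt (innerSL ℝ (e + u + h)).isLinear _)
  intro w hw
  have := cv.segment_subset ⟨mem_ball_zero_iff.2 (hh ▸ hR), c2⟩ ⟨mem_ball_zero_iff.2 hy.2, c3⟩ hw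
  exact ⟨mem_ball_zero_iff.1 this.1, _, c0, c1, this.2⟩

theorem dm_mem (he : ‖e‖ = 1) (h2 : -(0.96 * ‖y‖) < inner ℝ e y) (ha : 0 < a) (ha1 : a ≤ 1)
    (hy : y ∈ Sk.shell a R) : y ∈ Dm e (a / 50) R := by
  have y0 : 0 < ‖y‖ := ha.trans hy.1
  obtain ⟨u, u1, u2, u3⟩ := unit_dir y0
  have b1 : -0.96 < inner ℝ u e := lt_of_mul_lt_mul_left (by rw [u3]; linarith) y0.le
  refine ⟨hy.2, e + u, (norm_add_le _ _).trans (by rw [he, u1]; norm_num), ?_, ?_⟩
  · rw [inner_add_left, real_inner_self_eq_norm_sq, he]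
    linarith
  · rw [inner_add_left, u2]
    linarith [hy.1]

theorem other {e' : E4} (he : ‖e‖ = 1) (he' : ‖e'‖ = 1) (h0 : inner ℝ e e' = (0 : ℝ))
    (h1 : inner ℝ e y < -(0.6 * ‖y‖)) : -(0.96 * ‖y‖) < inner ℝ e' y := by
  have b := sq_nonneg ‖y - (inner ℝ e y : ℝ) • e - (inner ℝ e' y : ℝ) • e'‖
  rw [norm_sub_sq_real, norm_sub_sq_real, inner_sub_left] at b
  simp only [real_inner_smul_left, real_inner_smul_right, norm_smul, he, he', h0, mul_one,
    Real.norm_eq_abs, sq_abs, real_inner_comm e y, real_inner_comm e' y] at b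
  by_contra hc
  have hc' := not_lt.1 hc
  nlinarith [norm_nonneg y]

theorem frame (he : ‖e‖ = 1) : ∃ e1 e2 : E4, ‖e1‖ = 1 ∧ ‖e2‖ = 1 ∧ inner ℝ e e1 = (0 : ℝ) ∧
    inner ℝ e e2 = (0 : ℝ) ∧ inner ℝ e1 e2 = (0 : ℝ) := by
  have h := Submodule.reflection_sub (v := (EuclideanSpace.single 0 1 : E4)) (w := e)
    (by simp [he])
  set B := Submodule.reflection (ℝ ∙ ((EuclideanSpace.single 0 1 : E4) - e))ᗮ
  refine ⟨B (EuclideanSpace.single 1 1), B (EuclideanSpace.single 2 1), by simp, by simp, ?_, ?_,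
    ?_⟩
  · rw [← h, B.inner_map_map]; simp [EuclideanSpace.inner_single_left]
  · rw [← h, B.inner_map_map]; simp [EuclideanSpace.inner_single_left]
  · rw [B.inner_map_map]; simp [EuclideanSpace.inner_single_left]

/-- a cone around the negative axis -/
def cn (e : E4) (c : ℝ) : Set E4 := {y | inner ℝ e y < -(c * ‖y‖)}

/-- the complement of a closed cone -/
def cp (e : E4) (c : ℝ) : Set E4 := {y | -(c * ‖y‖) < inner ℝ e y}

theorem cn_iff {c : ℝ} : y ∈ cn e c ↔ inner ℝ e y < -(c * ‖y‖) := Iff.rfl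

theorem cp_iff {c : ℝ} : y ∈ cp e c ↔ -(c * ‖y‖) < inner ℝ e y := Iff.rfl

theorem isOpen_cn (e : E4) (c : ℝ) : IsOpen (cn e c) := isOpen_lt (by fun_prop) (by fun_prop)

theorem isOpen_cp (e : E4) (c : ℝ) : IsOpen (cp e c) := isOpen_lt (by fun_prop) (by fun_prop)

theorem chain {e1 e2 : E4} (he : ‖e‖ = 1) (h1 : ‖e1‖ = 1) (h2 : ‖e2‖ = 1)
    (o1 : inner ℝ e e1 = (0 : ℝ)) (o2 : inner ℝ e e2 = (0 : ℝ)) (o3 : inner ℝ e1 e2 = (0 : ℝ))
    (ha : 0 < a) (ha1 : a < 1) (hR : 1 < R) (hy : y ∈ Sk.shell a R ∩ (cp e 0.96 ∩ cn e 0.6)) :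
    Ch (Dm e (a / 50) R ∩ Dm e1 (a / 50) R) e1 y := by
  have k : ∀ h : E4, ‖h‖ = 1 → inner ℝ e h = (0 : ℝ) → inner ℝ e1 h = (0 : ℝ) →
      0 ≤ inner ℝ h y → Ch (Dm e (a / 50) R ∩ Dm e1 (a / 50) R) e1 y := fun h a1 a2 a3 a4 => by
    have m : e1 ∈ Sk.shell a R := ⟨h1 ▸ ha1, h1 ▸ hR⟩
    have a5 : 0 ≤ inner ℝ h e1 := by rw [real_inner_comm, a3]
    have s1 : segment ℝ h e1 ⊆ Dm e (a / 50) R ∩ Dm e1 (a / 50) R := subset_inter
      (seg3 he a1 a2 a5 (by rw [o1, h1]; norm_num) ha ha1.le hR m)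
      (seg3 h1 a1 a3 a5 (by rw [real_inner_self_eq_norm_sq, h1]; norm_num) ha ha1.le hR m)
    refine ⟨h, h, by rwa [segment_symm], ?_, subset_inter (seg3 he a1 a2 a4 hy.2.1 ha ha1.le hR hy.1)
      (seg3 h1 a1 a3 a4 (other he h1 o1 hy.2.2) ha ha1.le hR hy.1)⟩
    rw [segment_same]
    exact singleton_subset_iff.2 (s1 (left_mem_segment _ _ _))
  rcases le_total 0 (inner ℝ e2 y : ℝ) with c | c
  · exact k e2 h2 o2 o3 c
  · exact k (-e2) (by simpa using h2) (by simpa using o2) (by simpa using o3) (by simpa using c)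

/-- the cut-off -/
def chi (e y : E4) : ℝ := Real.smoothTransition (10 * (inner ℝ e y / ‖y‖) + 9)

theorem chi_sm (hy : 0 < ‖y‖) : ContDiffAt ℝ ∞ (chi e) y :=
  Real.smoothTransition.contDiffAt.comp y ((contDiffAt_const.mul
    (((innerSL ℝ e).contDiff.contDiffAt).div (contDiffAt_norm ℝ (norm_pos_iff.1 hy)) hy.ne')).add
      contDiffAt_const)

theorem chi_one (hy : 0 < ‖y‖) (h : y ∈ cp e 0.8) : chi e y = 1 := by
  have : -0.8 < inner ℝ e y / ‖y‖ := by rw [lt_div_iff₀ hy]; linarith [cp_iff.1 h]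
  exact Real.smoothTransition.one_of_one_le (by linarith)

theorem chi_zero (hy : 0 < ‖y‖) (h : y ∈ cn e 0.9) : chi e y = 0 := by
  have : inner ℝ e y / ‖y‖ < -0.9 := by rw [div_lt_iff₀ hy]; linarith [cn_iff.1 h]
  exact Real.smoothTransition.zero_of_nonpos (by linarith)

theorem ue_cut {ι : Type} {l : Filter ι} {T : ι → E4 → E4} (A : E4 ≃ₗᵢ[ℝ] E4) (ha : 0 < a)
    (hT : UE l T (fun _ y => A y) fun _ => Sk.shell a R ∩ (cp e 0.96 ∩ cn e 0.6)) :
    UE l (fun j y => A y + chi e y • (T j y - A y)) (fun _ y => A y)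
      fun _ => Sk.shell a R ∩ cn e 0.7 := by
  have hm := un_mem l fun _ => Sk.shell a R ∩ cn e 0.7
  have hA : GB (un l fun _ => Sk.shell a R ∩ cn e 0.7) (fun _ y => A y) Prod.snd :=
    gb_lie (fun _ => A) ⟨R, hm.mono fun p hp => hp.1.2.le⟩
  have hK : ∀ᶠ p in un l fun _ => Sk.shell a R ∩ cn e 0.7, p.2 ∈ closedBall (0 : E4) R \ ball 0 a :=
    hm.mono fun p hp => ⟨mem_closedBall_zero_iff.2 hp.1.2.le,
      fun h => absurd (mem_ball_zero_iff.1 h) (not_lt.2 hp.1.1.le)⟩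
  have hc := GE.fixed (Φ := chi e) ((isCompact_closedBall (0 : E4) R).diff isOpen_ball)
    (fun z hz => chi_sm (ha.trans_le (not_lt.1 fun h => hz.2 (mem_ball_zero_iff.2 h)))) hK hK
    (by simpa using tendsto_const_nhds)
  refine GE.cases (fun p : ι × E4 => p.2 ∈ cp e 0.96) ?_ ?_
  · have h1 := hT.at ((un_fst l fun _ => Sk.shell a R ∩ cn e 0.7).mono_left
      (inf_le_left (b := 𝓟 {p : ι × E4 | p.2 ∈ cp e 0.96}))) (y := Prod.snd)
      (eventually_inf_principal.2 (hm.mono fun p hp hq => ⟨hp.1, hq,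
        cn_iff.2 (by linarith [norm_nonneg p.2, cn_iff.1 hp.2])⟩))
    have h2 := (hA.mono inf_le_left).ge.add ((hc.mono inf_le_left).smul
      (h1.sub (hA.mono inf_le_left).ge))
    exact h2.congr_right (Eventually.of_forall fun p => ⟨rfl, Eventually.of_forall fun z => by simp⟩)
  · refine (hA.mono inf_le_left).ge_congr (eventually_inf_principal.2 (hm.mono fun p hp hq =>
      ⟨rfl, ?_⟩))
    have h0 : 0 < ‖p.2‖ := ha.trans hp.1.1
    have h2 : p.2 ∈ cn e 0.9 := cn_iff.2 (by linarith [not_lt.1 (cp_iff.not.1 hq)])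
    filter_upwards [(isOpen_cn e 0.9).mem_nhds h2,
      (isOpen_lt continuous_const continuous_norm).mem_nhds h0] with z z1 z2
    simp [chi_zero z2 z1]

end Sh

open Sh

variable {M : Type*} [TopologicalSpace M] [ChartedSpace E4 M] [IsManifold 𝓘(ℝ, E4) ∞ M]
  [CompactSpace M] [T3Space M] [ConnectedSpace M] [MeasurableSpace M] [BorelSpace M]

theorem shl_of (hD : DIR M) (hL : LONG M) (hI : LIS M) : SHL M := by
  intro ι 𝒰 g z b κ I a0 R0 ha0 hR0
  set a := min a0 (1 / 2)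
  set R := max R0 2
  have ha : 0 < a := lt_min ha0 (by norm_num)
  have ha1 : a < 1 := (min_le_right _ _).trans_lt (by norm_num)
  have hR : 1 < R := lt_of_lt_of_le (by norm_num) (le_max_right _ _)
  suffices ∃ Ψ, Gd 𝒰 g z b Ψ (Sk.shell a R) from this.imp fun Ψ h => h.mono (isOpen_shell _ _)
    fun y hy => ⟨(min_le_left _ _).trans_lt hy.1, hy.2.trans_le (le_max_left _ _)⟩
  obtain ⟨p0, hp0⟩ := ((I.ac 1 one_pos).mono fun j hj => hj.ne).choice
  choose Φ0 hΦ0 using fun j => F.exists_isExp (g j) (p0 j)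
  have t0 : Tendsto (fun j => (g j).d (z j) (p0 j)) 𝒰 (𝓝 1) :=
    tendsto_const_nhds.congr' (hp0.mono fun j hj => hj.symm)
  obtain ⟨e0, he0, d0⟩ := hD 𝒰 g z b κ p0 Φ0 I hΦ0 t0
  have g0 := hL 𝒰 g z b κ p0 Φ0 e0 I hΦ0 t0 he0 d0 (a / 50) R (by linarith) (by linarith) hR
  obtain ⟨e1, e2, he1, he2, o1, o2, o3⟩ := frame he0
  have m1 : e1 ∈ Sk.shell a R := ⟨he1 ▸ ha1, he1 ▸ hR⟩
  have m0 : e1 ∈ Dm e0 (a / 50) R := dm_mem he0 (by rw [o1, he1]; norm_num) ha ha1.le m1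
  have m2 : e1 ∈ Dm e1 (a / 50) R :=
    dm_mem he1 (by rw [real_inner_self_eq_norm_sq, he1]; norm_num) ha ha1.le m1
  choose Φ1 hΦ1 using fun j => F.exists_isExp (g j) (Φ0 j (e1 - e0))
  have t1 : Tendsto (fun j => (g j).d (z j) (Φ0 j (e1 - e0))) 𝒰 (𝓝 1) :=
    Metric.tendsto_nhds.2 fun ε hε => (g0.sw (ε / 2) (by linarith)).mono fun j hj => by
      have := hj e1 m0
      rw [he1] at this
      rw [Real.dist_eq]
      linarith
  obtain ⟨e', he', d1⟩ := hD 𝒰 g z b κ _ Φ1 I hΦ1 t1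
  have g2 := hL 𝒰 g z b κ _ Φ1 e' I hΦ1 t1 he' d1 (a / 200) (R + 2) (by linarith) (by linarith)
    (by linarith)
  have g1 := g2.mono (isOpen_dm e' (a / 100) (R + 1)) fun y hy =>
    thicken (r := 0) hy (by simp) (by linarith) (by linarith)
  obtain ⟨ρ0, hρ0, li⟩ := hI 𝒰 g z b κ _ _ (Dm e' (a / 100) (R + 1)) _ _ (a / 600) I g2
    (by linarith) (by linarith) (fun y hy => dm_low hy) fun y hy w hw =>
      thicken hy (mem_ball_iff_norm.1 hw).le (by linarith) (by linarith)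
  have m3 : e' ∈ Dm e' (a / 100) (R + 1) := thicken (r := 0) (dm_mem (R := R) he'
    (by rw [real_inner_self_eq_norm_sq, he']; norm_num) ha ha1.le ⟨he' ▸ ha1, he' ▸ hR⟩) (by simp)
    (by linarith) (by linarith)
  have e01 : ∀ j, Φ1 j (e' - e') = Φ0 j (e1 - e0) := fun j => by rw [sub_self, (hΦ1 j).zero]
  obtain ⟨A, hA⟩ := Gd.base (y := fun _ => e1) (y' := fun _ => e') (R := 1) I g0 g1
    (Eventually.of_forall fun j => ⟨m0, m3, he'.le, e01 j⟩)
  obtain rfl : e' = A e1 := eq_of_norm_sub_eq_zero (le_antisymm (le_of_forall_pos_le_add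
    fun ε hε => by
      obtain ⟨j, L, -, h, -⟩ := (hA ε hε).exists
      linarith) (norm_nonneg _))
  set ρ := min ρ0 (a / 100)
  have hρ : 0 < ρ := lt_min hρ0 (by linarith)
  have hρ1 : ρ ≤ a / 100 := min_le_right _ _
  have th : ∀ y ∈ Dm e1 (a / 50) R, closedBall (A y) (ρ / 4) ⊆ Dm (A e1) (a / 100) (R + 1) :=
    fun y hy w hw => thicken (rotate A hy) (mem_closedBall_iff_norm.1 hw) (by linarith) (by linarith)
  have fh : FH 𝒰 g (fun j y => Φ0 j (y - e0)) (fun j y => Φ1 j (y - A e1))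
      (fun _ => Dm e0 (a / 50) R) (fun _ => Dm (A e1) (a / 100) (R + 1))
      (fun _ => Dm e0 (a / 50) R ∩ Dm e1 (a / 50) R) (fun _ => A) ρ fun _ => e1 := by
    refine ⟨?_, g0.mc, g1.mc, hρ, ⟨R, Eventually.of_forall fun j y hy =>
      mem_ball_zero_iff.2 hy.1.1⟩, fun ε hε => (hA ε hε).mono fun j ⟨L, h1, h2, h3⟩ =>
        ⟨⟨m0, m2⟩, _, L, e01 j, h1, h2, h3⟩⟩
    filter_upwards [g0.par, g1.par, li] with j c0 c1 c2
    exact ⟨c0, c1, fun x hx y hy h => c2 x hx y hy (h.trans_le (min_le_left _ _)),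
      (isOpen_dm _ _ _).inter (isOpen_dm _ _ _), inter_subset_left, fun y hy => th y hy.2⟩
  have hc := Eventually.of_forall (f := (𝒰 : Filter ι)) fun _ y
    (hy : y ∈ Sk.shell a R ∩ (cp e0 0.96 ∩ cn e0 0.6)) => chain he0 he1 he2 o1 o2 o3 ha ha1 hR hy
  have g3 := Gd.comp I g1 ((isOpen_shell a R).inter (isOpen_cn e0 0.7)) (R := R)
    (fun y hy => hy.1.2.le) (r := ρ / 4) (by linarith) (fun y hy => th y (dm_mem he1
      (other he0 he1 o1 (by linarith [cn_iff.1 hy.2, norm_nonneg y])) ha ha1.le hy.1))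
    (ue_cut A ha (fh.ue hc))
  have g4 := g0.mono ((isOpen_shell a R).inter (isOpen_cp e0 0.8)) fun y hy =>
    dm_mem he0 (by linarith [cp_iff.1 hy.2, norm_nonneg y]) ha ha1.le hy.1
  classical
  refine ⟨fun j y => if y ∈ cp e0 0.8 then Φ0 j (y - e0) else Φ1 j (A y + chi e0 y •
    (tr (fun y => Φ0 j (y - e0)) (fun y => Φ1 j (y - A e1)) A ρ y - A y) - A e1),
    ((g4.congr (Eventually.of_forall fun j y hy => if_pos hy.2)).union (g3.congr ?_)).mono
      (isOpen_shell _ _) fun y hy => ?_⟩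
  · filter_upwards [fh.dom hc] with j hj y hy
    split_ifs with c
    · have c1 := cp_iff.1 c
      have c2 := cn_iff.1 hy.2
      have c3 := norm_nonneg y
      rw [chi_one (ha.trans hy.1.1) c, one_smul, add_sub_cancel]
      exact (RH.spec (hj ⟨hy.1, cp_iff.2 (by linarith), cn_iff.2 (by linarith)⟩)).2.symm
    · rfl
  · by_cases c : y ∈ cp e0 0.8
    · exact Or.inl ⟨hy, c⟩
    · exact Or.inr ⟨hy, cn_iff.2 (by linarith [ha.trans hy.1, not_lt.1 (cp_iff.not.1 c)])⟩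

end Crest.Agent.N207.Gs

end
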