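import Crest.Agent.N207.G.Cone
import Crest.Agent.N207.G.EntAll
import Crest.Agent.N207.G.Ent2
import Crest.Agent.N207.G.Deck
import Crest.Agent.N207.G.One
import Crest.Agent.N207.G.Shl
import Crest.Agent.N207.G.Li
import Crest.Agent.N207.G.Lo2
import Crest.Agent.N207.G.Scl
import Crest.Agent.N207.TR.Main

/-!
# Row 207, block G (helper93): `CONE` from `Base` and the rescaling of `ONE1`
-/

set_option autoImplicit false
set_option linter.unusedSectionVars false

open scoped ContDiff Manifold Topology

noncomputable section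

namespace Crest.Agent.N207.G

open Sk Gs

variable {M : Type*} [TopologicalSpace M] [ChartedSpace E4 M] [IsManifold 𝓘(ℝ, E4) ∞ M]
  [T3Space M] [ConnectedSpace M] [MeasurableSpace M] [BorelSpace M] [CompactSpace M]

theorem one1 : ONE1 M := one1_of (deck (shl_of dir long lis) lis)

theorem ent2' {F : Flow M} (B : Base F) : ENT2 F :=
  Ge.ent2 F B (V.hes F) (Ge.gGood' B) (Ge.gSmooth' B) (Ge.gCut B.ok)

theorem cone_scl (S : ONE1 M → ONE M) {F : Flow M} (B : Base F) : CONE F :=
  cone F B (TR.trans M) (S one1) (Ge.ent1' B) (ent2' B)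

/-- **CONE** -/
theorem cone' {F : Flow M} (B : Base F) : CONE F := cone_scl one_of B

end Crest.Agent.N207.G

end
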