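import Crest.Agent.N207.G.Dk2
import Crest.Agent.N207.G.Shl
import Crest.Agent.N207.G.Lo2
import Crest.Agent.N207.G.Li
import Crest.Agent.N207.G.One

/-!
# Row 207, block G (helper25): the neck at scale one
-/

set_option autoImplicit false

open scoped ContDiff Manifold

namespace Crest.Agent.N207.Gs

variable {M : Type*} [TopologicalSpace M] [ChartedSpace E4 M] [IsManifold 𝓘(ℝ, E4) ∞ M]
  [T3Space M] [ConnectedSpace M] [MeasurableSpace M] [BorelSpace M]

theorem one1 [CompactSpace M] : ONE1 M := one1_of (deck_of (shl_of dir long lis) lis)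

end Crest.Agent.N207.Gs
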