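import Crest.Agent.N207.G.Rg
import Crest.Agent.N207.I.Iso
import Crest.Agent.N207.I.Rig

/-!
# Row 207, block G (helper25): rigidity of transitions along a filter
-/

set_option autoImplicit false
set_option linter.unusedSectionVars false
set_option maxSynthPendingDepth 3

open scoped ContDiff Manifold Topology
open Set Filter Metric
open Crest.GeometryTopology.CoordMetric
open Crest.Agent.R202.Tens Crest.Agent.N207.Jt

noncomputable section

namespace Crest.Agent.N207.Gs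

variable {n : ℕ} {ι : Type} {l : Filter ι}

theorem ge_of_fderiv {X Y : Type} [NormedAddCommGroup X] [NormedSpace ℝ X] [NormedAddCommGroup Y]
    [NormedSpace ℝ Y] {f f' : ι → X → Y} {x x' : ι → X} (h1 : GB l f x) (h2 : GB l f' x')
    (h0 : Tendsto (fun j => f j (x j) - f' j (x' j)) l (𝓝 0))
    (h : GE l (fun j => fderiv ℝ (f j)) x (fun j => fderiv ℝ (f' j)) x') : GE l f x f' x' := by
  refine ⟨h1, h2, fun k => ?_⟩
  rcases k with _ | k
  · refine tendsto_zero_iff_norm_tendsto_zero.2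
      ((tendsto_zero_iff_norm_tendsto_zero.1 h0).congr fun j => ?_)
    rw [iteratedFDeriv_zero_eq_comp, iteratedFDeriv_zero_eq_comp, Function.comp_apply,
      Function.comp_apply, ← map_sub, LinearIsometryEquiv.norm_map]
  · refine tendsto_zero_iff_norm_tendsto_zero.2
      ((tendsto_zero_iff_norm_tendsto_zero.1 (h.lim k)).congr fun j => ?_)
    rw [iteratedFDeriv_succ_eq_comp_right, iteratedFDeriv_succ_eq_comp_right, Function.comp_apply,
      Function.comp_apply, ← dist_eq_norm, ← dist_eq_norm, LinearIsometryEquiv.dist_map]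

theorem norm_cl_le (A : En n ≃ₗᵢ[ℝ] En n) : ‖(A : En n →L[ℝ] En n)‖ ≤ 1 :=
  ContinuousLinearMap.opNorm_le_bound _ zero_le_one fun x => by simp

theorem fderiv_lie (A : En n ≃ₗᵢ[ℝ] En n) :
    fderiv ℝ (fun y => A y) = fun _ => (A : En n →L[ℝ] En n) :=
  funext fun _ => (A : En n →L[ℝ] En n).fderiv

theorem gb_cl (A : ι → En n ≃ₗᵢ[ℝ] En n) (x : ι → En n) :
    GB l (fun j _ => (A j : En n →L[ℝ] En n)) x :=
  GB.const ⟨1, Eventually.of_forall fun j => norm_cl_le (A j)⟩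

theorem gb_lie (A : ι → En n ≃ₗᵢ[ℝ] En n) {x : ι → En n} (hx : ∃ C, ∀ᶠ j in l, ‖x j‖ ≤ C) :
    GB l (fun j y => A j y) x := (gb_cl A x).app (GB.id hx)

theorem gc_mb {G : ι → MetricField n} {x : ι → En n} (h : GC l G x)
    (hs : ∀ᶠ j in l, ∀ a b, G j (x j) a b = G j (x j) b a) : MB l G x := by
  refine ⟨fun a b => (h a b).left, 1 / 2, by norm_num, ?_⟩
  filter_upwards [hs, ev_quad h (ε := 1 / 2) (by norm_num)] with j h1 h2
  refine ⟨h1, fun v => ?_⟩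
  have := abs_le.1 (h2 v v)
  rw [real_inner_self_eq_norm_sq] at this
  nlinarith [this.1]

theorem ev_ne {G : ι → MetricField n} {S : ι → Set (En n)} (h : MC l G S) {ε : ℝ} (hε : 0 < ε) :
    ∀ᶠ j in l, NE (G j) (S j) ε :=
  ev_un.1 ((ev_quad h (ε := 1 / 10) (by norm_num)).and (ev_gam h hε))

/-- local isometries of asymptotically Euclidean metrics, `C¹` close to orthogonal maps -/
theorem ge_iso {G G' : ι → MetricField n} {T : ι → En n → En n} {y : ι → En n}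
    {A : ι → En n ≃ₗᵢ[ℝ] En n} (hP : ∀ᶠ j in l, ∃ V W, y j ∈ V ∧ Pull (G j) (G' j) (T j) V W)
    (h : GC l G y) (h' : GC l G' fun j => T j (y j)) (hy : ∃ C, ∀ᶠ j in l, ‖y j‖ ≤ C)
    (h0 : Tendsto (fun j => T j (y j) - A j (y j)) l (𝓝 0))
    (h1 : Tendsto (fun j => fderiv ℝ (T j) (y j) - (A j : En n →L[ℝ] En n)) l (𝓝 0)) :
    GE l T y (fun j z => A j z) y := by
  have sy : ∀ {B : Matrix (Fin n) (Fin n) ℝ}, B.PosDef → ∀ a b, B a b = B b a := fun hB a b => by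
    simpa using (hB.isHermitian.apply a b).symm
  have hT : GB l T y := by
    refine iso_gb hP (gc_mb h (hP.mono fun j ⟨V, W, a, b⟩ => sy (b.riem'.posDef _ a)))
      (gc_mb h' (hP.mono fun j ⟨V, W, a, b⟩ => sy (b.riem.posDef _ (b.maps _ a)))) hy ?_
    obtain ⟨C, hC⟩ := hy
    refine ⟨C + 1, ?_⟩
    filter_upwards [hC, Metric.tendsto_nhds.1 h0 1 one_pos] with j a b
    rw [dist_zero_right] at b
    have := norm_add_le (T j (y j) - A j (y j)) (A j (y j))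
    rw [sub_add_cancel, LinearIsometryEquiv.norm_map] at this
    linarith
  refine ge_of_fderiv hT (gb_lie A hy) h0 ?_
  simp only [fderiv_lie]
  refine ge_of_fderiv hT.fderiv (gb_cl A y) h1 ?_
  have g2 : GE l (fun j z => Gam (G' j) (T j z)) y (fun _ _ => 0) y := (ge_gam h').comp hT.ge
  have k := (((ge_gam h).prodMk (g2.prodMk hT.fderiv.ge)).smooth isoR_smooth).smooth
    (Φ := fun L => (ContinuousLinearMap.snd ℝ _ _).comp L) (by fun_prop)
  refine (k.congr_left ?_).congr_right (Eventually.of_forall fun j => ⟨rfl,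
    Eventually.of_forall fun z => ?_⟩)
  · filter_upwards [hP] with j ⟨V, W, a, b⟩
    refine ⟨rfl, mem_of_superset (b.isOpen.mem_nhds a) fun z hz => ?_⟩
    refine ContinuousLinearMap.ext fun X => ContinuousLinearMap.ext fun Y => ?_
    simp [isoR, b.gam_eq hz X Y]
  · refine ContinuousLinearMap.ext fun X => ContinuousLinearMap.ext fun Y => ?_
    simp [isoR]

variable {M : Type*} [TopologicalSpace M] [ChartedSpace (En n) M] [IsManifold 𝓘(ℝ, En n) ∞ M]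
  [T3Space M] [ConnectedSpace M]

/-- chains of three segments -/
def Ch (O : Set (En n)) (x y : En n) : Prop :=
  ∃ u w, segment ℝ x u ⊆ O ∧ segment ℝ u w ⊆ O ∧ segment ℝ w y ⊆ O

theorem ch_of_seg {O : Set (En n)} {x y : En n} (h : segment ℝ x y ⊆ O) : Ch O x y :=
  ⟨x, x, by rw [segment_same]; exact singleton_subset_iff.2 (h (left_mem_segment _ _ _)),
    by rw [segment_same]; exact singleton_subset_iff.2 (h (left_mem_segment _ _ _)), h⟩

/-- the transition is defined at `y`, with errors at most `η` -/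
def Nr (Ψ Ψ' : En n → M) (A : En n ≃ₗᵢ[ℝ] En n) (ρ : ℝ) (O : Set (En n)) (η : ℝ) (y : En n) :
    Prop :=
  y ∈ trD Ψ Ψ' A ρ O ∧ ‖tr Ψ Ψ' A ρ y - A y‖ ≤ η ∧
    ‖fderiv ℝ (tr Ψ Ψ' A ρ) y - (A : En n →L[ℝ] En n)‖ ≤ η

theorem RH.step {Ψ Ψ' : En n → M} {U U' O : Set (En n)} {A : En n ≃ₗᵢ[ℝ] En n} {ρ : ℝ}
    (h : RH Ψ Ψ' U U' A ρ O) (m : Met n M) {ε η R : ℝ} (h1 : NE (m.pm Ψ) U ε)
    (h2 : NE (m.pm Ψ') U' ε) (hR : O ⊆ ball 0 R) (he : ε ≤ η) {y₀ y : En n}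
    (hs : segment ℝ y₀ y ⊆ O) (h0 : Nr Ψ Ψ' A ρ O η y₀)
    (hsm : (1 + 12 * R) * (1 + 2 * R) * η < ρ / 8) :
    Nr Ψ Ψ' A ρ O ((1 + 12 * R) * (1 + 2 * R) * η) y := by
  have a1 := mem_ball_zero_iff.1 (hR (hs (left_mem_segment _ _ _)))
  have a2 := mem_ball_zero_iff.1 (hR (hs (right_mem_segment _ _ _)))
  have hR0 : 0 ≤ R := (norm_nonneg _).trans a1.le
  have hη : 0 ≤ η := (norm_nonneg _).trans h0.2.1
  have hd : ‖y - y₀‖ ≤ 2 * R := (norm_sub_le _ _).trans (by linarith)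
  have b1 : η + 6 * ε * (2 * R) ≤ (1 + 12 * R) * η := by nlinarith [mul_le_mul_of_nonneg_left he hR0]
  have b2 : η + (η + 6 * ε * (2 * R)) * (2 * R) ≤ (1 + 12 * R) * (1 + 2 * R) * η := by
    nlinarith [mul_le_mul_of_nonneg_right b1 hR0, mul_nonneg hR0 hη]
  have b3 : (1 + 12 * R) * η ≤ (1 + 12 * R) * (1 + 2 * R) * η := by
    nlinarith [mul_nonneg hR0 hη, mul_nonneg hR0 (mul_nonneg hR0 hη)]
  have k := h.ext m h1 h2 hs h0.1 hd h0.2.1 h0.2.2 (b2.trans_lt hsm)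
  have e := h.est m h1 h2 k hd h0.2.1 h0.2.2
  exact ⟨k (right_mem_segment _ _ _), e.1.trans b2, e.2.trans (b1.trans b3)⟩

/-- the hypotheses along a filter -/
structure FH (l : Filter ι) (m : ι → Met n M) (Ψ Ψ' : ι → En n → M) (U U' O : ι → Set (En n))
    (A : ι → En n ≃ₗᵢ[ℝ] En n) (ρ : ℝ) (y₀ : ι → En n) : Prop where
  rh : ∀ᶠ j in l, RH (Ψ j) (Ψ' j) (U j) (U' j) (A j) ρ (O j)
  mc : MC l (fun j => (m j).pm (Ψ j)) U
  mc' : MC l (fun j => (m j).pm (Ψ' j)) U'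
  pos : 0 < ρ
  bd : ∃ R, ∀ᶠ j in l, O j ⊆ ball 0 R
  base : ∀ ε > 0, ∀ᶠ j in l, y₀ j ∈ O j ∧ ∃ y' L, Ψ' j y' = Ψ j (y₀ j) ∧
    IsD (Ψ j) (Ψ' j) (y₀ j) y' L ∧ ‖y' - A j (y₀ j)‖ ≤ ε ∧ ‖L - (A j : En n →L[ℝ] En n)‖ ≤ ε

namespace FH

variable {m : ι → Met n M} {Ψ Ψ' : ι → En n → M} {U U' O : ι → Set (En n)}
  {A : ι → En n ≃ₗᵢ[ℝ] En n} {ρ : ℝ} {y₀ : ι → En n}

theorem c1 (h : FH l m Ψ Ψ' U U' O A ρ y₀) {ε : ℝ} (hε : 0 < ε) :
    ∀ᶠ j in l, ∀ y, Ch (O j) (y₀ j) y → Nr (Ψ j) (Ψ' j) (A j) ρ (O j) ε y := by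
  obtain ⟨R', hR'⟩ := h.bd
  have hρ := h.pos
  set R := max R' 0
  have hR0 : 0 ≤ R := le_max_right _ _
  set c := (1 + 12 * R) * (1 + 2 * R) with hc
  have hc1 : 1 ≤ c := by rw [hc]; nlinarith
  set η := min ε (ρ / 9) / c ^ 3 with hη
  have hm : 0 < min ε (ρ / 9) := lt_min hε (by positivity)
  have hη0 : 0 < η := by positivity
  have e3 : c * (c * (c * η)) = min ε (ρ / 9) := by rw [hη]; field_simp
  have l1 : η ≤ c * η := by nlinarith
  have l2 : c * η ≤ c * (c * η) := by nlinarith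
  have l3 : c * (c * η) ≤ c * (c * (c * η)) := by nlinarith
  have l4 : min ε (ρ / 9) < ρ / 8 := (min_le_right _ _).trans_lt (by linarith)
  filter_upwards [h.rh, ev_ne h.mc hη0, ev_ne h.mc' hη0, hR', h.base η hη0] with j r n1 n2 hb
    ⟨b0, y', L, b1, b2, b3, b4⟩ y ⟨u, w, s1, s2, s3⟩
  have hb' : O j ⊆ ball 0 R := hb.trans (ball_subset_ball (le_max_left _ _))
  have a1 : ‖y' - A j (y₀ j)‖ < ρ / 4 := by linarith
  have a2 : y₀ j ∈ trD (Ψ j) (Ψ' j) (A j) ρ (O j) := ⟨b0, y', a1, b1⟩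
  have a3 := r.eq b0 a1 b1
  have a4 := r.isD a2
  rw [a3] at a4
  have k0 : Nr (Ψ j) (Ψ' j) (A j) ρ (O j) η (y₀ j) :=
    ⟨a2, by rwa [a3], by rwa [IsD.unique r.p' (r.mem b0 a1) a4 b2]⟩
  have k1 := r.step (m j) n1 n2 hb' le_rfl s1 k0 (by linarith)
  have k2 := r.step (m j) n1 n2 hb' l1 s2 k1 (by linarith)
  have k3 := r.step (m j) n1 n2 hb' (l1.trans l2) s3 k2 (by linarith)
  have l5 : c * (c * (c * η)) ≤ ε := e3.le.trans (min_le_left _ _)
  exact ⟨k3.1, k3.2.1.trans l5, k3.2.2.trans l5⟩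

theorem dom (h : FH l m Ψ Ψ' U U' O A ρ y₀) {O' : ι → Set (En n)}
    (hc : ∀ᶠ j in l, ∀ y ∈ O' j, Ch (O j) (y₀ j) y) :
    ∀ᶠ j in l, O' j ⊆ trD (Ψ j) (Ψ' j) (A j) ρ (O j) := by
  filter_upwards [h.c1 one_pos, hc] with j a b y hy using (a y (b y hy)).1

/-- **rigidity** -/
theorem ue (h : FH l m Ψ Ψ' U U' O A ρ y₀) {O' : ι → Set (En n)}
    (hc : ∀ᶠ j in l, ∀ y ∈ O' j, Ch (O j) (y₀ j) y) :
    UE l (fun j => tr (Ψ j) (Ψ' j) (A j) ρ) (fun j z => A j z) O' := by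
  have k : ∀ ε > 0, ∀ᶠ p in un l O', Nr (Ψ p.1) (Ψ' p.1) (A p.1) ρ (O p.1) ε p.2 := fun ε hε =>
    ev_un.2 (by filter_upwards [h.c1 hε, hc] with j a b y hy using a y (b y hy))
  have r := (un_fst l O').eventually h.rh
  obtain ⟨R, hR⟩ := h.bd
  refine ge_iso (G := fun p : ι × En n => (m p.1).pm (Ψ p.1))
    (G' := fun p : ι × En n => (m p.1).pm (Ψ' p.1)) (A := fun p : ι × En n => A p.1) ?_ (h.mc.at (un_fst _ _) ?_) (h.mc'.at (un_fst _ _) ?_) ⟨R, ?_⟩ ?_ ?_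
  · filter_upwards [k 1 one_pos, r] with p a b using ⟨_, _, a.1, b.pull (m p.1)⟩
  · filter_upwards [k 1 one_pos, r] with p a b using b.sub a.1.1
  · filter_upwards [k 1 one_pos, r] with p a b using b.mem a.1.1 (RH.spec a.1).1
  · filter_upwards [k 1 one_pos, (un_fst l O').eventually hR] with p a b
    exact (mem_ball_zero_iff.1 (b a.1.1)).le
  · refine Metric.tendsto_nhds.2 fun ε hε => (k (ε / 2) (by positivity)).mono fun p a => ?_
    rw [dist_zero_right]; linarith [a.2.1]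
  · refine Metric.tendsto_nhds.2 fun ε hε => (k (ε / 2) (by positivity)).mono fun p a => ?_
    rw [dist_zero_right]; linarith [a.2.2]

end FH

/-- along an ultrafilter, almost isometric linear maps converge to an orthogonal map -/
theorem exists_orth (𝒰 : Ultrafilter ι) {G G' : ι → MetricField n} {y y' : ι → En n}
    {L : ι → En n →L[ℝ] En n} (h : GC 𝒰 G y) (h' : GC 𝒰 G' y')
    (e : ∀ᶠ j in (𝒰 : Filter ι), ∀ X Y, bil (G j (y j)) X Y = bil (G' j (y' j)) (L j X) (L j Y)) :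
    ∃ A : En n ≃ₗᵢ[ℝ] En n, Tendsto L 𝒰 (𝓝 (A : En n →L[ℝ] En n)) := by
  have hb : ∀ᶠ j in (𝒰 : Filter ι), ‖L j‖ ≤ 2 := by
    filter_upwards [ev_quad h (ε := 1 / 10) (by norm_num), ev_quad h' (ε := 1 / 10) (by norm_num),
      e] with j a b c using norm_le_two a b c
  obtain ⟨B, -, hB⟩ := (isCompact_closedBall (0 : En n →L[ℝ] En n) 2).ultrafilter_le_nhds (𝒰.map L)
    (le_principal_iff.2 (mem_map.2 (hb.mono fun j hj => mem_closedBall_zero_iff.2 hj)))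
  have hB' : Tendsto L 𝒰 (𝓝 B) := hB
  obtain ⟨A, hA⟩ := I.exists_cl B fun x => by
    have h1 : Tendsto (fun j => ‖L j x‖ ^ 2) 𝒰 (𝓝 (‖B x‖ ^ 2)) :=
      (((ContinuousLinearMap.apply ℝ (En n) x).continuous.tendsto B).comp hB').norm.pow 2
    have h2 : Tendsto (fun j => ‖L j x‖ ^ 2) 𝒰 (𝓝 (‖x‖ ^ 2)) := by
      refine Metric.tendsto_nhds.2 fun ε hε => ?_
      have hδ : 0 < ε / (5 * ‖x‖ ^ 2 + 1) := by positivity
      filter_upwards [ev_quad h hδ, ev_quad h' hδ, e, hb] with j a b c d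
      have a1 := abs_le.1 (a x x)
      have b1 := abs_le.1 (b (L j x) (L j x))
      rw [real_inner_self_eq_norm_sq] at a1 b1
      rw [c] at a1
      have d1 : ‖L j x‖ ≤ 2 * ‖x‖ := ((L j).le_opNorm x).trans (by gcongr)
      have d2 : ‖L j x‖ * ‖L j x‖ ≤ 4 * ‖x‖ ^ 2 := by nlinarith [norm_nonneg (L j x)]
      have d3 : ε / (5 * ‖x‖ ^ 2 + 1) * (5 * ‖x‖ ^ 2 + 1) = ε := by field_simp
      have d4 := mul_le_mul_of_nonneg_left d2 hδ.le
      rw [Real.dist_eq, abs_lt]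
      constructor <;> nlinarith [a1.1, a1.2, b1.1, b1.2]
    exact (sq_eq_sq₀ (norm_nonneg _) (norm_nonneg _)).1 (tendsto_nhds_unique h1 h2)
  exact ⟨A, by rw [← hA] at hB'; exact hB'⟩

end Crest.Agent.N207.Gs

end
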